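import Vale.Agent.P101.Bridge.Average

/-!
P101 bridge, block J: the limit of a contracting reaching chain of prime dimension drop algebras is
simple and has exactly one tracial state.
-/

namespace Vale.Agent.P101.Bridge.JiangSu

open Filter Vale.Agent.P101.DropN
open scoped Topology Matrix Matrix.Norms.L2Operator Kronecker unitInterval

theorem isClosed_zpair (p q : ℕ) : IsClosed (ZPair p q : Set C(I, Fib p q)) := by
  let L : Matrix (Fin p) (Fin p) ℂ →ₗ[ℂ] Fib p q :=
    { toFun := fun A => A ⊗ₖ (1 : Matrix (Fin q) (Fin q) ℂ)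
      map_add' := fun A B => Matrix.add_kronecker _ _ _
      map_smul' := fun c A => Matrix.smul_kronecker _ _ _ }
  let R : Matrix (Fin q) (Fin q) ℂ →ₗ[ℂ] Fib p q :=
    { toFun := fun B => (1 : Matrix (Fin p) (Fin p) ℂ) ⊗ₖ B
      map_add' := fun A B => Matrix.kronecker_add _ _ _
      map_smul' := fun c A => Matrix.kronecker_smul _ _ _ }
  have e : (ZPair p q : Set C(I, Fib p q))
      = (fun f : C(I, Fib p q) => f 0) ⁻¹' (LinearMap.range L : Set (Fib p q)) ∩
        (fun f : C(I, Fib p q) => f 1) ⁻¹' (LinearMap.range R : Set (Fib p q)) := by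
    ext f
    exact ⟨fun ⟨⟨a, ha⟩, ⟨b, hb⟩⟩ => ⟨⟨a, ha.symm⟩, ⟨b, hb.symm⟩⟩,
      fun ⟨⟨a, ha⟩, ⟨b, hb⟩⟩ => ⟨⟨a, ha.symm⟩, ⟨b, hb.symm⟩⟩⟩
  rw [e]
  exact ((Submodule.closed_of_finiteDimensional _).preimage (continuous_eval_const (0 : I))).inter
    ((Submodule.closed_of_finiteDimensional _).preimage (continuous_eval_const (1 : I)))

noncomputable instance zpairCStarAlgebra (p q : ℕ) : CStarAlgebra (ZPair p q) :=
  StarSubalgebra.cstarAlgebra _ (h_closed := isClosed_zpair p q)

variable {S : Chain}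

theorem comp_compat {D : Type} [CStarAlgebra D] {ι : ∀ k, ZPair (S.p k) (S.q k) →⋆ₐ[ℂ] D}
    (hι : IsLimit S ι) (k : ℕ) (x : ZPair (S.p k) (S.q k)) :
    ∀ j, ι (k + j) (S.comp k j x) = ι k x
  | 0 => rfl
  | j + 1 => (hι.compat (k + j) _).trans (comp_compat hι k x j)

variable (hS : ∀ k j,
    Contracts (S.comp k j) ((1 / 2) ^ j) ∧ Reaches (S.comp k j) ((1 / 2) ^ j))
include hS

/-- Late fibre traces are almost constant. -/
theorem ntr_almost_const (k : ℕ) (x : ZPair (S.p k) (S.q k)) {η : ℝ} (hη : 0 < η) :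
    ∃ m, ∀ j, m ≤ j → ∀ s t : I,
      ‖ntr ((S.comp k j x : C(I, Fib (S.p (k + j)) (S.q (k + j)))) s)
        - ntr ((S.comp k j x : C(I, Fib (S.p (k + j)) (S.q (k + j)))) t)‖ ≤ η := by
  obtain ⟨δ, hδ, hx⟩ := Metric.uniformContinuous_iff.1
    (CompactSpace.uniformContinuous_of_continuous
      (map_continuous (x : C(I, Fib (S.p k) (S.q k))))) η hη
  obtain ⟨m, hm⟩ := exists_pow_lt_of_lt_one (half_pos hδ) (by norm_num : (1 / 2 : ℝ) < 1)
  refine ⟨m, fun j hj s t => ?_⟩
  obtain ⟨u, hu, hc⟩ := (hS k j).1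
  have hle : ((1 : ℝ) / 2) ^ j ≤ (1 / 2) ^ m :=
    pow_le_pow_of_le_one (by norm_num) (by norm_num) hj
  have h := hc x η (δ / 2) (fun a b hab => by
      rw [← dist_eq_norm]
      exact (hx (lt_of_le_of_lt hab (half_lt_self hδ))).le) s t
    (le_trans (mul_le_of_le_one_right (by positivity) (by
      rw [Subtype.dist_eq]
      exact Real.dist_le_of_mem_Icc_01 s.2 t.2)) (hle.trans hm.le))
  have e : ∀ r : I, ∀ X : Fib (S.p (k + j)) (S.q (k + j)),
      ntr (star (u r) * X * u r) = ntr X := fun r X => by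
    rw [ntr_mul_comm, ← mul_assoc, Unitary.mul_star_self_of_mem (hu r), one_mul]
  calc _ = ‖ntr (star (u s) * (S.comp k j x : C(I, Fib (S.p (k + j)) (S.q (k + j)))) s * u s)
          - ntr (star (u t) * (S.comp k j x : C(I, Fib (S.p (k + j)) (S.q (k + j)))) t * u t)‖ := by
        rw [e, e]
    _ ≤ η := by rw [← ntr_sub]; exact (norm_ntr_le _).trans h

variable {D : Type} [CStarAlgebra D] {ι : ∀ k, ZPair (S.p k) (S.q k) →⋆ₐ[ℂ] D}
  (hι : IsLimit S ι)
include hι

omit hS hι in
theorem nonempty_fin_prod (k : ℕ) : Nonempty (Fin (S.p k) × Fin (S.q k)) :=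
  ⟨(⟨0, by have := S.two_p k; omega⟩, ⟨0, by have := S.two_q k; omega⟩)⟩

/-- A tracial functional is the late fibre trace. -/
theorem tracial_eq (τ : D →L[ℂ] ℂ) (h1 : τ 1 = 1) (hτ : ∀ x y, τ (x * y) = τ (y * x))
    (k : ℕ) (x : ZPair (S.p k) (S.q k)) {η : ℝ} (hη : 0 < η) :
    ∃ m, ∀ j, m ≤ j →
      ‖τ (ι k x) - ntr ((S.comp k j x : C(I, Fib (S.p (k + j)) (S.q (k + j)))) 0)‖
        ≤ ‖τ‖ * (2 * η) := by
  obtain ⟨m, hm⟩ := ntr_almost_const hS k x hη
  refine ⟨m, fun j hj => ?_⟩
  set n := k + j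
  set y := S.comp k j x with hy
  have := nonempty_fin_prod (S := S) n
  obtain ⟨N, a, -, ha, hb⟩ := exists_average (P := S.p n) (Q := S.q n)
    (by have := S.two_p n; omega) (by have := S.two_q n; omega) y η hη
  set c := ntr ((y : C(I, Fib (S.p n) (S.q n))) 0) with hc
  have key : τ (ι n (∑ i, star (a i) * y * a i)) = τ (ι k x) := by
    rw [← comp_compat hι k x j, map_sum, map_sum]
    have e : ∀ i, τ (ι n (star (a i) * y * a i)) = τ (ι n (y * (a i * star (a i)))) := fun i => by
      rw [mul_assoc (star (a i)), map_mul, hτ, ← map_mul, mul_assoc]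
    rw [Finset.sum_congr rfl fun i _ => e i, ← map_sum, ← map_sum, ← Finset.mul_sum, ha, mul_one]
  have hz : ‖(∑ i, star (a i) * y * a i) - c • (1 : ZPair (S.p n) (S.q n))‖ ≤ 2 * η := by
    show ‖((((∑ i, star (a i) * y * a i) - c • (1 : ZPair (S.p n) (S.q n)))
      : ZPair (S.p n) (S.q n)) : C(I, Fib (S.p n) (S.q n)))‖ ≤ 2 * η
    refine (ContinuousMap.norm_le _ (by positivity)).2 fun t => ?_
    simp only [AddSubgroupClass.coe_sub, AddSubmonoidClass.coe_finsetSum, MulMemClass.coe_mul,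
      StarMemClass.coe_star, SetLike.val_smul, OneMemClass.coe_one, ContinuousMap.sub_apply,
      ContinuousMap.sum_apply, ContinuousMap.mul_apply, ContinuousMap.star_apply,
      ContinuousMap.smul_apply, ContinuousMap.one_apply]
    refine (norm_sub_le_norm_sub_add_norm_sub _
      (ntr ((y : C(I, Fib (S.p n) (S.q n))) t) • (1 : Fib (S.p n) (S.q n))) _).trans ?_
    rw [← sub_smul, norm_smul, norm_one, mul_one]
    linarith [hb t, hm j hj t 0]
  have e2 : τ (ι k x) - c = τ (ι n ((∑ i, star (a i) * y * a i) - c • 1)) := by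
    rw [map_sub, map_sub, key, map_smul, map_one, map_smul, h1, smul_eq_mul, mul_one]
  rw [e2]
  exact (τ.le_opNorm _).trans (mul_le_mul_of_nonneg_left
    ((NonUnitalStarAlgHom.norm_apply_le (ι n) _).trans hz) (norm_nonneg _))

theorem tracial_unique (τ τ₂ : D →L[ℂ] ℂ) (hτ : IsTracialState τ) (hτ₂ : IsTracialState τ₂) :
    τ = τ₂ := by
  have h : ∀ k x, τ (ι k x) = τ₂ (ι k x) := by
    intro k x
    by_contra hne
    have hd : 0 < ‖τ (ι k x) - τ₂ (ι k x)‖ := norm_pos_iff.2 (sub_ne_zero.2 hne)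
    set d := ‖τ (ι k x) - τ₂ (ι k x)‖
    have hη : 0 < d / (4 * (‖τ‖ + ‖τ₂‖ + 1)) := by positivity
    obtain ⟨m, hm⟩ := tracial_eq hS hι τ hτ.1 hτ.2.2 k x hη
    obtain ⟨m', hm'⟩ := tracial_eq hS hι τ₂ hτ₂.1 hτ₂.2.2 k x hη
    have a := hm (max m m') (le_max_left _ _)
    have b := hm' (max m m') (le_max_right _ _)
    have t := norm_sub_le_norm_sub_add_norm_sub (τ (ι k x))
      (ntr ((S.comp k (max m m') x :
        C(I, Fib (S.p (k + max m m')) (S.q (k + max m m')))) 0)) (τ₂ (ι k x))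
    rw [norm_sub_rev (ntr _) (τ₂ _)] at t
    have e : d / (4 * (‖τ‖ + ‖τ₂‖ + 1)) * (4 * (‖τ‖ + ‖τ₂‖ + 1)) = d :=
      div_mul_cancel₀ _ (by positivity)
    nlinarith [norm_nonneg τ, norm_nonneg τ₂]
  refine ContinuousLinearMap.coeFn_injective ?_
  refine Continuous.ext_on hι.dense τ.continuous τ₂.continuous ?_
  intro z hz
  obtain ⟨k, x, rfl⟩ := Set.mem_iUnion.1 hz
  exact h k x

omit hS in
theorem exists_stage (d : D) {ε : ℝ} (hε : 0 < ε) : ∃ k x, ‖d - ι k x‖ < ε := by
  obtain ⟨z, hz, hd⟩ := Metric.mem_closure_iff.1 (hι.dense d) ε hε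
  obtain ⟨k, x, rfl⟩ := Set.mem_iUnion.1 hz
  exact ⟨k, x, by rwa [← dist_eq_norm]⟩

omit hS in
theorem exists_functional (n : ℕ) : ∃ f : D →L[ℂ] ℂ, ‖f‖ ≤ 1 ∧
    ∀ y, f (ι n y) = ntr ((y : C(I, Fib (S.p n) (S.q n))) 0) := by
  let L : ZPair (S.p n) (S.q n) →ₗ[ℂ] D := (ι n).toAlgHom.toLinearMap
  let g : ZPair (S.p n) (S.q n) →ₗ[ℂ] ℂ :=
    { toFun := fun y => ntr ((y : C(I, Fib (S.p n) (S.q n))) 0)
      map_add' := fun a b => by simp [ntr, Matrix.trace_add, mul_add]
      map_smul' := fun c a => by simp [ntr, Matrix.trace_smul]; ring }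
  let e := LinearEquiv.ofInjective L (hι.injective n)
  have hg : ∀ z, ‖(g.comp e.symm.toLinearMap) z‖ ≤ 1 * ‖z‖ := by
    intro z
    obtain ⟨y, rfl⟩ := e.surjective z
    simp only [LinearMap.comp_apply, LinearEquiv.coe_coe, LinearEquiv.symm_apply_apply, one_mul]
    refine (norm_ntr_le _).trans ((ContinuousMap.norm_coe_le_norm _ _).trans ?_)
    exact (NonUnitalStarAlgHom.norm_map (ι n) (hι.injective n) y).ge
  obtain ⟨f, hf, hfn⟩ := exists_extension_norm_eq (LinearMap.range L)
    ((g.comp e.symm.toLinearMap).mkContinuous 1 hg)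
  refine ⟨f, hfn ▸ LinearMap.mkContinuous_norm_le _ zero_le_one _, fun y => ?_⟩
  have h := hf (e y)
  rw [LinearMap.mkContinuous_apply, LinearMap.comp_apply, LinearEquiv.coe_coe,
    LinearEquiv.symm_apply_apply] at h
  exact h

omit hS in
theorem exists_tracial : ∃ τ : D →L[ℂ] ℂ, IsTracialState τ := by
  choose f hfn hf using exists_functional hι
  let U : Ultrafilter ℕ := hyperfilter ℕ
  have hlim : ∀ d : D, ∃ l : ℂ, Tendsto (fun n => f n d) (U : Filter ℕ) (𝓝 l) := by
    intro d
    obtain ⟨l, -, hl⟩ := (isCompact_closedBall (0 : ℂ) ‖d‖).ultrafilter_le_nhds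
      (U.map fun n => f n d) (by
        rw [Ultrafilter.coe_map, le_principal_iff]
        exact mem_map.2 (Filter.univ_mem' fun n => by
          rw [Set.mem_preimage, mem_closedBall_zero_iff]
          exact ((f n).le_opNorm d).trans
            ((mul_le_mul_of_nonneg_right (hfn n) (norm_nonneg _)).trans_eq (one_mul _))))
    exact ⟨l, hl⟩
  choose T hT using hlim
  let Tl : D →ₗ[ℂ] ℂ :=
    { toFun := T
      map_add' := fun a b => tendsto_nhds_unique (hT (a + b))
        (by simpa only [map_add] using (hT a).add (hT b))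
      map_smul' := fun c a => tendsto_nhds_unique (hT (c • a))
        (by simpa only [map_smul, RingHom.id_apply] using (hT a).const_smul c) }
  have hTb : ∀ d, ‖Tl d‖ ≤ 1 * ‖d‖ := fun d =>
    le_of_tendsto (hT d).norm (Eventually.of_forall fun n =>
      ((f n).le_opNorm d).trans (mul_le_mul_of_nonneg_right (hfn n) (norm_nonneg _)))
  let τ := Tl.mkContinuous 1 hTb
  have hU : (U : Filter ℕ) ≤ atTop := by
    rw [← Nat.cofinite_eq_atTop]; exact hyperfilter_le_cofinite
  -- the values on a stage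
  have hstage : ∀ k x (Z : Set ℂ), IsClosed Z →
      (∀ j, ntr ((S.comp k j x : C(I, Fib (S.p (k + j)) (S.q (k + j)))) 0) ∈ Z) →
      τ (ι k x) ∈ Z := by
    intro k x Z hZ hj
    refine hZ.mem_of_tendsto (hT (ι k x)) ?_
    filter_upwards [hU (eventually_ge_atTop k)] with n hn
    obtain ⟨j, rfl⟩ := Nat.exists_eq_add_of_le hn
    rw [← comp_compat hι k x j, hf]
    exact hj j
  refine ⟨τ, ?_, fun x => ?_, fun x y => ?_⟩
  · have := hstage 0 1 {1} isClosed_singleton fun j => by
      rw [map_one]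
      exact ntr_one (by have := S.two_p (0 + j); omega) (by have := S.two_q (0 + j); omega)
    simpa using this
  · revert x
    refine fun x => hι.dense.induction (P := fun d => τ (star d * d) ∈
      {z : ℂ | 0 ≤ z.re ∧ z.im = 0}) ?_ ?_ x
    · intro z hz
      obtain ⟨k, y, rfl⟩ := Set.mem_iUnion.1 hz
      rw [← map_star, ← map_mul]
      refine hstage k _ _ ?_ fun j => ?_
      · exact (isClosed_le continuous_const Complex.continuous_re).inter
          (isClosed_eq Complex.continuous_im continuous_const)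
      · rw [map_mul, map_star]
        exact ntr_star_mul_self_nonneg _
    · exact ((isClosed_le continuous_const Complex.continuous_re).inter
        (isClosed_eq Complex.continuous_im continuous_const)).preimage
          (τ.continuous.comp (continuous_star.mul continuous_id))
  · have hc : ∀ k (a b : ZPair (S.p k) (S.q k)), τ (ι k a * ι k b) = τ (ι k b * ι k a) := by
      intro k a b
      rw [← map_mul, ← map_mul, ← sub_eq_zero, ← map_sub, ← map_sub]
      refine hstage k _ {0} isClosed_singleton fun j => ?_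
      show ntr _ = 0
      rw [map_sub, map_mul, map_mul, AddSubgroupClass.coe_sub, MulMemClass.coe_mul,
        MulMemClass.coe_mul, ContinuousMap.sub_apply, ContinuousMap.mul_apply,
        ContinuousMap.mul_apply, ntr_sub, ntr_mul_comm, sub_self]
    have hmono : ∀ k K, k ≤ K → ∀ a, ∃ a', ι K a' = ι k a := fun k K hkK a => by
      obtain ⟨j, rfl⟩ := Nat.exists_eq_add_of_le hkK
      exact ⟨_, comp_compat hι k a j⟩
    refine hι.dense.induction (P := fun d => τ (d * y) = τ (y * d)) ?_
      (isClosed_eq (τ.continuous.comp (continuous_id.mul continuous_const))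
        (τ.continuous.comp (continuous_const.mul continuous_id))) x
    intro d hd
    refine hι.dense.induction (P := fun e => τ (d * e) = τ (e * d)) ?_
      (isClosed_eq (τ.continuous.comp (continuous_const.mul continuous_id))
        (τ.continuous.comp (continuous_id.mul continuous_const))) y
    intro e he
    obtain ⟨k, a, rfl⟩ := Set.mem_iUnion.1 hd
    obtain ⟨l, b, rfl⟩ := Set.mem_iUnion.1 he
    obtain ⟨a', ha'⟩ := hmono k (max k l) (le_max_left _ _) a
    obtain ⟨b', hb'⟩ := hmono l (max k l) (le_max_right _ _) b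
    rw [← ha', ← hb']
    exact hc _ a' b'

/-- The square of a nonzero stage element averages to something bounded below. -/
theorem exists_lower [PartialOrder D] [StarOrderedRing D] (k : ℕ)
    (e0 : ZPair (S.p k) (S.q k)) (hene : e0 ≠ 0) :
    ∃ (N : ℕ) (b : Fin N → D) (r : ℝ), 0 < r ∧
      algebraMap ℝ D r ≤ ∑ i, star (b i) * (star (ι k e0) * ι k e0) * b i := by
  -- fibre traces of a late image of e * e
  obtain ⟨r0, hr0⟩ : ∃ r, (e0 : C(I, Fib (S.p k) (S.q k))) r ≠ 0 := by
    by_contra h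
    push Not at h
    exact hene (Subtype.ext (ContinuousMap.ext h))
  obtain ⟨δ, hδ, hball⟩ := Metric.eventually_nhds_iff.1
    ((map_continuous (e0 : C(I, Fib (S.p k) (S.q k)))).continuousAt.eventually_ne hr0)
  obtain ⟨j, hj⟩ := exists_pow_lt_of_lt_one hδ (by norm_num : (1 / 2 : ℝ) < 1)
  set n := k + j
  have := nonempty_fin_prod (S := S) n
  have hP : 0 < S.p n := by have := S.two_p n; omega
  have hQ : 0 < S.q n := by have := S.two_q n; omega
  set G : ZPair (S.p n) (S.q n) := S.comp k j (star e0 * e0) with hG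
  set G' : I → Fib (S.p n) (S.q n) := fun t => (G : C(I, Fib (S.p n) (S.q n))) t with hG'
  have hGfib : ∀ t, 0 < (ntr (G' t)).re ∧ (ntr (G' t)).im = 0 := by
    intro t
    have hne : (S.comp k j e0 : C(I, Fib (S.p n) (S.q n))) t ≠ 0 := fun h0 => by
      obtain ⟨r', hr', hr''⟩ := (hS k j).2 e0 t h0 r0
      exact hball (by rw [dist_comm]; exact hr'.trans_lt hj) hr''
    simp only [hG', hG, map_mul, map_star]
    exact ⟨ntr_star_mul_self_pos hP hQ hne, (ntr_star_mul_self_nonneg _).2⟩
  have hcont : Continuous fun t => (ntr (G' t)).re :=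
    Complex.continuous_re.comp (continuous_ntr.comp (map_continuous _))
  obtain ⟨t0, -, ht0⟩ := isCompact_univ.exists_isMinOn Set.univ_nonempty hcont.continuousOn
  obtain ⟨t1, -, ht1⟩ := isCompact_univ.exists_isMaxOn Set.univ_nonempty hcont.continuousOn
  set c := (ntr (G' t0)).re with hc
  set C := (ntr (G' t1)).re with hC
  have hcp : 0 < c := (hGfib t0).1
  obtain ⟨N, a, -, -, hav⟩ := exists_average hP hQ G (c / 2) (by positivity)
  set W : ZPair (S.p n) (S.q n) := ∑ i, star (a i) * G * a i with hW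
  have hWC : ‖W - (C : ℂ) • (1 : ZPair (S.p n) (S.q n))‖ ≤ C - c / 2 := by
    have hcC : c ≤ C := ht0 (Set.mem_univ t1)
    show ‖((W - (C : ℂ) • (1 : ZPair (S.p n) (S.q n)) : ZPair (S.p n) (S.q n))
      : C(I, Fib (S.p n) (S.q n)))‖ ≤ C - c / 2
    refine (ContinuousMap.norm_le _ (by linarith)).2 fun t => ?_
    simp only [hW, AddSubgroupClass.coe_sub, AddSubmonoidClass.coe_finsetSum, MulMemClass.coe_mul,
      StarMemClass.coe_star, SetLike.val_smul, OneMemClass.coe_one, ContinuousMap.sub_apply,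
      ContinuousMap.sum_apply, ContinuousMap.mul_apply, ContinuousMap.star_apply,
      ContinuousMap.smul_apply, ContinuousMap.one_apply]
    refine (norm_sub_le_norm_sub_add_norm_sub _
      (ntr (G' t) • (1 : Fib (S.p n) (S.q n))) _).trans ?_
    rw [← sub_smul, norm_smul, norm_one, mul_one]
    have h1 : ntr (G' t) - (C : ℂ) = (((ntr (G' t)).re - C : ℝ) : ℂ) := by
      apply Complex.ext <;> simp [(hGfib t).2]
    have h2 : (ntr (G' t)).re ≤ C := ht1 (Set.mem_univ t)
    have h3 : c ≤ (ntr (G' t)).re := ht0 (Set.mem_univ t)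
    have h4 := hav t
    rw [h1, Complex.norm_real, Real.norm_eq_abs, abs_of_nonpos (by linarith)]
    linarith
  have hWs : IsSelfAdjoint W := by
    rw [isSelfAdjoint_iff, hW, star_sum]
    refine Finset.sum_congr rfl fun i _ => ?_
    simp [hG, star_mul, mul_assoc, map_mul, map_star]
  have hWge : algebraMap ℝ D (c / 2) ≤ ι n W := by
    have hs : IsSelfAdjoint (ι n W - algebraMap ℝ D C) :=
      (hWs.map (ι n)).sub (IsSelfAdjoint.algebraMap D (IsSelfAdjoint.all C))
    have hn : ‖ι n W - algebraMap ℝ D C‖ ≤ C - c / 2 := by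
      have e : ι n W - algebraMap ℝ D C = ι n (W - (C : ℂ) • (1 : ZPair (S.p n) (S.q n))) := by
        rw [map_sub, map_smul, map_one, Algebra.algebraMap_eq_smul_one, Complex.coe_smul]
      rw [e]
      exact (NonUnitalStarAlgHom.norm_apply_le (ι n) _).trans hWC
    have h := (neg_le_neg (algebraMap_mono D hn)).trans
      (IsSelfAdjoint.neg_algebraMap_norm_le_self hs)
    rw [neg_le_sub_iff_le_add, map_sub, ← sub_le_iff_le_add, sub_sub_cancel] at h
    exact h
  refine ⟨N, fun i => ι n (a i), c / 2, half_pos hcp, hWge.trans (le_of_eq ?_)⟩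
  rw [hW, map_sum]
  refine Finset.sum_congr rfl fun i _ => ?_
  rw [map_mul, map_mul, map_star, hG, comp_compat hι, map_mul, map_star]

theorem simple (x : D) (hx : x ≠ 0) :
    ∃ (n : ℕ) (a b : Fin n → D), ∑ i, a i * x * b i = 1 := by
  let _ : PartialOrder D := CStarAlgebra.spectralOrder D
  have : StarOrderedRing D := CStarAlgebra.spectralOrderedRing D
  have : Nontrivial D := ⟨⟨x, 0, hx⟩⟩
  set z := star x * x with hz
  have hz0 : 0 ≤ z := star_mul_self_nonneg x
  set M := ‖z‖ with hM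
  have hMp : 0 < M := norm_pos_iff.2 ((CStarRing.star_mul_self_ne_zero_iff x).2 hx)
  obtain ⟨k, y1, hy1⟩ := exists_stage hι z (show 0 < M / 8 by positivity)
  set y0 : ZPair (S.p k) (S.q k) := (2⁻¹ : ℂ) • (y1 + star y1) with hy0
  have y0s : IsSelfAdjoint y0 := by
    rw [hy0]
    exact IsSelfAdjoint.smul (by simp [isSelfAdjoint_iff]) (IsSelfAdjoint.add_star_self y1)
  set Y := ι k y0 with hY
  have hYs : IsSelfAdjoint Y := y0s.map (ι k)
  have hzY : ‖z - Y‖ ≤ M / 8 := by
    have e : z - Y = (2⁻¹ : ℂ) • ((z - ι k y1) + star (z - ι k y1)) := by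
      rw [star_sub, (IsSelfAdjoint.star_mul_self x).star_eq, hY, hy0, map_smul, map_add, map_star]
      module
    rw [e, norm_smul]
    have h2 : ‖(2⁻¹ : ℂ)‖ = 2⁻¹ := by norm_num
    have := norm_add_le (z - ι k y1) (star (z - ι k y1))
    rw [norm_star] at this
    rw [h2]
    linarith
  have hzs : IsSelfAdjoint (z - Y) := (IsSelfAdjoint.star_mul_self x).sub hYs
  have hup : z ≤ Y + algebraMap ℝ D (M / 8) := by
    rw [← sub_le_iff_le_add']
    exact hzs.le_algebraMap_norm_self.trans (algebraMap_mono D hzY)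
  have hlow : Y - algebraMap ℝ D (M / 8) ≤ z := by
    have := (neg_le_neg (algebraMap_mono D hzY)).trans
      (IsSelfAdjoint.neg_algebraMap_norm_le_self hzs)
    rwa [neg_le_sub_iff_le_add, ← sub_le_iff_le_add] at this
  let g : ℝ → ℝ := fun t => max 0 (t - M / 2)
  have hg : Continuous g := by fun_prop
  set e0 : ZPair (S.p k) (S.q k) := cfc g y0 with he0
  set e := ι k e0 with he
  have hecfc : e = cfc g Y :=
    StarAlgHomClass.map_cfc (ι k) g y0 hg.continuousOn
      (AddMonoidHomClass.continuous_of_bound (ι k) 1 fun w => by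
        rw [one_mul]; exact NonUnitalStarAlgHom.norm_apply_le (ι k) w) y0s hYs
  have hes : star e = e := by rw [hecfc]; exact (cfc_predicate g Y : IsSelfAdjoint _).star_eq
  -- e is not zero
  have hene : e0 ≠ 0 := by
    intro h0
    have h1 : cfc g Y = cfc (fun _ : ℝ => (0 : ℝ)) Y := by
      rw [← hecfc, he, h0, map_zero, cfc_const_zero]
    have h2 : Y ≤ algebraMap ℝ D (M / 2) := by
      refine le_algebraMap_of_spectrum_le (fun t ht => ?_) hYs
      have heq := eqOn_of_cfc_eq_cfc h1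
      have h3 : t - M / 2 ≤ 0 := (le_max_right (0 : ℝ) _).trans_eq (heq ht)
      linarith
    have h3 : z ≤ algebraMap ℝ D (M / 2 + M / 8) := by
      rw [map_add]; exact hup.trans (by gcongr)
    have h4 := (CStarAlgebra.norm_le_iff_le_algebraMap z (by positivity) hz0).2 h3
    linarith
  -- the conjugate of z dominates a multiple of the square of e
  have hdom : (3 * M / 8) • (star e * e) ≤ star e * z * e := by
    refine le_trans ?_ (star_left_conjugate_le_conjugate hlow e)
    rw [hes, hecfc]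
    have e1 : cfc g Y * cfc g Y = cfc (fun t => g t * g t) Y := (cfc_mul g g Y).symm
    have e2 : cfc g Y * (Y - algebraMap ℝ D (M / 8)) * cfc g Y
        = cfc (fun t => g t * (t - M / 8) * g t) Y := by
      rw [cfc_mul (fun t => g t * (t - M / 8)) g Y, cfc_mul g (fun t => t - M / 8) Y,
        cfc_sub (fun t => t) (fun _ => M / 8) Y, cfc_id' ℝ Y, cfc_const (M / 8) Y]
    rw [e1, e2, ← cfc_smul (3 * M / 8) (fun t => g t * g t) Y]
    refine cfc_mono fun t _ => ?_
    rcases le_or_gt t (M / 2) with ht | ht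
    · rw [show g t = 0 from max_eq_left (by linarith)]; simp
    · have : 0 ≤ g t * g t := mul_self_nonneg _
      rw [smul_eq_mul]
      nlinarith
  -- the conclusion
  obtain ⟨N, a, r, hr, hWge⟩ := exists_lower hS hι k e0 hene
  let b : Fin N → D := fun i => e * a i
  set V := ∑ i, star (b i) * z * b i with hV
  have hVge : algebraMap ℝ D (3 * M / 8 * r) ≤ V := by
    have h1 : (3 * M / 8) • (∑ i, star (a i) * (star e * e) * a i) ≤ V := by
      rw [hV, Finset.smul_sum]
      refine Finset.sum_le_sum fun i _ => ?_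
      have := star_left_conjugate_le_conjugate hdom (a i)
      simpa [b, star_mul, mul_assoc, mul_smul_comm, smul_mul_assoc] using this
    refine le_trans ?_ h1
    rw [map_mul, ← Algebra.smul_def]
    exact smul_le_smul_of_nonneg_left hWge (by positivity)
  obtain ⟨u, hu⟩ : IsUnit V :=
    CStarAlgebra.isUnit_of_le _ hVge
      (isStrictlyPositive_algebraMap (by positivity : 0 < 3 * M / 8 * r))
  refine ⟨N, fun i => (↑u⁻¹ : D) * star (b i) * star x, b, ?_⟩
  have e : ∀ i, (↑u⁻¹ : D) * star (b i) * star x * x * b i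
      = (↑u⁻¹ : D) * (star (b i) * z * b i) := fun i => by simp only [hz, mul_assoc]
  rw [Finset.sum_congr rfl fun i _ => e i, ← Finset.mul_sum, ← hV, ← hu, Units.inv_mul]

omit hS hι in
/-- Block J. -/
theorem jiangSuPin : JiangSuPin := by
  intro S hS D _ ι hι
  refine ⟨⟨fun k => Set.range (ι k), monotone_nat_of_le_succ fun k => ?_, fun k =>
    ⟨S.p k, S.q k, S.two_p k, S.two_q k, S.coprime k, fun x => ι k ⟨x.1, x.2⟩, ?_, rfl⟩, ?_⟩,
    simple hS hι, ?_⟩
  · rintro _ ⟨x, rfl⟩
    exact ⟨S.φ k x, hι.compat k x⟩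
  · refine ⟨fun x y hxy => Subtype.ext (congrArg Subtype.val (hι.injective k hxy)),
      fun x hx => ?_, fun x y z h => ?_, fun x y z h => ?_,
      fun c x z h => ?_, fun x z h => ?_⟩
    · rw [← map_one (ι k)]
      exact congrArg (ι k) (Subtype.ext (ContinuousMap.ext hx))
    · rw [← map_add]
      exact congrArg (ι k) (Subtype.ext (ContinuousMap.ext h))
    · rw [← map_mul]
      exact congrArg (ι k) (Subtype.ext (ContinuousMap.ext h))
    · rw [← map_smul]
      exact congrArg (ι k) (Subtype.ext (ContinuousMap.ext h))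
    · rw [← map_star]
      exact congrArg (ι k) (Subtype.ext (ContinuousMap.ext h))
  · exact hι.dense
  · obtain ⟨τ, hτ⟩ := exists_tracial hι
    exact ⟨τ, hτ, fun τ₂ hτ₂ => tracial_unique hS hι τ₂ τ hτ₂ hτ⟩

end Vale.Agent.P101.Bridge.JiangSu
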