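import Vale.Agent.P101.Bridge.SeqMod
import Vale.Agent.P101.Bridge.JiangSu

/-!
P101 bridge, assembly: the blocks give absorption of the Jiang-Su algebra. A finite set of a late
stage is nearly flipped by a unitary of the square algebra; through a unital map of the stage into
the central sequences and the second tensor factor this gives the input of the intertwining.
-/

namespace Vale.Agent.P101.Bridge

open Filter Vale.Agent.P101.DropN
open scoped Topology BoundedContinuousFunction Matrix Matrix.Norms.L2Operator Kronecker unitInterval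

theorem limit_comp {S : Chain} {D : Type} [CStarAlgebra D]
    {ι : ∀ k, ZPair (S.p k) (S.q k) →⋆ₐ[ℂ] D} (hlim : IsLimit S ι) (k j : ℕ)
    (x : ZPair (S.p k) (S.q k)) : ι (k + j) (S.comp k j x) = ι k x := by
  induction j with
  | zero => rfl
  | succ j ih => exact (hlim.compat (k + j) (S.comp k j x)).trans ih

theorem continuous_starAlgHom {C G : Type} [CStarAlgebra C] [CStarAlgebra G] (f : C →⋆ₐ[ℂ] G) :
    Continuous f :=
  AddMonoidHomClass.continuous_of_bound f 1 fun x => by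
    rw [one_mul]; exact NonUnitalStarAlgHom.norm_apply_le f x

/-- A finite set of a stage is nearly constant, up to a unitary path, at a late stage. -/
theorem exists_stage {S : Chain} (hC : ∀ k j, Contracts (S.comp k j) ((1 / 2) ^ j)) (k : ℕ)
    (X : Finset (ZPair (S.p k) (S.q k))) {η : ℝ} (hη : 0 < η) :
    ∃ j, ∃ U : C(I, Fib (S.p (k + j)) (S.q (k + j))),
      (∀ t, U t ∈ unitary (Fib (S.p (k + j)) (S.q (k + j)))) ∧ U 0 = 1 ∧
      ∀ x ∈ X, ∀ s : I, ‖(S.comp k j x : C(I, Fib (S.p (k + j)) (S.q (k + j)))) s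
        - U s * (S.comp k j x : C(I, Fib (S.p (k + j)) (S.q (k + j)))) 0 * star (U s)‖ ≤ η := by
  have huc : ∀ x : ZPair (S.p k) (S.q k), ∃ δ > (0 : ℝ), ∀ a b : I, dist a b < δ →
      ‖(x : C(I, Fib (S.p k) (S.q k))) a - (x : C(I, Fib (S.p k) (S.q k))) b‖ < η := fun x => by
    obtain ⟨δ, hδ, h⟩ := Metric.uniformContinuous_iff.1
      (CompactSpace.uniformContinuous_of_continuous (x : C(I, Fib (S.p k) (S.q k))).continuous) η hη
    exact ⟨δ, hδ, fun a b hab => by simpa [dist_eq_norm] using h hab⟩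
  choose δ hδ hx using huc
  obtain ⟨d, hd, hdX⟩ : ∃ d > (0 : ℝ), ∀ x ∈ X, d < δ x := by
    classical
    induction X using Finset.induction_on with
    | empty => exact ⟨1, one_pos, by simp⟩
    | insert a T _ ih =>
      obtain ⟨d, hd, hdT⟩ := ih
      refine ⟨min d (δ a / 2), lt_min hd (half_pos (hδ a)), fun x hxm => ?_⟩
      rcases Finset.mem_insert.1 hxm with rfl | hm
      · linarith [min_le_right d (δ x / 2), hδ x]
      · linarith [min_le_left d (δ a / 2), hdT x hm]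
  obtain ⟨j, hj⟩ := exists_pow_lt_of_lt_one hd (show (1 / 2 : ℝ) < 1 by norm_num)
  obtain ⟨u, hu, hc⟩ := hC k j
  refine ⟨j, ⟨fun t => u t * star (u 0), u.continuous.mul continuous_const⟩,
    fun t => mul_mem (hu t) (Unitary.star_mem (hu 0)), Unitary.mul_star_self_of_mem (hu 0),
    fun x hxX s => ?_⟩
  set y : C(I, Fib (S.p (k + j)) (S.q (k + j))) :=
    (S.comp k j x : C(I, Fib (S.p (k + j)) (S.q (k + j))))
  have h := hc x η d (fun a b hab => (hx x a b (lt_of_le_of_lt hab (hdX x hxX))).le) s 0 (by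
    have hd1 : dist s 0 ≤ 1 := by
      rw [Subtype.dist_eq, Real.dist_eq]; simpa [abs_of_nonneg s.2.1] using s.2.2
    calc (1 / 2 : ℝ) ^ j * dist s 0 ≤ (1 / 2) ^ j * 1 :=
          mul_le_mul_of_nonneg_left hd1 (by positivity)
      _ ≤ d := by linarith)
  have he : y s - u s * star (u 0) * y 0 * star (u s * star (u 0)) =
      u s * (star (u s) * y s * u s - star (u 0) * y 0 * u 0) * star (u s) := by
    simp only [star_mul, star_star, mul_sub, sub_mul, ← mul_assoc,
      Unitary.mul_star_self_of_mem (hu s), one_mul]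
    simp only [mul_assoc, Unitary.mul_star_self_of_mem (hu s), mul_one]
  show ‖y s - u s * star (u 0) * y 0 * star (u s * star (u 0))‖ ≤ η
  rw [he, CStarRing.norm_mul_mem_unitary _ (Unitary.star_mem (hu s)),
    CStarRing.norm_mem_unitary_mul _ (hu s)]
  exact h

/-- A map out of a quotient of the central sequences. -/
theorem exists_descend {C F G : Type} [CStarAlgebra F] [CStarAlgebra G] [Ring C] [StarRing C]
    [Algebra ℂ C] (π : C →⋆ₐ[ℂ] F) (hπ : Function.Surjective π) (Λ : C →⋆ₐ[ℂ] G)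
    (h : ∀ f, π f = 0 → Λ f = 0) : ∃ L : F →⋆ₐ[ℂ] G, ∀ f, L (π f) = Λ f := by
  have hw : ∀ f g, π f = π g → Λ f = Λ g := fun f g hfg => by
    have := h (f - g) (by rw [map_sub, hfg, sub_self])
    rwa [map_sub, sub_eq_zero] at this
  let s : F → C := Function.surjInv hπ
  have hs : ∀ x, π (s x) = x := Function.surjInv_eq hπ
  exact ⟨
    { toFun := fun x => Λ (s x)
      map_one' := (hw _ 1 (by rw [hs, map_one])).trans (map_one Λ)
      map_mul' := fun x y => (hw _ (s x * s y) (by rw [hs, map_mul, hs, hs])).trans (map_mul Λ _ _)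
      map_zero' := (hw _ 0 (by rw [hs, map_zero])).trans (map_zero Λ)
      map_add' := fun x y => (hw _ (s x + s y) (by rw [hs, map_add, hs, hs])).trans (map_add Λ _ _)
      commutes' := fun r =>
        (hw _ (algebraMap ℂ C r) (by rw [hs, AlgHomClass.commutes])).trans (AlgHomClass.commutes Λ r)
      map_star' := fun x => (hw _ (star (s x)) (by rw [hs, map_star, hs])).trans (map_star Λ _) },
    fun f => hw _ f (hs _)⟩

section Flip

variable {A D B : Type} [CStarAlgebra A] [CStarAlgebra D] [CStarAlgebra B]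

/-- Central sequences of `A`, seen in the sequences of `B` modulo null ones. -/
noncomputable def pushHom (ιA : A →⋆ₐ[ℂ] B) (w : Ultrafilter ℕ) :
    centralSeq (w : Filter ℕ) A →⋆ₐ[ℂ] SeqMod (B := B) w :=
  (seqMk w).comp
    { toFun := fun f => BoundedContinuousFunction.ofNormedAddCommGroupDiscrete
        (fun n => ιA ((f : ℕ →ᵇ A) n)) ‖(f : ℕ →ᵇ A)‖
        (fun n => (NonUnitalStarAlgHom.norm_apply_le ιA _).trans
          ((f : ℕ →ᵇ A).norm_coe_le_norm n))
      map_one' := by ext n; exact map_one ιA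
      map_mul' := fun f g => by ext n; exact map_mul ιA _ _
      map_zero' := by ext n; exact map_zero ιA
      map_add' := fun f g => by ext n; exact map_add ιA _ _
      commutes' := fun r => by ext n; exact AlgHomClass.commutes ιA r
      map_star' := fun f => by ext n; exact map_star ιA _ }

theorem norm_sub_approx {a b t u : B} {c r : ℝ} (hu : u ∈ unitary B) (hut : ‖u - t‖ ≤ r)
    (htab : ‖b * t - t * a‖ ≤ c) : ‖star u * b * u - a‖ ≤ c + r * (‖b‖ + ‖a‖) := by
  have h1 : star u * b * u - a = star u * (b * u - u * a) := by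
    rw [mul_sub, ← mul_assoc, ← mul_assoc, Unitary.star_mul_self_of_mem hu, one_mul]
  have h2 : b * u - u * a = (b * t - t * a) + (b * (u - t) - (u - t) * a) := by noncomm_ring
  rw [h1, CStarRing.norm_mem_unitary_mul _ (Unitary.star_mem hu), h2]
  refine (norm_add_le _ _).trans (add_le_add htab ((norm_sub_le _ _).trans ?_))
  have h3 := norm_mul_le b (u - t)
  have h4 := norm_mul_le (u - t) a
  nlinarith [norm_nonneg a, norm_nonneg b, mul_le_mul_of_nonneg_left hut (norm_nonneg b),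
    mul_le_mul_of_nonneg_right hut (norm_nonneg a)]

variable {S : Chain} {ι : ∀ k, ZPair (S.p k) (S.q k) →⋆ₐ[ℂ] D}

/-- The flip at one stage, inside `B`. -/
theorem exists_flip [TopologicalSpace.SeparableSpace A] (hH : HalfFlipPin) (hS : SquarePin)
    (hM : StageMapPin) {w : Ultrafilter ℕ} (hw : (w : Filter ℕ) ≤ cofinite)
    (hno : ¬ ∃ χ : centralSeq (w : Filter ℕ) A →⋆ₐ[ℂ] ℂ,
      ∀ f : centralSeq (w : Filter ℕ) A, IsNull (w : Filter ℕ) (f : ℕ →ᵇ A) → χ f = 0)
    {ιA : A →⋆ₐ[ℂ] B} {ιD : D →⋆ₐ[ℂ] B} (hcomm : ∀ a d, Commute (ιA a) (ιD d))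
    (n : ℕ) (Y : Finset (ZPair (S.p n) (S.q n))) (U : C(I, Fib (S.p n) (S.q n))) {ε : ℝ}
    (hε : 0 < ε) (hU : ∀ t, U t ∈ unitary (Fib (S.p n) (S.q n))) (hU0 : U 0 = 1)
    (hY : ∀ y ∈ Y, ∀ s : I, ‖(y : C(I, Fib (S.p n) (S.q n))) s
      - U s * (y : C(I, Fib (S.p n) (S.q n))) 0 * star (U s)‖ ≤ ε / 12)
    (K : Finset A) :
    ∃ u ∈ unitary B, (∀ a ∈ K, ‖u * ιA a - ιA a * u‖ ≤ ε) ∧
      ∀ y ∈ Y, ∃ a : A, ‖star u * ιD (ι n y) * u - ιA a‖ ≤ ε := by
  obtain ⟨F, _, π, hπs, hπ, ⟨ψ⟩⟩ :=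
    hM _ _ (S.two_p n) (S.two_q n) (S.coprime n) A w hw hno
  obtain ⟨L, hL⟩ := exists_descend π hπs (pushHom ιA w) fun f hf => by
    rw [← map_zero (seqMk (B := B) w)]
    refine (seqMk_eq_iff w).2 ?_
    rw [sub_zero]
    exact squeeze_zero_norm (fun m => NonUnitalStarAlgHom.norm_apply_le ιA _)
      (tendsto_zero_iff_norm_tendsto_zero.1 ((hπ f).1 hf))
  let ψ₁ : ZPair (S.p n) (S.q n) →⋆ₐ[ℂ] SeqMod (B := B) w := L.comp ψ
  let ψ₂ : ZPair (S.p n) (S.q n) →⋆ₐ[ℂ] SeqMod (B := B) w :=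
    (constHom w).comp (ιD.comp (ι n))
  choose rep hrep using fun y => hπs (ψ y)
  have hψ₁ : ∀ y, ψ₁ y = pushHom ιA w (rep y) := fun y => by
    rw [← hL, hrep]; rfl
  have hψ : ∀ x y, Commute (ψ₁ x) (ψ₂ y) := fun x y => by
    rw [hψ₁]
    show seqMk w _ * seqMk w _ = seqMk w _ * seqMk w _
    rw [← map_mul, ← map_mul]
    congr 1
    ext m
    exact hcomm _ _
  obtain ⟨v, hv, hvu, hvY⟩ := hH _ _ Y U (ε / 12) (by positivity) hU hU0 hY
  set M : ℝ := 1 + ∑ a ∈ K, ‖a‖ + ∑ y ∈ Y, (‖ιD (ι n y)‖ +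
    ‖(rep y : ℕ →ᵇ A)‖ + ‖(y : C(I, Fib (S.p n) (S.q n)))‖) with hMdef
  have hK0 : 0 ≤ ∑ a ∈ K, ‖a‖ := Finset.sum_nonneg fun a _ => norm_nonneg a
  have hY0 : 0 ≤ ∑ y ∈ Y, (‖ιD (ι n y)‖ + ‖(rep y : ℕ →ᵇ A)‖ +
      ‖(y : C(I, Fib (S.p n) (S.q n)))‖) := Finset.sum_nonneg fun y _ => by positivity
  have hM1 : 1 ≤ M := by rw [hMdef]; linarith
  set η : ℝ := min (1 / 8) (ε / (100 * M)) with hη
  have hη0 : 0 < η := lt_min (by norm_num) (by positivity)
  have hη8 : η ≤ 1 / 8 := min_le_left _ _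
  have hηM : η * M ≤ ε / 100 := by
    calc η * M ≤ ε / (100 * M) * M := mul_le_mul_of_nonneg_right (min_le_right _ _) (by linarith)
      _ = ε / 100 := by field_simp
  obtain ⟨T, hT1, hT2, hTc, hTx⟩ := hS (S.p n) (S.q n) (by linarith [S.two_p n])
    (by linarith [S.two_q n]) _ ψ₁ ψ₂ hψ v hv hvu η hη0
  obtain ⟨t, rfl⟩ := seqMk_surjective w T
  have e1 : ∀ᶠ m in (w : Filter ℕ), ‖star (t m) * t m - 1‖ < 2 * η := by
    have h : ‖seqMk w (star t * t - 1)‖ < 2 * η := by
      rw [map_sub, map_mul, map_star, map_one]; linarith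
    exact (eventually_norm_lt w h).mono fun m hm => by simpa using hm
  have e2 : ∀ᶠ m in (w : Filter ℕ), ‖t m * star (t m) - 1‖ < 2 * η := by
    have h : ‖seqMk w (t * star t - 1)‖ < 2 * η := by
      rw [map_sub, map_mul, map_star, map_one]; linarith
    exact (eventually_norm_lt w h).mono fun m hm => by simpa using hm
  have e3 : ∀ a ∈ K, ∀ᶠ m in (w : Filter ℕ), ‖t m * ιA a - ιA a * t m‖ < ε / 2 := by
    intro a _
    have hg : ∀ x, Commute (constHom w (ιA a)) (ψ₁ x) ∧ Commute (constHom w (ιA a)) (ψ₂ x) := by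
      refine fun x => ⟨?_, Commute.map (hcomm a _) (constHom w)⟩
      rw [hψ₁]
      show seqMk w _ * seqMk w _ = seqMk w _ * seqMk w _
      rw [← map_mul, ← map_mul, seqMk_eq_iff]
      refine squeeze_zero_norm (fun m => ?_)
        (tendsto_zero_iff_norm_tendsto_zero.1 ((rep x).2 a))
      show ‖ιA a * ιA ((rep x : ℕ →ᵇ A) m) - ιA ((rep x : ℕ →ᵇ A) m) * ιA a‖ ≤ _
      rw [← map_mul, ← map_mul, ← map_sub, norm_sub_rev ((rep x : ℕ →ᵇ A) m * a)]
      exact NonUnitalStarAlgHom.norm_apply_le ιA _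
    have hg2 := (hTc _ hg).eq
    rw [constHom_apply, ← map_mul, ← map_mul, seqMk_eq_iff] at hg2
    filter_upwards [Metric.tendsto_nhds.1 hg2 (ε / 2) (by positivity)] with m hm
    rw [dist_zero_right] at hm
    rw [norm_sub_rev]
    exact hm
  have e4 : ∀ y ∈ Y, ∀ᶠ m in (w : Filter ℕ),
      ‖ιD (ι n y) * t m - t m * ιA ((rep y : ℕ →ᵇ A) m)‖ <
        ε / 2 + η * (‖(y : C(I, Fib (S.p n) (S.q n)))‖ + 1) + η := by
    intro y hy
    have h := hTx y (6 * (ε / 12)) fun s t => hvY y hy s t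
    have hlt : ‖seqMk w t * ψ₁ y - ψ₂ y * seqMk w t‖ <
        ε / 2 + η * (‖(y : C(I, Fib (S.p n) (S.q n)))‖ + 1) + η := by linarith
    rw [hψ₁] at hlt
    let r : ℕ →ᵇ B := BoundedContinuousFunction.ofNormedAddCommGroupDiscrete
      (fun m => ιA ((rep y : ℕ →ᵇ A) m)) ‖(rep y : ℕ →ᵇ A)‖
      (fun m => (NonUnitalStarAlgHom.norm_apply_le ιA _).trans
        ((rep y : ℕ →ᵇ A).norm_coe_le_norm m))
    rw [show pushHom ιA w (rep y) = seqMk w r from rfl,
      show ψ₂ y = seqMk w (BoundedContinuousFunction.const ℕ (ιD (ι n y))) from rfl,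
      ← map_mul, ← map_mul, ← map_sub] at hlt
    refine (eventually_norm_lt w hlt).mono fun m hm => ?_
    rw [norm_sub_rev]
    exact hm
  obtain ⟨m, ⟨⟨h1, h2⟩, h3⟩, h4⟩ := (((e1.and e2).and ((eventually_all_finset K).2 e3)).and
    ((eventually_all_finset Y).2 e4)).exists
  obtain ⟨u, hu, hut⟩ := exists_unitary_near (e := 2 * η) (by linarith) h1.le h2.le
  refine ⟨u, hu, fun a ha => ?_, fun y hy => ⟨(rep y : ℕ →ᵇ A) m, ?_⟩⟩
  · have haM : ‖a‖ ≤ M := by
      rw [hMdef]; linarith [Finset.single_le_sum (fun b _ => norm_nonneg b) ha]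
    have hA := NonUnitalStarAlgHom.norm_apply_le ιA a
    have h5 := h3 a ha
    have he : u * ιA a - ιA a * u =
        (t m * ιA a - ιA a * t m) + ((u - t m) * ιA a - ιA a * (u - t m)) := by noncomm_ring
    rw [he]
    have h6 := (norm_sub_le _ _).trans (add_le_add (norm_mul_le (u - t m) (ιA a))
      (norm_mul_le (ιA a) (u - t m)))
    have h7 : ‖u - t m‖ * ‖ιA a‖ ≤ 4 * η * M :=
      mul_le_mul (by linarith) (hA.trans haM) (norm_nonneg _) (by linarith)
    refine (norm_add_le _ _).trans ?_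
    nlinarith [norm_nonneg (ιA a)]
  · have hsum := Finset.single_le_sum (f := fun y => ‖ιD (ι n y)‖ +
      ‖(rep y : ℕ →ᵇ A)‖ + ‖(y : C(I, Fib (S.p n) (S.q n)))‖) (fun b _ => by positivity) hy
    have hA := (NonUnitalStarAlgHom.norm_apply_le ιA _).trans
      ((rep y : ℕ →ᵇ A).norm_coe_le_norm m)
    refine (norm_sub_approx hu (r := 4 * η) (by linarith) (h4 y hy).le).trans ?_
    have hb : ‖ιD (ι n y)‖ + ‖ιA ((rep y : ℕ →ᵇ A) m)‖ ≤ M := by
      rw [hMdef]; linarith [norm_nonneg (y : C(I, Fib (S.p n) (S.q n)))]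
    have hc : ‖(y : C(I, Fib (S.p n) (S.q n)))‖ + 1 ≤ M := by
      rw [hMdef]; linarith [norm_nonneg (ιD (ι n y)), norm_nonneg (rep y : ℕ →ᵇ A)]
    nlinarith [mul_le_mul_of_nonneg_left hb hη0.le, mul_le_mul_of_nonneg_left hc hη0.le,
      mul_le_mul_of_nonneg_left hM1 hη0.le]

/-- The algebraic tensors of one stage. -/
noncomputable def stageSpan (ιA : A →⋆ₐ[ℂ] B) (ιD : D →⋆ₐ[ℂ] B) (k : ℕ)
    (ι : ∀ k, ZPair (S.p k) (S.q k) →⋆ₐ[ℂ] D) : Submodule ℂ B :=
  Submodule.span ℂ (Set.range fun z : A × ZPair (S.p k) (S.q k) => ιA z.1 * ιD (ι k z.2))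

theorem stageSpan_mono (hlim : IsLimit S ι) (ιA : A →⋆ₐ[ℂ] B) (ιD : D →⋆ₐ[ℂ] B) :
    Monotone fun k => stageSpan ιA ιD k ι :=
  monotone_nat_of_le_succ fun k => Submodule.span_mono <| by
    rintro _ ⟨⟨a, x⟩, rfl⟩
    exact ⟨⟨a, S.φ k x⟩, by simp only [hlim.compat]⟩

theorem exists_near_stage (hlim : IsLimit S ι) {ιA : A →⋆ₐ[ℂ] B} {ιD : D →⋆ₐ[ℂ] B}
    (hT : IsCTensor ιA ιD) (b : B) {η : ℝ} (hη : 0 < η) :
    ∃ k, ∃ b' ∈ stageSpan ιA ιD k ι, ‖b - b'‖ < η := by
  set N : Submodule ℂ B := (⨆ k, stageSpan ιA ιD k ι).topologicalClosure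
  have hN : IsClosed (N : Set B) := Submodule.isClosed_topologicalClosure _
  have hz : ∀ z : A × D, ιA z.1 * ιD z.2 ∈ N := by
    rintro ⟨a, d⟩
    have hcl : IsClosed {d | ιA a * ιD d ∈ N} :=
      hN.preimage (continuous_const.mul (continuous_starAlgHom ιD))
    refine closure_minimal ?_ hcl (hlim.dense d)
    simp only [Set.iUnion_subset_iff]
    rintro k _ ⟨x, rfl⟩
    exact Submodule.le_topologicalClosure _
      (Submodule.mem_iSup_of_mem k (Submodule.subset_span ⟨(a, x), rfl⟩))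
  have hb : b ∈ (N : Set B) := by
    refine closure_minimal (Submodule.span_le.2 ?_) hN (hT.dense b)
    rintro _ ⟨z, rfl⟩; exact hz z
  obtain ⟨b', hb', hd⟩ := Metric.mem_closure_iff.1 hb η hη
  obtain ⟨k, hk⟩ := (Submodule.mem_iSup_of_directed _
    (stageSpan_mono hlim ιA ιD).directed_le).1 hb'
  exact ⟨k, b', hk, by rwa [← dist_eq_norm]⟩

/-- The input of the intertwining. -/
theorem exists_intertwiner [TopologicalSpace.SeparableSpace A] (hH : HalfFlipPin)
    (hS : SquarePin) (hM : StageMapPin) (hC : ∀ k j, Contracts (S.comp k j) ((1 / 2) ^ j))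
    (hlim : IsLimit S ι) {w : Ultrafilter ℕ} (hw : (w : Filter ℕ) ≤ cofinite)
    (hno : ¬ ∃ χ : centralSeq (w : Filter ℕ) A →⋆ₐ[ℂ] ℂ,
      ∀ f : centralSeq (w : Filter ℕ) A, IsNull (w : Filter ℕ) (f : ℕ →ᵇ A) → χ f = 0)
    {ιA : A →⋆ₐ[ℂ] B} {ιD : D →⋆ₐ[ℂ] B} (hT : IsCTensor ιA ιD)
    (K : Finset A) (F : Finset B) {ε : ℝ} (hε : 0 < ε) :
    ∃ u ∈ unitary B, (∀ a ∈ K, ‖u * ιA a - ιA a * u‖ ≤ ε) ∧
      ∀ b ∈ F, ∃ a, ‖star u * b * u - ιA a‖ ≤ ε := by
  classical
  choose kb b' hb' hbb using fun b => exists_near_stage hlim hT b (half_pos hε)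
  set k := F.sup kb
  have hmem : ∀ b ∈ F, b' b ∈ stageSpan ιA ιD k ι := fun b hb =>
    stageSpan_mono hlim ιA ιD (Finset.le_sup hb) (hb' b)
  choose! c hc using fun b hb => Finsupp.mem_span_range_iff_exists_finsupp.1 (hmem b hb)
  let Z : Finset (A × ZPair (S.p k) (S.q k)) := F.biUnion fun b => (c b).support
  set W : ℝ := 1 + ∑ b ∈ F, ∑ z ∈ (c b).support, ‖c b z‖ * (‖ιD (ι k z.2)‖ + ‖z.1‖)
  have hW0 : 0 ≤ ∑ b ∈ F, ∑ z ∈ (c b).support, ‖c b z‖ * (‖ιD (ι k z.2)‖ + ‖z.1‖) :=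
    Finset.sum_nonneg fun b _ => Finset.sum_nonneg fun z _ => by positivity
  set η := min ε (ε / (2 * W))
  have hη : 0 < η := lt_min hε (by positivity)
  have hWp : (0 : ℝ) < W := by linarith
  have hηW : η * W ≤ ε / 2 :=
    calc η * W ≤ ε / (2 * W) * W := mul_le_mul_of_nonneg_right (min_le_right _ _) (by linarith)
      _ = ε / 2 := by field_simp
  obtain ⟨j, U, hU, hU0, hUX⟩ :=
    exists_stage hC k (Z.image Prod.snd) (show (0 : ℝ) < η / 12 by positivity)
  obtain ⟨u, hu, huK, huY⟩ := exists_flip (ι := ι) (ιD := ιD) hH hS hM hw hno hT.comm (k + j)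
    ((Z.image Prod.snd).image (S.comp k j)) U hη hU hU0
    (by simp only [Finset.mem_image]; rintro _ ⟨x, hx, rfl⟩ s; exact hUX x (Finset.mem_image.2 hx) s)
    (K ∪ Z.image Prod.fst)
  refine ⟨u, hu, fun a ha => (huK a (Finset.mem_union_left _ ha)).trans (min_le_left _ _),
    fun b hb => ?_⟩
  have hz : ∀ z ∈ (c b).support, ∃ a, ‖star u * (ιA z.1 * ιD (ι k z.2)) * u - ιA a‖ ≤
      η * (‖ιD (ι k z.2)‖ + ‖z.1‖) := by
    intro z hz
    have hzZ : z ∈ Z := Finset.mem_biUnion.2 ⟨b, hb, hz⟩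
    obtain ⟨a, ha⟩ := huY _ (Finset.mem_image_of_mem _ (Finset.mem_image_of_mem _ hzZ))
    rw [limit_comp hlim] at ha
    have h1 := huK z.1 (Finset.mem_union_right _ (Finset.mem_image_of_mem _ hzZ))
    have h2 : ‖star u * ιA z.1 * u - ιA z.1‖ ≤ η := by
      have he : star u * ιA z.1 * u - ιA z.1 = star u * (ιA z.1 * u - u * ιA z.1) := by
        rw [mul_sub, ← mul_assoc, ← mul_assoc, Unitary.star_mul_self_of_mem hu, one_mul]
      rw [he, CStarRing.norm_mem_unitary_mul _ (Unitary.star_mem hu), norm_sub_rev]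
      exact h1
    refine ⟨z.1 * a, ?_⟩
    set Q := star u * ιD (ι k z.2) * u
    have he : star u * (ιA z.1 * ιD (ι k z.2)) * u - ιA (z.1 * a) =
        (star u * ιA z.1 * u - ιA z.1) * Q + ιA z.1 * (Q - ιA a) := by
      have h3 : star u * ιA z.1 * u * Q = star u * (ιA z.1 * ιD (ι k z.2)) * u := by
        simp only [Q, ← mul_assoc]
        simp only [mul_assoc]
        rw [← mul_assoc u (star u), Unitary.mul_star_self_of_mem hu, one_mul]
      rw [sub_mul, mul_sub, h3, map_mul]; abel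
    have hQ : ‖Q‖ = ‖ιD (ι k z.2)‖ := by
      simp only [Q, CStarRing.norm_mul_mem_unitary _ hu,
        CStarRing.norm_mem_unitary_mul _ (Unitary.star_mem hu)]
    rw [he]
    refine (norm_add_le _ _).trans (le_trans (add_le_add (norm_mul_le _ _) (norm_mul_le _ _)) ?_)
    rw [hQ, mul_add]
    refine add_le_add (mul_le_mul_of_nonneg_right h2 (norm_nonneg _)) ?_
    rw [mul_comm η]
    exact mul_le_mul (NonUnitalStarAlgHom.norm_apply_le ιA _) ha (norm_nonneg _) (norm_nonneg _)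
  choose! a ha using hz
  refine ⟨∑ z ∈ (c b).support, c b z • a z, ?_⟩
  have hcb : ∑ z ∈ (c b).support, c b z • (ιA z.1 * ιD (ι k z.2)) = b' b := hc b hb
  have hsum : star u * b' b * u - ιA (∑ z ∈ (c b).support, c b z • a z) =
      ∑ z ∈ (c b).support, c b z • (star u * (ιA z.1 * ιD (ι k z.2)) * u - ιA (a z)) := by
    rw [← hcb, Finset.mul_sum, Finset.sum_mul, map_sum, ← Finset.sum_sub_distrib]
    exact Finset.sum_congr rfl fun z _ => by
      rw [mul_smul_comm, smul_mul_assoc, map_smul, smul_sub]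
  have hle : ‖star u * b' b * u - ιA (∑ z ∈ (c b).support, c b z • a z)‖ ≤ ε / 2 := by
    rw [hsum]
    refine (norm_sum_le _ _).trans (le_trans ?_ hηW)
    calc ∑ z ∈ (c b).support, ‖c b z • (star u * (ιA z.1 * ιD (ι k z.2)) * u - ιA (a z))‖
        ≤ ∑ z ∈ (c b).support, η * (‖c b z‖ * (‖ιD (ι k z.2)‖ + ‖z.1‖)) :=
          Finset.sum_le_sum fun z hz => by
            rw [norm_smul]
            exact (mul_le_mul_of_nonneg_left (ha z hz) (norm_nonneg _)).trans_eq (by ring)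
      _ = η * ∑ z ∈ (c b).support, ‖c b z‖ * (‖ιD (ι k z.2)‖ + ‖z.1‖) := by rw [Finset.mul_sum]
      _ ≤ η * W := by
        refine mul_le_mul_of_nonneg_left ?_ hη.le
        have := Finset.single_le_sum (f := fun b => ∑ z ∈ (c b).support,
          ‖c b z‖ * (‖ιD (ι k z.2)‖ + ‖z.1‖))
          (fun b _ => Finset.sum_nonneg fun z _ => by positivity) hb
        linarith
  have hd : ‖star u * b * u - star u * b' b * u‖ < ε / 2 := by
    rw [← sub_mul, ← mul_sub, CStarRing.norm_mul_mem_unitary _ hu,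
      CStarRing.norm_mem_unitary_mul _ (Unitary.star_mem hu)]
    exact hbb b
  linarith [norm_sub_le_norm_sub_add_norm_sub (star u * b * u) (star u * b' b * u)
    (ιA (∑ z ∈ (c b).support, c b z • a z))]

end Flip

/-- The blocks give the bridge. -/
theorem bridgePin_of (hC : ChainPin) (hL : LimitPin) (hJ : JiangSuPin) (hH : HalfFlipPin)
    (hS : SquarePin) (hM : StageMapPin) (hE : IntertwinePin) : BridgePin := by
  obtain ⟨S, hSC⟩ := hC
  obtain ⟨D, instD, ι, hlim, hten⟩ := hL S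
  have hJS := hJ S hSC D ι hlim
  refine ⟨D, instD, hJS, fun A _ _ w hw hno => ⟨hten A, fun B _ ιA ιD hT => ?_⟩⟩
  have hsepD : TopologicalSpace.IsSeparable (Set.univ : Set D) := by
    have h : ∀ k, TopologicalSpace.IsSeparable (Set.range (ι k)) := fun k => by
      have : SecondCountableTopology C(I, Fib (S.p k) (S.q k)) := inferInstance
      exact TopologicalSpace.isSeparable_range (continuous_starAlgHom (ι k))
    rw [← hlim.dense.closure_eq]
    exact (TopologicalSpace.IsSeparable.iUnion h).closure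
  have : TopologicalSpace.SeparableSpace D := TopologicalSpace.isSeparable_univ_iff.1 hsepD
  have : TopologicalSpace.SeparableSpace B := by
    refine TopologicalSpace.isSeparable_univ_iff.1 ?_
    rw [← hT.dense.closure_eq]
    refine (TopologicalSpace.IsSeparable.span ?_).closure
    exact TopologicalSpace.isSeparable_range
      (((continuous_starAlgHom ιA).comp continuous_fst).mul ((continuous_starAlgHom ιD).comp continuous_snd))
  have hinj : Function.Injective ιA := by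
    refine (injective_iff_map_eq_zero ιA).2 fun a ha => ?_
    obtain ⟨τ, ⟨hτ, -, -⟩, -⟩ := hJS.2.2
    have h1 : (1 : D) ≠ 0 := fun h => by rw [h, map_zero] at hτ; exact zero_ne_one hτ
    have := hT.injective 1 (fun _ => a) (fun _ => (1 : D))
      (LinearIndependent.of_subsingleton (i := (0 : Fin 1)) h1) (by simp [ha])
    exact congrFun this 0
  exact hE A B ιA hinj fun K F ε hε =>
    exists_intertwiner hH hS hM (fun k j => (hSC k j).1) hlim hw hno hT K F hε

end Vale.Agent.P101.Bridge
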