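import Vale.Agent.P101.Bridge.CentralStep

/-!
P101 bridge, central copies: the data of a step, for dimensions with enough room.
-/

namespace Vale.Agent.P101.Bridge.Central

open Vale.Agent.P101.DropN
open scoped Matrix Matrix.Norms.L2Operator Kronecker unitInterval

section Abstract

variable {p q : ℕ} {K₀ K₁ : Type} [Fintype K₀] [DecidableEq K₀] [Fintype K₁] [DecidableEq K₁]

theorem inLeft_conj (τ : Equiv.Perm (Fin q × (K₀ × K₁))) {g} (hg : g = τ.permMatrix ℂ)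
    {M : Big p q (K₀ × K₁)} (h : InLeft (M.submatrix (permL τ) (permL τ))) :
    InLeft (fixL g * M * star (fixL g : Big p q (K₀ × K₁))) := by
  subst hg
  rw [fixL_perm]
  exact h

theorem inRight_conj (τ : Equiv.Perm (Fin p × (K₀ × K₁))) {g} (hg : g = τ.permMatrix ℂ)
    {M : Big p q (K₀ × K₁)} (h : InRight (M.submatrix (permR τ) (permR τ))) :
    InRight (fixR g * M * star (fixR g : Big p q (K₀ × K₁))) := by
  subst hg
  rw [fixR_perm]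
  exact h

end Abstract

variable {p q c₀ n₀ c₁ n₁ : ℕ} (ρ : Equiv.Perm (Blocks p q c₀ n₀ c₁ n₁))

/-- The paths of the blocks. -/
noncomputable def paths (i : Blocks p q c₀ n₀ c₁ n₁) : C(I, I) :=
  match i.1, (ρ.symm i).2 with
  | .inl _, _ => lowHalf
  | _, .inl _ => highHalf
  | _, _ => ContinuousMap.const I midPoint

theorem paths_left (c : Fin c₀) (i₁ : Half c₁ n₁ p) : paths ρ (.inl c, i₁) 0 = 0 :=
  Subtype.ext (by simp [paths, lowHalf])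

theorem paths_left' (g : Fin n₀ × Fin q) (i₁ : Half c₁ n₁ p) :
    paths ρ (.inr g, i₁) 0 = midPoint := by
  rcases h : (ρ.symm (.inr g, i₁)).2 with c | g'
  · exact Subtype.ext (by simp [paths, h, highHalf, midPoint])
  · simp [paths, h]

theorem paths_right (hρ : ∀ i₀ c, ∃ g, (ρ (i₀, .inl c)).1 = .inr g) (i₀ : Half c₀ n₀ q)
    (c : Fin c₁) : paths ρ (ρ (i₀, .inl c)) 1 = 1 := by
  obtain ⟨g, hg⟩ := hρ i₀ c
  exact Subtype.ext (by simp [paths, hg, highHalf])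

theorem paths_right' (i₀ : Half c₀ n₀ q) (g : Fin n₁ × Fin p) :
    paths ρ (ρ (i₀, .inr g)) 1 = midPoint := by
  rcases h : (ρ (i₀, .inr g)).1 with c | g'
  · exact Subtype.ext (by simp [paths, h, lowHalf, midPoint])
  · simp [paths, h]

theorem paths_lip (i : Blocks p q c₀ n₀ c₁ n₁) (s t : I) :
    dist (paths ρ i s) (paths ρ i t) ≤ dist s t / 2 := by
  rw [Subtype.dist_eq, Subtype.dist_eq, Real.dist_eq, Real.dist_eq]
  simp only [paths]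
  split <;> simp [lowHalf, highHalf, ← sub_div, abs_div]
  positivity

/-- A permutation carrying the right end blocks off the left end blocks. -/
theorem exists_room (p q c₀ n₀ c₁ n₁ : ℕ)
    (h : (c₀ + n₀ * q) * c₁ ≤ n₀ * q * (c₁ + n₁ * p)) :
    ∃ ρ : Equiv.Perm (Blocks p q c₀ n₀ c₁ n₁), ∀ i₀ c, ∃ g, (ρ (i₀, .inl c)).1 = .inr g := by
  classical
  obtain ⟨j⟩ := Function.Embedding.nonempty_of_card_le
    (α := Half c₀ n₀ q × Fin c₁) (β := (Fin n₀ × Fin q) × Half c₁ n₁ p)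
    (by simpa only [Fintype.card_prod, Fintype.card_sum, Fintype.card_fin] using h)
  let f₁ : Half c₀ n₀ q × Fin c₁ → Blocks p q c₀ n₀ c₁ n₁ := fun z => (z.1, .inl z.2)
  let f₂ : Half c₀ n₀ q × Fin c₁ → Blocks p q c₀ n₀ c₁ n₁ :=
    fun z => (.inr (j z).1, (j z).2)
  have hf₁ : Function.Injective f₁ := fun z z' he => by
    simp only [f₁, Prod.mk.injEq, Sum.inl.injEq] at he
    exact Prod.ext he.1 he.2
  have hf₂ : Function.Injective f₂ := fun z z' he => by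
    simp only [f₂, Prod.mk.injEq, Sum.inr.injEq] at he
    exact j.injective (Prod.ext he.1 he.2)
  let e : {x // x ∈ Set.range f₁} ≃ {x // x ∈ Set.range f₂} :=
    (Equiv.ofInjective f₁ hf₁).symm.trans (Equiv.ofInjective f₂ hf₂)
  refine ⟨e.extendSubtype, fun i₀ c => ?_⟩
  have hm : (i₀, Sum.inl c) ∈ Set.range f₁ := ⟨(i₀, c), rfl⟩
  obtain ⟨z, hz⟩ := e.extendSubtype_mem _ hm
  exact ⟨(j z).1, by rw [← hz]⟩

/-- The data of a step. -/
theorem exists_ends (p q c₀ n₀ c₁ n₁ : ℕ) (hc₀ : 0 < c₀) (hc₁ : 0 < c₁)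
    (h : (c₀ + n₀ * q) * c₁ ≤ n₀ * q * (c₁ + n₁ * p)) :
    Nonempty (Ends p q (Half c₀ n₀ q) (Half c₁ n₁ p)) := by
  obtain ⟨ρ, hρ⟩ := exists_room p q c₀ n₀ c₁ n₁ h
  obtain ⟨gL, hL, hL0, hL1⟩ := exists_permPath (endL p q c₀ n₀ c₁ n₁)
  obtain ⟨gR, hR, hR0, hR1⟩ := exists_permPath (endR ρ)
  exact ⟨{
    ξ := paths ρ
    lip := paths_lip ρ
    low := ⟨(.inl ⟨0, hc₀⟩, .inl ⟨0, hc₁⟩), by simp [paths]⟩
    high := ⟨ρ (.inl ⟨0, hc₀⟩, .inl ⟨0, hc₁⟩), by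
      obtain ⟨g, hg⟩ := hρ (.inl ⟨0, hc₀⟩) ⟨0, hc₁⟩
      simp [paths, hg]⟩
    gL := gL
    gR := gR
    hL := hL
    hR := hR
    gL0 := hL0
    gR0 := hR0
    left := fun x A hA => inLeft_conj _ hL1 (left_end _ A (x midPoint)
      (fun c i₁ => by rw [paths_left, hA]) fun g i₁ => by rw [paths_left'])
    right := fun x B hB => inRight_conj _ hR1 (right_end ρ _ B (x midPoint)
      (fun i₀ c => by rw [paths_right ρ hρ, hB]) fun i₀ g => by rw [paths_right']) }⟩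

/-- One step between stages with dimensions powers of 2 and 3, with copies of Z(2,3). -/
theorem exists_central_step {a b : ℕ} (ha : 1 ≤ a) (hb : 1 ≤ b) :
    ∃ a' b' : ℕ, 1 ≤ a' ∧ 1 ≤ b' ∧ ∃ φ : ZPair (2 ^ a) (3 ^ b) →⋆ₐ[ℂ] ZPair (2 ^ a') (3 ^ b'),
      Function.Injective φ ∧ StepContracts φ ∧ StepZeros φ ∧
      ∀ U : C(I, Fib (2 ^ a) (3 ^ b)), (∀ t, U t ∈ unitary (Fib (2 ^ a) (3 ^ b))) → U 0 = 1 →
        ∃ κ : ZPair 2 3 →⋆ₐ[ℂ] ZPair (2 ^ a') (3 ^ b'),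
          ∀ (x : ZPair (2 ^ a) (3 ^ b)) (y : ZPair 2 3) (η : ℝ),
          (∀ s : I, ‖(x : C(I, Fib (2 ^ a) (3 ^ b))) s
            - U s * (x : C(I, Fib (2 ^ a) (3 ^ b))) 0 * star (U s)‖ ≤ η) →
          ‖(κ y : C(I, Fib (2 ^ a') (3 ^ b'))) * (φ x : C(I, Fib (2 ^ a') (3 ^ b'))) -
            (φ x : C(I, Fib (2 ^ a') (3 ^ b'))) * (κ y : C(I, Fib (2 ^ a') (3 ^ b')))‖
            ≤ 6 * η * ‖(y : C(I, Fib 2 3))‖ := by
  obtain ⟨q, hq⟩ : ∃ q, q = 3 ^ b := ⟨_, rfl⟩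
  obtain ⟨p, hp⟩ : ∃ p, p = 2 ^ a := ⟨_, rfl⟩
  obtain ⟨k₀, hk₀⟩ : ∃ k, k = 2 ^ (2 * q) := ⟨_, rfl⟩
  obtain ⟨k₁, hk₁⟩ : ∃ k, k = 3 ^ (2 * p) := ⟨_, rfl⟩
  have hp1 : 1 < p := hp ▸ Nat.one_lt_pow (by omega) (by norm_num)
  have hq1 : 1 < q := hq ▸ Nat.one_lt_pow (by omega) (by norm_num)
  have hk₀q : 2 * q ≤ k₀ := hk₀ ▸ (Nat.lt_two_pow_self (n := 2 * q)).le
  have hk₁p : 2 * p ≤ k₁ := hk₁ ▸ (Nat.lt_pow_self (a := 3) (n := 2 * p) (by norm_num)).le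
  have hc₀ : 0 < k₀ % q := by
    refine Nat.pos_of_ne_zero fun h => ?_
    have hc : Nat.Coprime q k₀ := by
      rw [hq, hk₀]; exact Nat.Coprime.pow _ _ (by norm_num)
    have := hc.eq_one_of_dvd (Nat.dvd_of_mod_eq_zero h)
    omega
  have hc₁ : 0 < k₁ % p := by
    refine Nat.pos_of_ne_zero fun h => ?_
    have hc : Nat.Coprime p k₁ := by
      rw [hp, hk₁]; exact Nat.Coprime.pow _ _ (by norm_num)
    have := hc.eq_one_of_dvd (Nat.dvd_of_mod_eq_zero h)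
    omega
  have hd₀ := Nat.mod_add_div' k₀ q
  have hd₁ := Nat.mod_add_div' k₁ p
  have hroom : (k₀ % q + k₀ / q * q) * (k₁ % p) ≤ k₀ / q * q * (k₁ % p + k₁ / p * p) := by
    have h1 := Nat.mod_lt k₀ (show q > 0 by omega)
    have h2 := Nat.mod_lt k₁ (show p > 0 by omega)
    rw [hd₀, hd₁]
    calc k₀ * (k₁ % p) ≤ (2 * (k₀ / q * q)) * (k₁ % p) :=
          Nat.mul_le_mul_right _ (by omega)
      _ = k₀ / q * q * (2 * (k₁ % p)) := by ring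
      _ ≤ k₀ / q * q * k₁ := Nat.mul_le_mul_left _ (by omega)
  obtain ⟨e⟩ := exists_ends p q (k₀ % q) (k₀ / q) (k₁ % p) (k₁ / p) hc₀ hc₁ hroom
  subst hp hq
  let eP : Fin (2 ^ a) × Half (k₀ % 3 ^ b) (k₀ / 3 ^ b) (3 ^ b) ≃ Fin (2 ^ (a + 2 * 3 ^ b)) :=
    Fintype.equivOfCardEq (by
      simp only [Fintype.card_prod, Fintype.card_sum, Fintype.card_fin, hd₀, pow_add]
      rw [hk₀])
  let eQ : Fin (3 ^ b) × Half (k₁ % 2 ^ a) (k₁ / 2 ^ a) (2 ^ a) ≃ Fin (3 ^ (b + 2 * 2 ^ a)) :=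
    Fintype.equivOfCardEq (by
      simp only [Fintype.card_prod, Fintype.card_sum, Fintype.card_fin, hd₁, pow_add]
      rw [hk₁])
  let e₀ : Half (k₀ % 3 ^ b) (k₀ / 3 ^ b) (3 ^ b) ≃ Fin 2 × Fin (2 ^ (2 * 3 ^ b - 1)) :=
    Fintype.equivOfCardEq (by
      simp only [Fintype.card_prod, Fintype.card_sum, Fintype.card_fin, hd₀]
      rw [hk₀, ← pow_succ', Nat.sub_add_cancel (by omega)])
  let e₁ : Half (k₁ % 2 ^ a) (k₁ / 2 ^ a) (2 ^ a) ≃ Fin 3 × Fin (3 ^ (2 * 2 ^ a - 1)) :=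
    Fintype.equivOfCardEq (by
      simp only [Fintype.card_prod, Fintype.card_sum, Fintype.card_fin, hd₁]
      rw [hk₁, ← pow_succ' 3, Nat.sub_add_cancel (by omega)])
  exact ⟨a + 2 * 3 ^ b, b + 2 * 2 ^ a, by omega, by omega, e.step eP eQ,
    injective_of_zeros (e.step_zeros eP eQ), e.step_contracts eP eQ, e.step_zeros eP eQ,
    fun U hU h0 => e.exists_copy eP eQ e₀ e₁ U hU h0⟩

end Vale.Agent.P101.Bridge.Central
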