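import Vale.Agent.P101.Bridge.Pins

/-!
P101 bridge, block H: elements with unitarily constant fibres are approximately flipped inside the
square algebra, by an explicit unitary (notes/P101/helper5_bridge.md).
-/

namespace Vale.Agent.P101.Bridge.HalfFlip

open Vale.Agent.P101.DropN
open scoped Topology Matrix Matrix.Norms.L2Operator Kronecker unitInterval

variable (P Q : ℕ)

/-- The left copy. -/
noncomputable def lefts : Fib P Q →⋆ₐ[ℂ] Fib2 P Q where
  toFun X := X ⊗ₖ (1 : Fib P Q)
  map_one' := Matrix.one_kronecker_one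
  map_zero' := Matrix.zero_kronecker _
  map_mul' X Y := by rw [← Matrix.mul_kronecker_mul, one_mul]
  map_add' X Y := Matrix.add_kronecker _ _ _
  commutes' c := by
    rw [Algebra.algebraMap_eq_smul_one, Matrix.smul_kronecker, Matrix.one_kronecker_one,
      Algebra.algebraMap_eq_smul_one]
  map_star' X := by
    simp only [Matrix.star_eq_conjTranspose, Matrix.conjTranspose_kronecker,
      Matrix.conjTranspose_one]

/-- The right copy. -/
noncomputable def rights : Fib P Q →⋆ₐ[ℂ] Fib2 P Q where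
  toFun X := (1 : Fib P Q) ⊗ₖ X
  map_one' := Matrix.one_kronecker_one
  map_zero' := Matrix.kronecker_zero _
  map_mul' X Y := by rw [← Matrix.mul_kronecker_mul, one_mul]
  map_add' X Y := Matrix.kronecker_add _ _ _
  commutes' c := by
    rw [Algebra.algebraMap_eq_smul_one, Matrix.kronecker_smul, Matrix.one_kronecker_one,
      Algebra.algebraMap_eq_smul_one]
  map_star' X := by
    simp only [Matrix.star_eq_conjTranspose, Matrix.conjTranspose_kronecker,
      Matrix.conjTranspose_one]

theorem lefts_apply (X : Fib P Q) : lefts P Q X = X ⊗ₖ (1 : Fib P Q) := rfl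

theorem rights_apply (X : Fib P Q) : rights P Q X = (1 : Fib P Q) ⊗ₖ X := rfl

theorem continuous_lefts : Continuous (lefts P Q) :=
  (lefts P Q).toAlgHom.toLinearMap.continuous_of_finiteDimensional

theorem continuous_rights : Continuous (rights P Q) :=
  (rights P Q).toAlgHom.toLinearMap.continuous_of_finiteDimensional

theorem commute_lefts_rights (X Y : Fib P Q) : Commute (lefts P Q X) (rights P Q Y) := by
  show (X ⊗ₖ (1 : Fib P Q)) * ((1 : Fib P Q) ⊗ₖ Y) = ((1 : Fib P Q) ⊗ₖ Y) * (X ⊗ₖ (1 : Fib P Q))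
  rw [← Matrix.mul_kronecker_mul, ← Matrix.mul_kronecker_mul, one_mul, mul_one, one_mul, mul_one]

/-- The flip of the first factors. -/
def permP : Equiv.Perm ((Fin P × Fin Q) × (Fin P × Fin Q)) where
  toFun x := ((x.2.1, x.1.2), (x.1.1, x.2.2))
  invFun x := ((x.2.1, x.1.2), (x.1.1, x.2.2))
  left_inv _ := rfl
  right_inv _ := rfl

/-- The flip of the second factors. -/
def permQ : Equiv.Perm ((Fin P × Fin Q) × (Fin P × Fin Q)) where
  toFun x := ((x.1.1, x.2.2), (x.2.1, x.1.2))
  invFun x := ((x.1.1, x.2.2), (x.2.1, x.1.2))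
  left_inv _ := rfl
  right_inv _ := rfl

/-- The matrix of an involution of the index set. -/
def invMat {n : Type} [DecidableEq n] (e : Equiv.Perm n) : Matrix n n ℂ :=
  (1 : Matrix n n ℂ).submatrix e id

theorem invMat_mul {n : Type} [Fintype n] [DecidableEq n] (e : Equiv.Perm n) (M : Matrix n n ℂ) :
    invMat e * M = M.submatrix e id := by
  ext i j
  simp [invMat, Matrix.mul_apply, Matrix.one_apply]

theorem mul_invMat {n : Type} [Fintype n] [DecidableEq n] (e : Equiv.Perm n)
    (he : ∀ x, e (e x) = x) (M : Matrix n n ℂ) : M * invMat e = M.submatrix id e := by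
  ext i j
  rw [Matrix.mul_apply, Finset.sum_eq_single (e j)]
  · simp [invMat, Matrix.one_apply, he]
  · intro k _ hk
    have : e k ≠ j := fun h => hk (by rw [← h, he])
    simp [invMat, this]
  · simp

theorem invMat_mul_self {n : Type} [Fintype n] [DecidableEq n] (e : Equiv.Perm n)
    (he : ∀ x, e (e x) = x) : invMat e * invMat e = 1 := by
  rw [invMat_mul]
  ext i j
  simp [invMat, he, Matrix.one_apply]

theorem star_invMat {n : Type} [Fintype n] [DecidableEq n] (e : Equiv.Perm n)
    (he : ∀ x, e (e x) = x) : star (invMat e) = invMat e := by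
  ext i j
  have : e j = i ↔ e i = j := ⟨fun h => by rw [← h, he], fun h => by rw [← h, he]⟩
  simp [invMat, Matrix.star_apply, Matrix.one_apply, this]

/-- sP -/
noncomputable def sP : Fib2 P Q := invMat (permP P Q)

/-- sQ -/
noncomputable def sQ : Fib2 P Q := invMat (permQ P Q)

theorem sP_sq : sP P Q * sP P Q = 1 := invMat_mul_self _ fun _ => rfl

theorem sQ_sq : sQ P Q * sQ P Q = 1 := invMat_mul_self _ fun _ => rfl

theorem star_sP : star (sP P Q) = sP P Q := star_invMat _ fun _ => rfl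

theorem star_sQ : star (sQ P Q) = sQ P Q := star_invMat _ fun _ => rfl

theorem commute_sP_sQ : Commute (sP P Q) (sQ P Q) := by
  show _ = _
  rw [sP, sQ, invMat_mul, invMat_mul]
  ext i j
  simp [invMat, Matrix.one_apply, permP, permQ]

/-- The full flip. -/
noncomputable def flip2 : Fib2 P Q := sP P Q * sQ P Q

theorem flip2_lefts (X : Fib P Q) : flip2 P Q * lefts P Q X = rights P Q X * flip2 P Q := by
  rw [flip2, mul_assoc, ← mul_assoc (rights P Q X), sQ, sP, invMat_mul, invMat_mul,
    mul_invMat _ fun _ => rfl, mul_invMat _ fun _ => rfl]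
  ext ⟨⟨a, b⟩, ⟨c, d⟩⟩ ⟨⟨a', b'⟩, ⟨c', d'⟩⟩
  simp [lefts_apply, rights_apply, permP, permQ, Matrix.one_apply, mul_comm]

theorem flip2_rights (X : Fib P Q) : flip2 P Q * rights P Q X = lefts P Q X * flip2 P Q := by
  rw [flip2, mul_assoc, ← mul_assoc (lefts P Q X), sQ, sP, invMat_mul, invMat_mul,
    mul_invMat _ fun _ => rfl, mul_invMat _ fun _ => rfl]
  ext ⟨⟨a, b⟩, ⟨c, d⟩⟩ ⟨⟨a', b'⟩, ⟨c', d'⟩⟩
  simp [lefts_apply, rights_apply, permP, permQ, Matrix.one_apply, mul_comm]

theorem sP_left (A : Matrix (Fin P) (Fin P) ℂ) :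
    sP P Q * lefts P Q (A ⊗ₖ (1 : Matrix (Fin Q) (Fin Q) ℂ))
      = rights P Q (A ⊗ₖ (1 : Matrix (Fin Q) (Fin Q) ℂ)) * sP P Q := by
  rw [sP, invMat_mul, mul_invMat _ fun _ => rfl]
  ext ⟨⟨a, b⟩, ⟨c, d⟩⟩ ⟨⟨a', b'⟩, ⟨c', d'⟩⟩
  simp only [lefts_apply, rights_apply, permP, Matrix.submatrix_apply, id,
    Matrix.kroneckerMap_apply, Matrix.one_apply, Prod.mk.injEq, Equiv.coe_fn_mk]
  split_ifs <;> simp_all

theorem sP_commute_left (B : Matrix (Fin Q) (Fin Q) ℂ) :
    Commute (sP P Q) (lefts P Q ((1 : Matrix (Fin P) (Fin P) ℂ) ⊗ₖ B)) := by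
  show _ = _
  rw [sP, invMat_mul, mul_invMat _ fun _ => rfl]
  ext ⟨⟨a, b⟩, ⟨c, d⟩⟩ ⟨⟨a', b'⟩, ⟨c', d'⟩⟩
  simp only [lefts_apply, permP, Matrix.submatrix_apply, id,
    Matrix.kroneckerMap_apply, Matrix.one_apply, Prod.mk.injEq, Equiv.coe_fn_mk]
  split_ifs <;> simp_all

theorem sQ_left (B : Matrix (Fin Q) (Fin Q) ℂ) :
    sQ P Q * lefts P Q ((1 : Matrix (Fin P) (Fin P) ℂ) ⊗ₖ B)
      = rights P Q ((1 : Matrix (Fin P) (Fin P) ℂ) ⊗ₖ B) * sQ P Q := by
  rw [sQ, invMat_mul, mul_invMat _ fun _ => rfl]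
  ext ⟨⟨a, b⟩, ⟨c, d⟩⟩ ⟨⟨a', b'⟩, ⟨c', d'⟩⟩
  simp only [lefts_apply, rights_apply, permQ, Matrix.submatrix_apply, id,
    Matrix.kroneckerMap_apply, Matrix.one_apply, Prod.mk.injEq, Equiv.coe_fn_mk]
  split_ifs <;> simp_all

theorem sQ_commute_left (A : Matrix (Fin P) (Fin P) ℂ) :
    Commute (sQ P Q) (lefts P Q (A ⊗ₖ (1 : Matrix (Fin Q) (Fin Q) ℂ))) := by
  show _ = _
  rw [sQ, invMat_mul, mul_invMat _ fun _ => rfl]
  ext ⟨⟨a, b⟩, ⟨c, d⟩⟩ ⟨⟨a', b'⟩, ⟨c', d'⟩⟩
  simp only [lefts_apply, permQ, Matrix.submatrix_apply, id,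
    Matrix.kroneckerMap_apply, Matrix.one_apply, Prod.mk.injEq, Equiv.coe_fn_mk]
  split_ifs <;> simp_all

theorem flip2_sP : Commute (flip2 P Q) (sP P Q) :=
  (Commute.refl _).mul_left (commute_sP_sQ P Q).symm

theorem flip2_sQ : Commute (flip2 P Q) (sQ P Q) :=
  (commute_sP_sQ P Q).mul_left (Commute.refl _)

theorem star_flip2 : star (flip2 P Q) = flip2 P Q := by
  rw [flip2, star_mul, star_sP, star_sQ, (commute_sP_sQ P Q).eq]

theorem flip2_sq : flip2 P Q * flip2 P Q = 1 := by
  rw [flip2, mul_assoc, ← mul_assoc (sQ P Q), ← (commute_sP_sQ P Q).eq, mul_assoc, sQ_sq, mul_one,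
    sP_sq]

theorem sP_right (A : Matrix (Fin P) (Fin P) ℂ) :
    sP P Q * rights P Q (A ⊗ₖ (1 : Matrix (Fin Q) (Fin Q) ℂ))
      = lefts P Q (A ⊗ₖ (1 : Matrix (Fin Q) (Fin Q) ℂ)) * sP P Q := by
  have h := sP_left P Q A
  calc _ = sP P Q * (rights P Q (A ⊗ₖ (1 : Matrix (Fin Q) (Fin Q) ℂ)) * sP P Q) * sP P Q := by
        simp only [mul_assoc, sP_sq, mul_one]
    _ = _ := by rw [← h, ← mul_assoc, sP_sq, one_mul]

theorem sQ_right (B : Matrix (Fin Q) (Fin Q) ℂ) :
    sQ P Q * rights P Q ((1 : Matrix (Fin P) (Fin P) ℂ) ⊗ₖ B)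
      = lefts P Q ((1 : Matrix (Fin P) (Fin P) ℂ) ⊗ₖ B) * sQ P Q := by
  have h := sQ_left P Q B
  calc _ = sQ P Q * (rights P Q ((1 : Matrix (Fin P) (Fin P) ℂ) ⊗ₖ B) * sQ P Q) * sQ P Q := by
        simp only [mul_assoc, sQ_sq, mul_one]
    _ = _ := by rw [← h, ← mul_assoc, sQ_sq, one_mul]

theorem sP_commute_right (B : Matrix (Fin Q) (Fin Q) ℂ) :
    Commute (sP P Q) (rights P Q ((1 : Matrix (Fin P) (Fin P) ℂ) ⊗ₖ B)) := by
  have h := ((flip2_sP P Q).symm.mul_right (sP_commute_left P Q B)).mul_right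
    (flip2_sP P Q).symm
  rwa [flip2_lefts, mul_assoc, flip2_sq, mul_one] at h

theorem sQ_commute_right (A : Matrix (Fin P) (Fin P) ℂ) :
    Commute (sQ P Q) (rights P Q (A ⊗ₖ (1 : Matrix (Fin Q) (Fin Q) ℂ))) := by
  have h := ((flip2_sQ P Q).symm.mul_right (sQ_commute_left P Q A)).mul_right
    (flip2_sQ P Q).symm
  rwa [flip2_lefts, mul_assoc, flip2_sq, mul_one] at h

/-! ### Paths from one to an involution -/

variable {n : Type} [Fintype n] [DecidableEq n]

/-- The path from one to the involution `W`. -/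
noncomputable def phase (W : Matrix n n ℂ) (r : ℝ) : Matrix n n ℂ :=
  (2⁻¹ : ℂ) • (1 + W) + (Complex.exp (r * Real.pi * Complex.I) * 2⁻¹) • (1 - W)

omit [Fintype n] in
theorem phase_zero (W : Matrix n n ℂ) : phase W 0 = 1 := by
  simp only [phase, Complex.ofReal_zero, zero_mul, Complex.exp_zero, one_mul, ← smul_add]
  rw [show (1 + W) + (1 - W) = (2 : ℂ) • (1 : Matrix n n ℂ) by rw [two_smul]; abel, smul_smul]
  norm_num

omit [Fintype n] in
theorem phase_one (W : Matrix n n ℂ) : phase W 1 = W := by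
  simp only [phase, Complex.ofReal_one, one_mul, Complex.exp_pi_mul_I, neg_smul, neg_mul,
    ← sub_eq_add_neg, ← smul_sub]
  rw [show (1 + W) - (1 - W) = (2 : ℂ) • W by rw [two_smul]; abel, smul_smul]
  norm_num

omit [Fintype n] in
theorem continuous_phase (W : Matrix n n ℂ) : Continuous (phase W) := by
  unfold phase
  fun_prop

theorem commute_phase {W X : Matrix n n ℂ} (h : Commute W X) (r : ℝ) : Commute (phase W r) X :=
  ((((Commute.one_left X).add_left h).smul_left _).add_left
    (((Commute.one_left X).sub_left h).smul_left _))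

theorem phase_mul {W : Matrix n n ℂ} (hq : W * W = 1) (r r' : ℝ) :
    phase W r * phase W r' = phase W (r + r') := by
  have e1 : (1 + W) * (1 + W) = (2 : ℂ) • (1 + W) := by
    rw [two_smul, add_mul, mul_add, mul_add, hq, one_mul, one_mul, mul_one]; abel
  have e2 : (1 - W) * (1 - W) = (2 : ℂ) • (1 - W) := by
    rw [two_smul, sub_mul, mul_sub, mul_sub, hq, one_mul, one_mul, mul_one]; abel
  have e3 : (1 + W) * (1 - W) = 0 := by
    rw [add_mul, mul_sub, mul_sub, hq, one_mul, one_mul, mul_one]; abel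
  have e4 : (1 - W) * (1 + W) = 0 := by
    rw [sub_mul, mul_add, mul_add, hq, one_mul, one_mul, mul_one]; abel
  have expand : ∀ (A B : Matrix n n ℂ) (c c' d d' : ℂ), (c • A + d • B) * (c' • A + d' • B)
      = (c * c') • (A * A) + (c * d') • (A * B) + (d * c') • (B * A) + (d * d') • (B * B) := by
    intro A B c c' d d'
    simp only [add_mul, mul_add, smul_mul_smul_comm]
    abel
  simp only [phase]
  rw [expand, e1, e2, e3, e4, smul_zero, smul_zero, add_zero, add_zero, smul_smul, smul_smul,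
    Complex.ofReal_add, add_mul, add_mul, Complex.exp_add]
  congr 2 <;> ring

theorem phase_unitary {W : Matrix n n ℂ} (hs : star W = W) (hq : W * W = 1) (r : ℝ) :
    phase W r ∈ unitary (Matrix n n ℂ) := by
  have hst : star (phase W r) = phase W (-r) := by
    simp only [phase, star_add, star_smul, star_sub, star_one, hs, star_mul']
    congr 2
    · simp
    · rw [← starRingEnd_apply, ← starRingEnd_apply, ← Complex.exp_conj]
      simp [map_ofNat]
  rw [Unitary.mem_iff, hst, phase_mul hq, phase_mul hq]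
  simp [phase_zero]

theorem phase_split {W : Matrix n n ℂ} (hq : W * W = 1) {a c : ℝ} (ha : a = 1) :
    phase W (a * c) * phase W (a * (1 - c)) = W := by
  rw [phase_mul hq, ha, one_mul, one_mul, add_sub_cancel, phase_one]

/-! ### Near intertwining -/

theorem near_comp {E : Type} [CStarAlgebra E] {u v X Y Z : E} (hu : u ∈ unitary E)
    (hv : v ∈ unitary E) {a b : ℝ} (h1 : ‖u * Y - Z * u‖ ≤ a) (h2 : ‖v * X - Y * v‖ ≤ b) :
    ‖u * v * X - Z * (u * v)‖ ≤ a + b := by
  rw [show u * v * X - Z * (u * v) = (u * Y - Z * u) * v + u * (v * X - Y * v) by noncomm_ring]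
  refine (norm_add_le _ _).trans (add_le_add ?_ ?_)
  · rw [CStarRing.norm_mul_mem_unitary _ hv]; exact h1
  · rw [CStarRing.norm_mem_unitary_mul _ hu]; exact h2

theorem near_star {E : Type} [CStarAlgebra E] {u X Y : E} (hu : u ∈ unitary E) {a : ℝ}
    (h : ‖u * X - Y * u‖ ≤ a) : ‖star u * Y - X * star u‖ ≤ a := by
  have e : star u * Y - X * star u = -(star u * (u * X - Y * u) * star u) := by
    simp only [mul_sub, sub_mul, ← mul_assoc, Unitary.star_mul_self_of_mem hu, one_mul]
    simp [mul_assoc, Unitary.mul_star_self_of_mem hu]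
  rw [e, norm_neg, CStarRing.norm_mul_mem_unitary _ (Unitary.star_mem hu),
    CStarRing.norm_mem_unitary_mul _ (Unitary.star_mem hu)]
  exact h

theorem near_of_commute {E : Type} [CStarAlgebra E] {u X : E} (h : Commute u X) :
    ‖u * X - X * u‖ ≤ 0 := by
  rw [h.eq, sub_self, norm_zero]

/-! ### The unitary -/

/-- The clamp to the unit interval. -/
noncomputable def clamp (r : ℝ) : ℝ := max 0 (min 1 r)

theorem clamp_zero {r : ℝ} (h : r ≤ 0) : clamp r = 0 :=
  max_eq_left ((min_le_right _ _).trans h)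

theorem clamp_one {r : ℝ} (h : 1 ≤ r) : clamp r = 1 := by
  rw [clamp, min_eq_left h, max_eq_right zero_le_one]

theorem pos_of_clamp_ne {r : ℝ} (h : clamp r ≠ 0) : 0 < r :=
  lt_of_not_ge fun h' => h (clamp_zero h')

theorem continuous_clamp : Continuous clamp := by
  unfold clamp
  fun_prop

/-- The map of the interval collapsing the collars of width `h`. -/
noncomputable def collar (h : ℝ) (t : I) : I :=
  Set.projIcc 0 1 zero_le_one (((t : ℝ) - h) / (1 - 2 * h))

theorem continuous_collar (h : ℝ) : Continuous (collar h) := by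
  unfold collar
  fun_prop

theorem collar_eq_zero {h : ℝ} (h1 : h ≤ 1 / 4) {t : I} (ht : (t : ℝ) ≤ h) : collar h t = 0 :=
  Set.projIcc_of_le_left _ (div_nonpos_of_nonpos_of_nonneg (by linarith) (by linarith))

theorem collar_eq_one {h : ℝ} (h1 : h ≤ 1 / 4) {t : I} (ht : 1 - h ≤ (t : ℝ)) :
    collar h t = 1 :=
  Set.projIcc_of_right_le _ ((one_le_div (by linarith)).2 (by linarith))

theorem dist_collar {h : ℝ} (h0 : 0 ≤ h) (h1 : h ≤ 1 / 4) (t : I) : dist t (collar h t) ≤ h := by
  rw [Subtype.dist_eq, Real.dist_eq, abs_le, collar, Set.coe_projIcc]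
  have ht0 := t.2.1
  have ht1 := t.2.2
  set y := ((t : ℝ) - h) / (1 - 2 * h) with hy
  have e : (t : ℝ) - h = y * (1 - 2 * h) := by
    rw [hy, div_mul_cancel₀ _ (by linarith : (1 - 2 * h) ≠ 0)]
  rcases le_total y 0 with hy0 | hy0
  · rw [min_eq_right (by linarith : y ≤ 1), max_eq_left hy0]
    constructor <;> nlinarith
  rcases le_total 1 y with hy1 | hy1
  · rw [min_eq_left hy1, max_eq_right zero_le_one]
    constructor <;> nlinarith
  · rw [min_eq_right hy1, max_eq_right hy0]
    constructor <;> nlinarith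

section Build

variable {P Q} (h : ℝ) (U : C(I, Fib P Q))

/-- The loop parameter of the first factor flip. -/
noncomputable def bP (s t : I) : ℝ := clamp ((max (s : ℝ) t - (1 - h)) / h)

/-- The loop parameter of the second factor flip. -/
noncomputable def bQ (s t : I) : ℝ := clamp ((h - min (s : ℝ) t) / h)

/-- The split of the second parameter. -/
noncomputable def split (s t : I) : ℝ := clamp ((s : ℝ) - t + 1 / 2)

/-- The conjugated path towards the flip of the first factors. -/
noncomputable def gConj (r : ℝ) : Fib2 P Q :=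
  star (lefts P Q (U 1)) * phase (sP P Q) r * lefts P Q (U 1)

/-- The middle part. -/
noncomputable def middle (s t : I) : Fib2 P Q :=
  phase (sQ P Q) (bQ h s t * split s t) * gConj U (bP h s t)
    * phase (sQ P Q) (bQ h s t * (1 - split s t))

/-- The flipping unitary. -/
noncomputable def flipper (z : I × I) : Fib2 P Q :=
  rights P Q (U (collar h z.2)) * flip2 P Q * middle h U z.1 z.2
    * lefts P Q (star (U (collar h z.1)))

theorem continuous_flipper : Continuous (flipper h U) := by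
  have c1 : Continuous fun z : I × I => rights P Q (U (collar h z.2)) :=
    (continuous_rights P Q).comp
      ((map_continuous U).comp ((continuous_collar h).comp continuous_snd))
  have c2 : Continuous fun z : I × I => lefts P Q (star (U (collar h z.1))) :=
    (continuous_lefts P Q).comp
      (((map_continuous U).comp ((continuous_collar h).comp continuous_fst)).star)
  have hp := continuous_phase (sP P Q)
  have hq := continuous_phase (sQ P Q)
  have hc := continuous_clamp
  have b1 : Continuous fun z : I × I => bP h z.1 z.2 := by unfold bP; fun_prop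
  have b2 : Continuous fun z : I × I => bQ h z.1 z.2 := by unfold bQ; fun_prop
  have b3 : Continuous fun z : I × I => split z.1 z.2 := by unfold split; fun_prop
  unfold flipper middle gConj
  fun_prop

variable {h U}

theorem lefts_unitary {X : Fib P Q} (hX : X ∈ unitary (Fib P Q)) :
    lefts P Q X ∈ unitary (Fib2 P Q) := Unitary.map_mem (lefts P Q) hX

theorem rights_unitary {X : Fib P Q} (hX : X ∈ unitary (Fib P Q)) :
    rights P Q X ∈ unitary (Fib2 P Q) := Unitary.map_mem (rights P Q) hX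

theorem flip2_unitary : flip2 P Q ∈ unitary (Fib2 P Q) := by
  rw [Unitary.mem_iff, star_flip2]
  exact ⟨flip2_sq P Q, flip2_sq P Q⟩

theorem gConj_unitary (hU : ∀ t, U t ∈ unitary (Fib P Q)) (r : ℝ) :
    gConj U r ∈ unitary (Fib2 P Q) :=
  mul_mem (mul_mem (Unitary.star_mem (lefts_unitary (hU 1)))
    (phase_unitary (star_sP P Q) (sP_sq P Q) r)) (lefts_unitary (hU 1))

theorem gConj_zero (hU : ∀ t, U t ∈ unitary (Fib P Q)) : gConj U 0 = 1 := by
  rw [gConj, phase_zero, mul_one, Unitary.star_mul_self_of_mem (lefts_unitary (hU 1))]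

theorem middle_unitary (hU : ∀ t, U t ∈ unitary (Fib P Q)) (s t : I) :
    middle h U s t ∈ unitary (Fib2 P Q) :=
  mul_mem (mul_mem (phase_unitary (star_sQ P Q) (sQ_sq P Q) _) (gConj_unitary hU _))
    (phase_unitary (star_sQ P Q) (sQ_sq P Q) _)

theorem flipper_unitary (hU : ∀ t, U t ∈ unitary (Fib P Q)) (z : I × I) :
    flipper h U z ∈ unitary (Fib2 P Q) :=
  mul_mem (mul_mem (mul_mem (rights_unitary (hU _)) flip2_unitary) (middle_unitary hU _ _))
    (lefts_unitary (Unitary.star_mem (hU _)))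

theorem middle_of_bP {s t : I} (hU : ∀ t, U t ∈ unitary (Fib P Q)) (hb : bP h s t = 0)
    (ha : bQ h s t = 1) : middle h U s t = sQ P Q := by
  rw [middle, hb, gConj_zero hU, mul_one, phase_split (sQ_sq P Q) ha]

theorem rights_flip2 (X : Fib P Q) : rights P Q X * flip2 P Q = flip2 P Q * lefts P Q X :=
  (flip2_lefts P Q X).symm

variable (hh0 : 0 < h) (hh1 : h ≤ 1 / 4) (hU : ∀ t, U t ∈ unitary (Fib P Q)) (hU0 : U 0 = 1)
include hh0 hh1 hU hU0

omit hU hU0 hh1 in
theorem min_zero_bQ {s t : I} (hst : s = 0 ∨ t = 0) : bQ h s t = 1 := by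
  have : min (s : ℝ) t = 0 := by
    rcases hst with rfl | rfl
    · exact min_eq_left t.2.1
    · exact min_eq_right s.2.1
  rw [bQ, this]
  exact clamp_one (by rw [sub_zero, div_self hh0.ne'])

omit hU hU0 hh1 in
theorem max_one_bP {s t : I} (hst : s = 1 ∨ t = 1) : bP h s t = 1 := by
  have : max (s : ℝ) t = 1 := by
    rcases hst with rfl | rfl
    · exact max_eq_left t.2.2
    · exact max_eq_right s.2.2
  rw [bP, this]
  exact clamp_one (by rw [sub_sub_cancel, div_self hh0.ne'])

theorem flipper_left (r : I) (b : Matrix (Fin Q) (Fin Q) ℂ) :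
    Commute (flipper h U (0, r)) (lefts P Q ((1 : Matrix (Fin P) (Fin P) ℂ) ⊗ₖ b)) := by
  set B := (1 : Matrix (Fin P) (Fin P) ℂ) ⊗ₖ b with hB
  have hc0 : collar h 0 = 0 := collar_eq_zero hh1 (by simpa using hh0.le)
  have ha := min_zero_bQ (s := 0) (t := r) hh0 (Or.inl rfl)
  by_cases hb : bP h 0 r = 0
  · have e : flipper h U (0, r) = rights P Q (U (collar h r)) * sP P Q := by
      simp only [flipper, middle_of_bP hU hb ha, hc0, hU0, star_one, map_one, mul_one]
      rw [flip2, mul_assoc, mul_assoc (sP P Q), sQ_sq, mul_one]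
    rw [e]
    exact (commute_lefts_rights P Q B _).symm.mul_left (sP_commute_left P Q b)
  · have hr : 1 - h < (r : ℝ) := by
      have := pos_of_clamp_ne hb
      rw [lt_div_iff₀ hh0, zero_mul, sub_pos, lt_max_iff] at this
      rcases this with h2 | h2
      · simp at h2; linarith
      · exact h2
    have hc : split 0 r = 0 := clamp_zero (by simp; linarith)
    have e : flipper h U (0, r)
        = flip2 P Q * phase (sP P Q) (bP h 0 r) * (lefts P Q (U 1) * sQ P Q) := by
      simp only [flipper, middle, gConj, hc0, hU0, star_one, map_one, mul_one, hc, ha, one_mul,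
        mul_zero, sub_zero, phase_zero, phase_one, collar_eq_one hh1 hr.le, rights_flip2]
      simp only [mul_assoc]
      rw [← mul_assoc (lefts P Q (U 1)) (star _), Unitary.mul_star_self_of_mem
        (lefts_unitary (hU 1)), one_mul]
    rw [e]
    have h1 : SemiconjBy (lefts P Q (U 1) * sQ P Q) (lefts P Q B) (rights P Q B) :=
      SemiconjBy.mul_left (commute_lefts_rights P Q _ _) (sQ_left P Q b)
    have h2 : SemiconjBy (phase (sP P Q) (bP h 0 r)) (rights P Q B) (rights P Q B) :=
      commute_phase (sP_commute_right P Q b) _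
    exact (SemiconjBy.mul_left (flip2_rights P Q B) h2).mul_left h1

theorem flipper_bottom (r : I) (b : Matrix (Fin Q) (Fin Q) ℂ) :
    Commute (flipper h U (r, 0)) (rights P Q ((1 : Matrix (Fin P) (Fin P) ℂ) ⊗ₖ b)) := by
  set B := (1 : Matrix (Fin P) (Fin P) ℂ) ⊗ₖ b with hB
  have hc0 : collar h 0 = 0 := collar_eq_zero hh1 (by simpa using hh0.le)
  have ha := min_zero_bQ (s := r) (t := 0) hh0 (Or.inr rfl)
  by_cases hb : bP h r 0 = 0
  · have e : flipper h U (r, 0) = sP P Q * lefts P Q (star (U (collar h r))) := by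
      simp only [flipper, middle_of_bP hU hb ha, hc0, hU0, map_one, one_mul]
      rw [flip2, mul_assoc (sP P Q), sQ_sq, mul_one]
    rw [e]
    exact (sP_commute_right P Q b).mul_left (commute_lefts_rights P Q _ _)
  · have hr : 1 - h < (r : ℝ) := by
      have := pos_of_clamp_ne hb
      rw [lt_div_iff₀ hh0, zero_mul, sub_pos, lt_max_iff] at this
      rcases this with h2 | h2
      · exact h2
      · simp at h2; linarith
    have hc : split r 0 = 1 := clamp_one (by simp; linarith)
    have e : flipper h U (r, 0)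
        = sP P Q * star (lefts P Q (U 1)) * phase (sP P Q) (bP h r 0) := by
      simp only [flipper, middle, gConj, hc0, hU0, map_one, one_mul, mul_one, hc, ha, sub_self,
        mul_zero, phase_zero, phase_one, collar_eq_one hh1 hr.le, map_star]
      simp only [mul_assoc, Unitary.mul_star_self_of_mem (lefts_unitary (hU 1)), mul_one]
      rw [← mul_assoc (flip2 P Q), flip2, mul_assoc (sP P Q), sQ_sq, mul_one]
    rw [e, ← map_star]
    exact ((sP_commute_right P Q b).mul_left (commute_lefts_rights P Q _ _)).mul_left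
      (commute_phase (sP_commute_right P Q b) _)

omit hU0 in
theorem flipper_right (r : I) (a : Matrix (Fin P) (Fin P) ℂ) :
    Commute (flipper h U (1, r)) (lefts P Q (a ⊗ₖ (1 : Matrix (Fin Q) (Fin Q) ℂ))) := by
  set A := a ⊗ₖ (1 : Matrix (Fin Q) (Fin Q) ℂ) with hA
  have hc1 : collar h 1 = 1 := collar_eq_one hh1 (by simp; linarith)
  have hb := max_one_bP (s := 1) (t := r) hh0 (Or.inl rfl)
  have hc : bQ h 1 r * (1 - split 1 r) = 0 := by
    by_cases hq : bQ h 1 r = 0
    · rw [hq, zero_mul]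
    · have := pos_of_clamp_ne hq
      rw [lt_div_iff₀ hh0, zero_mul, sub_pos, min_lt_iff] at this
      rcases this with h2 | h2
      · simp at h2; linarith
      · rw [split, clamp_one (by simp; linarith), sub_self, mul_zero]
  have e : flipper h U (1, r) = rights P Q (U (collar h r)) * flip2 P Q
      * (phase (sQ P Q) (bQ h 1 r * split 1 r) * lefts P Q (star (U 1)) * sP P Q) := by
    simp only [flipper, middle, gConj, hc, hc1, hb, phase_zero, phase_one, mul_one, map_star]
    simp only [mul_assoc, Unitary.mul_star_self_of_mem (lefts_unitary (hU 1)), mul_one]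
  rw [e]
  have h1 : SemiconjBy (phase (sQ P Q) (bQ h 1 r * split 1 r) * lefts P Q (star (U 1)) * sP P Q)
      (lefts P Q A) (rights P Q A) :=
    (SemiconjBy.mul_left (commute_phase (sQ_commute_right P Q a) _)
      (commute_lefts_rights P Q _ _)).mul_left (sP_left P Q a)
  exact (SemiconjBy.mul_left (commute_lefts_rights P Q A _).symm (flip2_rights P Q A)).mul_left h1

omit hU0 in
theorem flipper_top (r : I) (a : Matrix (Fin P) (Fin P) ℂ) :
    Commute (flipper h U (r, 1)) (rights P Q (a ⊗ₖ (1 : Matrix (Fin Q) (Fin Q) ℂ))) := by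
  set A := a ⊗ₖ (1 : Matrix (Fin Q) (Fin Q) ℂ) with hA
  have hc1 : collar h 1 = 1 := collar_eq_one hh1 (by simp; linarith)
  have hb := max_one_bP (s := r) (t := 1) hh0 (Or.inr rfl)
  have hc : bQ h r 1 * split r 1 = 0 := by
    by_cases hq : bQ h r 1 = 0
    · rw [hq, zero_mul]
    · have := pos_of_clamp_ne hq
      rw [lt_div_iff₀ hh0, zero_mul, sub_pos, min_lt_iff] at this
      rcases this with h2 | h2
      · rw [split, clamp_zero (by simp; linarith), mul_zero]
      · simp at h2; linarith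
  have e : flipper h U (r, 1) = sQ P Q * lefts P Q (U 1)
      * phase (sQ P Q) (bQ h r 1 * (1 - split r 1)) * lefts P Q (star (U (collar h r))) := by
    simp only [flipper, middle, gConj, hc, hc1, hb, phase_zero, phase_one, one_mul, rights_flip2]
    simp only [mul_assoc]
    rw [← mul_assoc (lefts P Q (U 1)) (star _), Unitary.mul_star_self_of_mem
      (lefts_unitary (hU 1)), one_mul, ← mul_assoc (flip2 P Q) (sP P Q),
      show flip2 P Q * sP P Q = sQ P Q by
        rw [flip2, mul_assoc, ← (commute_sP_sQ P Q).eq, ← mul_assoc, sP_sq, one_mul]]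
  rw [e]
  exact (((sQ_commute_right P Q a).mul_left (commute_lefts_rights P Q _ _)).mul_left
    (commute_phase (sQ_commute_right P Q a) _)).mul_left (commute_lefts_rights P Q _ _)

end Build

theorem norm_lefts_le (X : Fib P Q) : ‖lefts P Q X‖ ≤ ‖X‖ :=
  NonUnitalStarAlgHom.norm_apply_le (lefts P Q) X

theorem norm_rights_le (X : Fib P Q) : ‖rights P Q X‖ ≤ ‖X‖ :=
  NonUnitalStarAlgHom.norm_apply_le (rights P Q) X

theorem near_lefts {u X Y : Fib P Q} {a : ℝ} (hh : ‖u * X - Y * u‖ ≤ a) :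
    ‖lefts P Q u * lefts P Q X - lefts P Q Y * lefts P Q u‖ ≤ a := by
  rw [← map_mul, ← map_mul, ← map_sub]
  exact (norm_lefts_le P Q _).trans hh

theorem near_rights {u X Y : Fib P Q} {a : ℝ} (hh : ‖u * X - Y * u‖ ≤ a) :
    ‖rights P Q u * rights P Q X - rights P Q Y * rights P Q u‖ ≤ a := by
  rw [← map_mul, ← map_mul, ← map_sub]
  exact (norm_rights_le P Q _).trans hh

/-- A width of the collars for which the flipping unitary intertwines up to `6 ε`. -/
theorem exists_width (F : Finset (ZPair P Q)) (U : C(I, Fib P Q)) (ε : ℝ) (hε : 0 < ε)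
    (hU : ∀ t, U t ∈ unitary (Fib P Q))
    (hF : ∀ x ∈ F, ∀ s : I, ‖(x : C(I, Fib P Q)) s
      - U s * (x : C(I, Fib P Q)) 0 * star (U s)‖ ≤ ε) :
    ∃ h : ℝ, 0 < h ∧ h ≤ 1 / 4 ∧ ∀ x ∈ F, ∀ s t : I,
      ‖flipper h U (s, t) * ((x : C(I, Fib P Q)) s ⊗ₖ (1 : Fib P Q))
        - ((1 : Fib P Q) ⊗ₖ (x : C(I, Fib P Q)) t) * flipper h U (s, t)‖ ≤ 6 * ε := by
  let f : I → (↥F → Fib P Q) := fun t x => (x.1 : C(I, Fib P Q)) t
  have hf : Continuous f := continuous_pi fun x => map_continuous (x.1 : C(I, Fib P Q))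
  obtain ⟨δ, hδ, hδf⟩ := Metric.uniformContinuous_iff.1
    (CompactSpace.uniformContinuous_of_continuous hf) ε hε
  obtain ⟨h, hh0, hh1, hhδ⟩ : ∃ h : ℝ, 0 < h ∧ h ≤ 1 / 4 ∧ h < δ :=
    ⟨min (1 / 4) (δ / 2), lt_min (by norm_num) (half_pos hδ), min_le_left _ _,
      (min_le_right _ _).trans_lt (half_lt_self hδ)⟩
  refine ⟨h, hh0, hh1, fun x hx s t => ?_⟩
  obtain ⟨⟨A, hA⟩, ⟨B, hB⟩⟩ : (∃ A : Matrix (Fin P) (Fin P) ℂ,
      (x : C(I, Fib P Q)) 0 = A ⊗ₖ (1 : Matrix (Fin Q) (Fin Q) ℂ)) ∧
      ∃ B : Matrix (Fin Q) (Fin Q) ℂ,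
        (x : C(I, Fib P Q)) 1 = (1 : Matrix (Fin P) (Fin P) ℂ) ⊗ₖ B := x.2
  set g : I → Fib P Q := fun r => (x : C(I, Fib P Q)) r with hg
  -- moving along the collar
  have move : ∀ r : I, ‖g r - U (collar h r) * g 0 * star (U (collar h r))‖ ≤ 2 * ε := by
    intro r
    have h1 : ‖g r - g (collar h r)‖ ≤ ε := by
      have := hδf ((dist_collar hh0.le hh1 r).trans_lt hhδ)
      rw [← dist_eq_norm]
      exact le_trans (dist_le_pi_dist (f r) (f (collar h r)) ⟨x, hx⟩) this.le
    linarith [hF x hx (collar h r), norm_sub_le_norm_sub_add_norm_sub (g r) (g (collar h r))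
      (U (collar h r) * g 0 * star (U (collar h r)))]
  have conj : ∀ r : I, ∀ c : ℝ, ∀ y : Fib P Q, ‖y - U r * g 0 * star (U r)‖ ≤ c →
      ‖U r * g 0 - y * U r‖ ≤ c := by
    intro r c y hy
    rw [show U r * g 0 - y * U r = -((y - U r * g 0 * star (U r)) * U r) by
      rw [sub_mul, mul_assoc, Unitary.star_mul_self_of_mem (hU r), mul_one]; abel, norm_neg,
      CStarRing.norm_mul_mem_unitary _ (hU r)]
    exact hy
  have left : ‖lefts P Q (star (U (collar h s))) * lefts P Q (g s)
      - lefts P Q (g 0) * lefts P Q (star (U (collar h s)))‖ ≤ 2 * ε :=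
    near_lefts P Q (near_star (hU _) (conj _ _ _ (move s)))
  have right : ‖rights P Q (U (collar h t)) * rights P Q (g 0)
      - rights P Q (g t) * rights P Q (U (collar h t))‖ ≤ 2 * ε :=
    near_rights P Q (conj _ _ _ (move t))
  have k1 : ‖lefts P Q (U 1) * lefts P Q (g 0) - lefts P Q (g 1) * lefts P Q (U 1)‖ ≤ ε :=
    near_lefts P Q (conj _ _ _ (hF x hx 1))
  have qq : ∀ r : ℝ, ‖phase (sQ P Q) r * lefts P Q (g 0)
      - lefts P Q (g 0) * phase (sQ P Q) r‖ ≤ 0 := fun r =>
    near_of_commute (commute_phase (by rw [show g 0 = _ from hA]; exact sQ_commute_left P Q A) r)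
  have pp : ∀ r : ℝ, ‖phase (sP P Q) r * lefts P Q (g 1)
      - lefts P Q (g 1) * phase (sP P Q) r‖ ≤ 0 := fun r =>
    near_of_commute (commute_phase (by rw [show g 1 = _ from hB]; exact sP_commute_left P Q B) r)
  have hK := lefts_unitary (hU 1)
  have hp := fun r => phase_unitary (star_sP P Q) (sP_sq P Q) r
  have hq := fun r => phase_unitary (star_sQ P Q) (sQ_sq P Q) r
  have hG := fun r => near_comp (mul_mem (Unitary.star_mem hK) (hp r)) hK
    (near_comp (Unitary.star_mem hK) (hp r) (near_star hK k1) (pp r)) k1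
  have hM := near_comp (mul_mem (hq (bQ h s t * split s t)) (gConj_unitary hU (bP h s t)))
    (hq (bQ h s t * (1 - split s t)))
    (near_comp (hq _) (gConj_unitary hU _) (qq _) (hG (bP h s t))) (qq _)
  have hF0 : ‖flip2 P Q * lefts P Q (g 0) - rights P Q (g 0) * flip2 P Q‖ ≤ 0 := by
    rw [flip2_lefts, sub_self, norm_zero]
  have := near_comp (mul_mem (mul_mem (rights_unitary (hU _)) flip2_unitary)
      (middle_unitary hU s t)) (lefts_unitary (Unitary.star_mem (hU _)))
    (near_comp (mul_mem (rights_unitary (hU _)) flip2_unitary) (middle_unitary hU s t)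
      (near_comp (rights_unitary (hU _)) flip2_unitary right hF0) hM) left
  refine le_trans this ?_
  linarith

/-- Block H. -/
theorem halfFlipPin : HalfFlipPin := by
  intro P Q F U ε hε hU hU0 hF
  obtain ⟨h, hh0, hh1, hest⟩ := exists_width P Q F U ε hε hU hF
  exact ⟨⟨flipper h U, continuous_flipper h U⟩,
    fun r => ⟨fun b => ⟨flipper_left hh0 hh1 hU hU0 r b, flipper_bottom hh0 hh1 hU hU0 r b⟩,
      fun a => ⟨flipper_right hh0 hh1 hU r a, flipper_top hh0 hh1 hU r a⟩⟩,
    flipper_unitary hU, hest⟩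

end Vale.Agent.P101.Bridge.HalfFlip
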