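import Vale.Agent.P101.Defs

/-!
P101 bridge: the definitions used by the statement of absorption of the Jiang-Su algebra.
-/

namespace Vale.Agent.P101.Bridge

open Filter
open scoped Topology BoundedContinuousFunction Kronecker unitInterval

/-- Z(p,q) = {f : [0,1] → M p ⊗ M q continuous | f 0 ∈ M p ⊗ 1, f 1 ∈ 1 ⊗ M q}. -/
def zPairSet (p q : ℕ) : Set C(I, Matrix (Fin p × Fin q) (Fin p × Fin q) ℂ) :=
  {f | (∃ a : Matrix (Fin p) (Fin p) ℂ, f 0 = a ⊗ₖ (1 : Matrix (Fin q) (Fin q) ℂ)) ∧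
    ∃ b : Matrix (Fin q) (Fin q) ℂ, f 1 = (1 : Matrix (Fin p) (Fin p) ℂ) ⊗ₖ b}

/-- An injective unital *-homomorphism on Z(p,q), whose operations are the pointwise ones. -/
structure IsUnitalEmbedding {p q : ℕ} {D : Type} [CStarAlgebra D] (f : zPairSet p q → D) :
    Prop where
  injective : Function.Injective f
  one : ∀ x : zPairSet p q, (∀ t, x.1 t = 1) → f x = 1
  add : ∀ x y z : zPairSet p q, (∀ t, z.1 t = x.1 t + y.1 t) → f z = f x + f y
  mul : ∀ x y z : zPairSet p q, (∀ t, z.1 t = x.1 t * y.1 t) → f z = f x * f y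
  smul : ∀ (c : ℂ) (x z : zPairSet p q), (∀ t, z.1 t = c • x.1 t) → f z = c • f x
  star_map : ∀ x z : zPairSet p q, (∀ t, z.1 t = (x.1 t).conjTranspose) → f z = star (f x)

/-- A subset that is a copy of a prime dimension drop algebra with the same unit. -/
def IsPrimeDrop {D : Type} [CStarAlgebra D] (S : Set D) : Prop :=
  ∃ p q : ℕ, 2 ≤ p ∧ 2 ≤ q ∧ Nat.Coprime p q ∧
    ∃ f : zPairSet p q → D, IsUnitalEmbedding f ∧ Set.range f = S

/-- A tracial state. -/
def IsTracialState {D : Type} [CStarAlgebra D] (τ : D →L[ℂ] ℂ) : Prop :=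
  τ 1 = 1 ∧ (∀ x, 0 ≤ (τ (star x * x)).re ∧ (τ (star x * x)).im = 0) ∧
    ∀ x y, τ (x * y) = τ (y * x)

/-- Jiang and Su: the simple inductive limit of prime dimension drop algebras with one tracial
state (unique up to isomorphism). -/
def IsJiangSu (D : Type) [CStarAlgebra D] : Prop :=
  (∃ S : ℕ → Set D, Monotone S ∧ (∀ k, IsPrimeDrop (S k)) ∧ Dense (⋃ k, S k)) ∧
    (∀ x : D, x ≠ 0 → ∃ (n : ℕ) (a b : Fin n → D), ∑ i, a i * x * b i = 1) ∧
    ∃! τ : D →L[ℂ] ℂ, IsTracialState τ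

/-- `B` is a C*-tensor product of `A` and `D`: commuting copies, dense span, injective on the
algebraic tensor product. -/
structure IsCTensor {A D B : Type} [CStarAlgebra A] [CStarAlgebra D] [CStarAlgebra B]
    (ιA : A →⋆ₐ[ℂ] B) (ιD : D →⋆ₐ[ℂ] B) : Prop where
  comm : ∀ a d, Commute (ιA a) (ιD d)
  dense : Dense (Submodule.span ℂ (Set.range fun z : A × D => ιA z.1 * ιD z.2) : Set B)
  injective : ∀ (n : ℕ) (a : Fin n → A) (d : Fin n → D), LinearIndependent ℂ d →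
    ∑ i, ιA (a i) * ιD (d i) = 0 → a = 0

/-- Some C*-tensor product of `A` and `D` exists. -/
def HasTensor (A D : Type) [CStarAlgebra A] [CStarAlgebra D] : Prop :=
  ∃ (B : Type) (_ : CStarAlgebra B) (ιA : A →⋆ₐ[ℂ] B) (ιD : D →⋆ₐ[ℂ] B), IsCTensor ιA ιD

/-- `A` is isomorphic to each of its C*-tensor products with `D`. -/
def Absorbs (A D : Type) [CStarAlgebra A] [CStarAlgebra D] : Prop :=
  ∀ (B : Type) [CStarAlgebra B] (ιA : A →⋆ₐ[ℂ] B) (ιD : D →⋆ₐ[ℂ] B),
    IsCTensor ιA ιD → Nonempty (A ≃⋆ₐ[ℂ] B)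

/-- The central sequences modulo null ones have no character. -/
def NoCharacter (A : Type) [CStarAlgebra A] (w : Filter ℕ) : Prop :=
  ¬ ∃ χ : centralSeq w A →⋆ₐ[ℂ] ℂ,
    ∀ f : centralSeq w A, IsNull w (f : ℕ →ᵇ A) → χ f = 0

end Vale.Agent.P101.Bridge
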