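import Vale.Agent.P101.Defs
import Vale.Agent.P101.DropN.Hom.ZPair
import Vale.Agent.P101.Bridge.Stated

/-!
P101 bridge: from maps of prime dimension drop algebras into the central sequences to absorption of
the Jiang-Su algebra. Statement and blocks (route in notes/P101/helper5_bridge.md).
-/

namespace Vale.Agent.P101.Bridge

open Filter Vale.Agent.P101.DropN
open scoped Topology BoundedContinuousFunction Matrix Matrix.Norms.L2Operator Kronecker unitInterval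

/-! ### Statement -/

/-- The target: no characters gives absorption of the Jiang-Su algebra. -/
def BridgePin : Prop :=
  ∃ (D : Type) (_ : CStarAlgebra D), IsJiangSu D ∧
    ∀ (A : Type) [CStarAlgebra A] [TopologicalSpace.SeparableSpace A] (w : Ultrafilter ℕ),
      (w : Filter ℕ) ≤ cofinite →
      (¬ ∃ χ : centralSeq (w : Filter ℕ) A →⋆ₐ[ℂ] ℂ,
        ∀ f : centralSeq (w : Filter ℕ) A, IsNull (w : Filter ℕ) (f : ℕ →ᵇ A) → χ f = 0) →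
      (∃ (B : Type) (_ : CStarAlgebra B) (ιA : A →⋆ₐ[ℂ] B) (ιD : D →⋆ₐ[ℂ] B),
        IsCTensor ιA ιD) ∧
      ∀ (B : Type) [CStarAlgebra B] (ιA : A →⋆ₐ[ℂ] B) (ιD : D →⋆ₐ[ℂ] B),
        IsCTensor ιA ιD → Nonempty (A ≃⋆ₐ[ℂ] B)

/-! ### Data -/

/-- Square matrices on the fibre of Z(p,q). -/
abbrev Fib (p q : ℕ) := Matrix (Fin p × Fin q) (Fin p × Fin q) ℂ

/-- Square matrices on the fibre of Z(p,q) ⊗ Z(p,q). -/
abbrev Fib2 (p q : ℕ) :=
  Matrix ((Fin p × Fin q) × (Fin p × Fin q)) ((Fin p × Fin q) × (Fin p × Fin q)) ℂ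

/-- Functions on the square with the boundary conditions of Z(p,q) ⊗ Z(p,q). -/
def squareSet (p q : ℕ) : Set C(I × I, Fib2 p q) :=
  {f | ∀ r : I,
    (∀ b : Matrix (Fin q) (Fin q) ℂ,
      Commute (f (0, r)) ((((1 : Matrix (Fin p) (Fin p) ℂ) ⊗ₖ b)) ⊗ₖ (1 : Fib p q)) ∧
      Commute (f (r, 0)) ((1 : Fib p q) ⊗ₖ ((1 : Matrix (Fin p) (Fin p) ℂ) ⊗ₖ b))) ∧
    ∀ a : Matrix (Fin p) (Fin p) ℂ,
      Commute (f (1, r)) ((a ⊗ₖ (1 : Matrix (Fin q) (Fin q) ℂ)) ⊗ₖ (1 : Fib p q)) ∧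
      Commute (f (r, 1)) ((1 : Fib p q) ⊗ₖ (a ⊗ₖ (1 : Matrix (Fin q) (Fin q) ℂ)))}

/-- Up to one continuous conjugation, `ψ x` varies at most as much as `x` over distances shrunk by
the factor `c`. -/
def Contracts {p q P Q : ℕ} (ψ : ZPair p q →⋆ₐ[ℂ] ZPair P Q) (c : ℝ) : Prop :=
  ∃ u : C(I, Fib P Q), (∀ t, u t ∈ unitary (Fib P Q)) ∧
    ∀ (x : ZPair p q) (η δ : ℝ),
      (∀ a b : I, dist a b ≤ δ → ‖(x : C(I, Fib p q)) a - (x : C(I, Fib p q)) b‖ ≤ η) →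
      ∀ s t : I, c * dist s t ≤ δ →
        ‖star (u s) * (ψ x : C(I, Fib P Q)) s * u s
          - star (u t) * (ψ x : C(I, Fib P Q)) t * u t‖ ≤ η

/-- A zero of `ψ x` forces zeros of `x` within distance `c` of every point. -/
def Reaches {p q P Q : ℕ} (ψ : ZPair p q →⋆ₐ[ℂ] ZPair P Q) (c : ℝ) : Prop :=
  ∀ (x : ZPair p q) (t : I), (ψ x : C(I, Fib P Q)) t = 0 →
    ∀ r : I, ∃ r' : I, dist r r' ≤ c ∧ (x : C(I, Fib p q)) r' = 0

/-- A chain of prime dimension drop algebras with injective connecting maps. -/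
structure Chain where
  p : ℕ → ℕ
  q : ℕ → ℕ
  two_p : ∀ k, 2 ≤ p k
  two_q : ∀ k, 2 ≤ q k
  coprime : ∀ k, Nat.Coprime (p k) (q k)
  φ : ∀ k, ZPair (p k) (q k) →⋆ₐ[ℂ] ZPair (p (k + 1)) (q (k + 1))
  injective : ∀ k, Function.Injective (φ k)

/-- The composite of `j` connecting maps from stage `k`. -/
noncomputable def Chain.comp (S : Chain) (k : ℕ) :
    ∀ j, ZPair (S.p k) (S.q k) →⋆ₐ[ℂ] ZPair (S.p (k + j)) (S.q (k + j))
  | 0 => StarAlgHom.id ℂ _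
  | j + 1 => (S.φ (k + j)).comp (S.comp k j)

/-- `D` is the limit of the chain. -/
structure IsLimit (S : Chain) {D : Type} [CStarAlgebra D]
    (ι : ∀ k, ZPair (S.p k) (S.q k) →⋆ₐ[ℂ] D) : Prop where
  compat : ∀ k x, ι (k + 1) (S.φ k x) = ι k x
  injective : ∀ k, Function.Injective (ι k)
  dense : Dense (⋃ k, Set.range (ι k))

/-! ### Blocks -/

/-- C: a chain whose composites contract and reach geometrically (Jiang and Su). -/
def ChainPin : Prop :=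
  ∃ S : Chain, ∀ k j,
    Contracts (S.comp k j) ((1 / 2) ^ j) ∧ Reaches (S.comp k j) ((1 / 2) ^ j)

/-- L: a chain has a limit, which has a C*-tensor product with every unital C*-algebra. -/
def LimitPin : Prop :=
  ∀ S : Chain, ∃ (D : Type) (_ : CStarAlgebra D) (ι : ∀ k, ZPair (S.p k) (S.q k) →⋆ₐ[ℂ] D),
    IsLimit S ι ∧ ∀ (A : Type) [CStarAlgebra A],
      ∃ (B : Type) (_ : CStarAlgebra B) (ιA : A →⋆ₐ[ℂ] B) (ιD : D →⋆ₐ[ℂ] B), IsCTensor ιA ιD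

/-- J: the limit of such a chain is simple with exactly one tracial state. -/
def JiangSuPin : Prop :=
  ∀ (S : Chain), (∀ k j,
      Contracts (S.comp k j) ((1 / 2) ^ j) ∧ Reaches (S.comp k j) ((1 / 2) ^ j)) →
  ∀ (D : Type) [CStarAlgebra D] (ι : ∀ k, ZPair (S.p k) (S.q k) →⋆ₐ[ℂ] D),
    IsLimit S ι → IsJiangSu D

/-- H: elements with unitarily constant fibres are approximately flipped inside the square
algebra. -/
def HalfFlipPin : Prop :=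
  ∀ (P Q : ℕ) (F : Finset (ZPair P Q)) (U : C(I, Fib P Q)) (ε : ℝ), 0 < ε →
    (∀ t, U t ∈ unitary (Fib P Q)) → U 0 = 1 →
    (∀ x ∈ F, ∀ s : I, ‖(x : C(I, Fib P Q)) s
      - U s * (x : C(I, Fib P Q)) 0 * star (U s)‖ ≤ ε) →
    ∃ v : C(I × I, Fib2 P Q), v ∈ squareSet P Q ∧ (∀ z, v z ∈ unitary (Fib2 P Q)) ∧
      ∀ x ∈ F, ∀ s t : I, ‖v (s, t) * ((x : C(I, Fib P Q)) s ⊗ₖ (1 : Fib P Q))
        - ((1 : Fib P Q) ⊗ₖ (x : C(I, Fib P Q)) t) * v (s, t)‖ ≤ 6 * ε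

/-- S: a unitary of the square algebra acts through two commuting unital maps of Z(p,q). -/
def SquarePin : Prop :=
  ∀ (p q : ℕ), 0 < p → 0 < q →
  ∀ (G : Type) [CStarAlgebra G] (ψ₁ ψ₂ : ZPair p q →⋆ₐ[ℂ] G),
    (∀ x y, Commute (ψ₁ x) (ψ₂ y)) →
    ∀ v : C(I × I, Fib2 p q), v ∈ squareSet p q → (∀ z, v z ∈ unitary (Fib2 p q)) →
      ∀ ε : ℝ, 0 < ε → ∃ T : G, ‖star T * T - 1‖ ≤ ε ∧ ‖T * star T - 1‖ ≤ ε ∧
        (∀ g, (∀ x, Commute g (ψ₁ x) ∧ Commute g (ψ₂ x)) → Commute g T) ∧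
        ∀ (x : ZPair p q) (c : ℝ),
          (∀ s t : I, ‖v (s, t) * ((x : C(I, Fib p q)) s ⊗ₖ (1 : Fib p q))
            - ((1 : Fib p q) ⊗ₖ (x : C(I, Fib p q)) t) * v (s, t)‖ ≤ c) →
          ‖T * ψ₁ x - ψ₂ x * T‖ ≤ c + ε * (‖(x : C(I, Fib p q))‖ + 1)

/-- M: without characters every prime dimension drop algebra maps unitally into the central
sequence algebra. -/
def StageMapPin : Prop :=
  ∀ (p q : ℕ), 2 ≤ p → 2 ≤ q → Nat.Coprime p q →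
  ∀ (A : Type) [CStarAlgebra A] [TopologicalSpace.SeparableSpace A] (w : Ultrafilter ℕ),
    (w : Filter ℕ) ≤ cofinite →
    (¬ ∃ χ : centralSeq (w : Filter ℕ) A →⋆ₐ[ℂ] ℂ,
      ∀ f : centralSeq (w : Filter ℕ) A, IsNull (w : Filter ℕ) (f : ℕ →ᵇ A) → χ f = 0) →
    ∃ (F : Type) (_ : CStarAlgebra F) (π : centralSeq (w : Filter ℕ) A →⋆ₐ[ℂ] F),
      Function.Surjective π ∧ (∀ f, π f = 0 ↔ IsNull (w : Filter ℕ) (f : ℕ →ᵇ A)) ∧
      Nonempty (ZPair p q →⋆ₐ[ℂ] F)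

/-- E: one-sided approximate intertwining. -/
def IntertwinePin : Prop :=
  ∀ (A B : Type) [CStarAlgebra A] [CStarAlgebra B] [TopologicalSpace.SeparableSpace A]
    [TopologicalSpace.SeparableSpace B] (ι : A →⋆ₐ[ℂ] B), Function.Injective ι →
    (∀ (K : Finset A) (F : Finset B) (ε : ℝ), 0 < ε → ∃ u ∈ unitary B,
      (∀ a ∈ K, ‖u * ι a - ι a * u‖ ≤ ε) ∧
        ∀ b ∈ F, ∃ a, ‖star u * b * u - ι a‖ ≤ ε) →
    Nonempty (A ≃⋆ₐ[ℂ] B)

end Vale.Agent.P101.Bridge
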