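import Vale.Agent.P101.Bridge.LimitAlg

/-!
P101 bridge, block L: the tensor product with the limit, inside sequences of matrices over A.
-/

namespace Vale.Agent.P101.Bridge

open Filter Vale.Agent.P101.DropN
open scoped Topology ENNReal Matrix Matrix.Norms.L2Operator Kronecker unitInterval ComplexConjugate

attribute [local instance] CStarAlgebra.spectralOrder CStarAlgebra.spectralOrderedRing

variable (A : Type) [CStarAlgebra A]

section Matrices

variable (ι : Type) [Fintype ι] [DecidableEq ι]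

/-- Scalar matrices as matrices over `A`. -/
noncomputable def scalarMat : Matrix ι ι ℂ →⋆ₐ[ℂ] CStarMatrix ι ι A where
  toFun M := CStarMatrix.ofMatrix (M.map (algebraMap ℂ A))
  map_one' := Matrix.map_one _ (map_zero (algebraMap ℂ A)) (map_one (algebraMap ℂ A))
  map_mul' M N := by
    show (M * N).map (algebraMap ℂ A) = M.map (algebraMap ℂ A) * N.map (algebraMap ℂ A)
    exact Matrix.map_mul
  map_zero' := Matrix.map_zero _ (map_zero (algebraMap ℂ A))
  map_add' M N := Matrix.map_add _ (map_add (algebraMap ℂ A)) M N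
  commutes' r := by
    ext i j
    by_cases h : i = j
    · subst h
      simp [Algebra.algebraMap_eq_smul_one, CStarMatrix.smul_apply]
    · simp [h, Algebra.algebraMap_eq_smul_one, CStarMatrix.smul_apply]
  map_star' M := by
    ext i j
    simp only [CStarMatrix.star_apply, CStarMatrix.ofMatrix_apply, Matrix.map_apply,
      Matrix.star_apply]
    exact algebraMap_star_comm _

theorem scalarMat_apply (M : Matrix ι ι ℂ) (i j : ι) :
    scalarMat A ι M i j = algebraMap ℂ A (M i j) := rfl

/-- Diagonal matrices with one entry. -/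
noncomputable def diagMat : A →⋆ₐ[ℂ] CStarMatrix ι ι A where
  toFun a := CStarMatrix.ofMatrix (Matrix.diagonal fun _ => a)
  map_one' := Matrix.diagonal_one
  map_mul' a b := (Matrix.diagonal_mul_diagonal (fun _ => a) (fun _ => b)).symm
  map_zero' := Matrix.diagonal_zero
  map_add' a b := (Matrix.diagonal_add (fun _ => a) (fun _ => b)).symm
  commutes' _ := rfl
  map_star' a := (Matrix.diagonal_conjTranspose (fun _ => a)).symm

theorem diag_mul_scalar_apply (a : A) (M : Matrix ι ι ℂ) (i j : ι) :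
    (diagMat A ι a * scalarMat A ι M) i j = M i j • a := by
  show ((Matrix.diagonal fun _ => a : Matrix ι ι A) * M.map (algebraMap ℂ A) : Matrix ι ι A) i j
    = _
  rw [Matrix.diagonal_mul, Matrix.map_apply, ← Algebra.commutes, ← Algebra.smul_def]

theorem diag_commute_scalar (a : A) (M : Matrix ι ι ℂ) :
    Commute (diagMat A ι a) (scalarMat A ι M) := by
  ext i j
  rw [diag_mul_scalar_apply]
  show _ = (M.map (algebraMap ℂ A) * (Matrix.diagonal fun _ => a : Matrix ι ι A) : Matrix ι ι A) i j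
  rw [Matrix.mul_diagonal, Matrix.map_apply, ← Algebra.smul_def]

variable {A ι}

theorem norm_column_le [Nonempty ι] (l : ι) (x : EuclideanSpace ℂ ι) :
    ‖(Matrix.of fun i j => if j = l then x i else 0 : Matrix ι ι ℂ)‖ ≤ ‖x‖ := by
  rw [← Matrix.l2_opNorm_toEuclideanCLM]
  refine ContinuousLinearMap.opNorm_le_bound _ (norm_nonneg _) fun z => ?_
  have e : Matrix.toEuclideanCLM (𝕜 := ℂ)
      (Matrix.of fun i j => if j = l then x i else 0) z = z l • x := by
    ext i
    simp [Matrix.mulVec, dotProduct, mul_comm]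
  rw [e, norm_smul, mul_comm]
  exact mul_le_mul_of_nonneg_left (PiLp.norm_apply_le z l) (norm_nonneg _)

/-- A functional applied to the entries does not increase the norm beyond its own. -/
theorem norm_slice_le [Nonempty ι] (f : A →L[ℂ] ℂ) (M : CStarMatrix ι ι A) (N : Matrix ι ι ℂ)
    (h : ∀ i j, N i j = f (M i j)) : ‖N‖ ≤ ‖f‖ * ‖M‖ := by
  obtain ⟨l₀⟩ := ‹Nonempty ι›
  rw [← Matrix.l2_opNorm_toEuclideanCLM]
  refine ContinuousLinearMap.opNorm_le_bound _ (by positivity) fun x => ?_
  set y := Matrix.toEuclideanCLM (𝕜 := ℂ) N x with hy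
  have hyk : ∀ k, y k = ∑ l, N k l * x l := fun k => by
    simp [hy, Matrix.mulVec, dotProduct]
  let H : Matrix ι ι ℂ := Matrix.of fun i j => if j = l₀ then x i else 0
  let G : Matrix ι ι ℂ := Matrix.of fun i j => if j = l₀ then y i else 0
  set T := star (scalarMat A ι G) * M * scalarMat A ι H with hT
  have hTe : T l₀ l₀ = ∑ l, ∑ k, (conj (y k) * x l) • M k l := by
    rw [hT, CStarMatrix.mul_apply]
    refine Finset.sum_congr rfl fun l _ => ?_
    rw [CStarMatrix.mul_apply, Finset.sum_mul]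
    refine Finset.sum_congr rfl fun k _ => ?_
    simp [CStarMatrix.star_apply, scalarMat_apply, G, H, Algebra.algebraMap_eq_smul_one,
      smul_smul, mul_comm]
  have hfT : f (T l₀ l₀) = ((‖y‖ ^ 2 : ℝ) : ℂ) := by
    rw [hTe, map_sum, EuclideanSpace.norm_sq_eq]
    push_cast
    simp only [map_sum, map_smul, ← h]
    rw [Finset.sum_comm]
    refine Finset.sum_congr rfl fun k _ => ?_
    rw [← Complex.conj_mul', hyk k, Finset.mul_sum]
    exact Finset.sum_congr rfl fun l _ => by rw [smul_eq_mul]; ring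
  have hG : ‖star (scalarMat A ι G)‖ ≤ ‖y‖ := by
    rw [norm_star]
    exact (NonUnitalStarAlgHom.norm_apply_le _ G).trans (norm_column_le l₀ y)
  have hH : ‖scalarMat A ι H‖ ≤ ‖x‖ :=
    (NonUnitalStarAlgHom.norm_apply_le _ H).trans (norm_column_le l₀ x)
  have key : ‖y‖ ^ 2 ≤ ‖f‖ * (‖y‖ * ‖M‖ * ‖x‖) := by
    calc ‖y‖ ^ 2 = ‖f (T l₀ l₀)‖ := by
          rw [hfT, Complex.norm_real, Real.norm_of_nonneg (sq_nonneg _)]
      _ ≤ ‖f‖ * ‖T‖ := (f.le_opNorm _).trans
          (mul_le_mul_of_nonneg_left CStarMatrix.norm_entry_le_norm (norm_nonneg _))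
      _ ≤ ‖f‖ * (‖y‖ * ‖M‖ * ‖x‖) := by
          refine mul_le_mul_of_nonneg_left ?_ (norm_nonneg _)
          exact (norm_mul_le _ _).trans (mul_le_mul ((norm_mul_le _ _).trans
            (mul_le_mul_of_nonneg_right hG (norm_nonneg _))) hH (norm_nonneg _) (by positivity))
  rcases (norm_nonneg y).eq_or_lt with h0 | h0
  · rw [← h0]; positivity
  · nlinarith

theorem norm_slice_sum_le [Nonempty ι] (f : A →L[ℂ] ℂ) {n : ℕ} (a : Fin n → A)
    (N : Fin n → Matrix ι ι ℂ) :
    ‖∑ i, f (a i) • N i‖ ≤ ‖f‖ * ‖∑ i, diagMat A ι (a i) * scalarMat A ι (N i)‖ := by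
  refine norm_slice_le f _ _ fun k l => ?_
  let ev : CStarMatrix ι ι A →+ A :=
    { toFun := fun M => M k l, map_zero' := rfl, map_add' := fun _ _ => rfl }
  show _ = f (ev (∑ i, diagMat A ι (a i) * scalarMat A ι (N i)))
  rw [map_sum, map_sum, Matrix.sum_apply]
  refine Finset.sum_congr rfl fun i _ => ?_
  show _ = f ((diagMat A ι (a i) * scalarMat A ι (N i)) k l)
  rw [diag_mul_scalar_apply, map_smul, Matrix.smul_apply, smul_eq_mul, smul_eq_mul, mul_comm]

end Matrices

section Generic

variable {A' D Q : Type} [CStarAlgebra A'] [CStarAlgebra D] [CStarAlgebra Q]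
  (f : A' →⋆ₐ[ℂ] Q) (g : D →⋆ₐ[ℂ] Q)

/-- The span of the products of two copies. -/
noncomputable def prodSpan : Submodule ℂ Q :=
  Submodule.span ℂ (Set.range fun z : A' × D => f z.1 * g z.2)

theorem prodSpan_mem (a : A') (d : D) : f a * g d ∈ prodSpan f g :=
  Submodule.subset_span ⟨(a, d), rfl⟩

/-- The span of the products of commuting copies as a star subalgebra. -/
noncomputable def prodAlg (hc : ∀ a d, Commute (f a) (g d)) : StarSubalgebra ℂ Q where
  carrier := prodSpan f g
  mul_mem' := by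
    intro x y hx hy
    refine Submodule.span_induction₂ (p := fun x y _ _ => x * y ∈ prodSpan f g) ?_ ?_ ?_ ?_ ?_
      ?_ ?_ hx hy
    · rintro _ _ ⟨⟨a, d⟩, rfl⟩ ⟨⟨a', d'⟩, rfl⟩
      simp only
      rw [(hc a' d).symm.mul_mul_mul_comm, ← map_mul, ← map_mul]
      exact prodSpan_mem f g _ _
    · intro y _; simp
    · intro x _; simp
    · intro x y z _ _ _ h1 h2; rw [add_mul]; exact add_mem h1 h2
    · intro x y z _ _ _ h1 h2; rw [mul_add]; exact add_mem h1 h2
    · intro r x y _ _ h1; rw [smul_mul_assoc]; exact Submodule.smul_mem _ r h1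
    · intro r x y _ _ h1; rw [mul_smul_comm]; exact Submodule.smul_mem _ r h1
  one_mem' := by
    have := prodSpan_mem f g 1 1
    rwa [map_one, map_one, one_mul] at this
  add_mem' := Submodule.add_mem _
  zero_mem' := Submodule.zero_mem _
  algebraMap_mem' r := by
    have := prodSpan_mem f g (algebraMap ℂ A' r) 1
    rwa [AlgHomClass.commutes, map_one, mul_one] at this
  star_mem' := by
    intro x hx
    induction hx using Submodule.span_induction with
    | mem x hx =>
      obtain ⟨⟨a, d⟩, rfl⟩ := hx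
      simp only
      rw [star_mul, ← map_star, ← map_star, ← (hc _ _).eq]
      exact prodSpan_mem f g _ _
    | zero => simp
    | add x y _ _ h1 h2 => rw [star_add]; exact add_mem h1 h2
    | smul r x _ h1 => rw [star_smul]; exact Submodule.smul_mem _ _ h1

/-- Commuting copies, injective on the algebraic tensor product, span a tensor product. -/
theorem exists_ctensor (hc : ∀ a d, Commute (f a) (g d))
    (hinj : ∀ (n : ℕ) (a : Fin n → A') (d : Fin n → D), LinearIndependent ℂ d →
      ∑ i, f (a i) * g (d i) = 0 → a = 0) :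
    ∃ (B : Type) (_ : CStarAlgebra B) (ιA : A' →⋆ₐ[ℂ] B) (ιD : D →⋆ₐ[ℂ] B),
      IsCTensor ιA ιD := by
  let T : StarSubalgebra ℂ Q := (prodAlg f g hc).topologicalClosure
  have hm : ∀ a d, f a * g d ∈ T := fun a d =>
    (prodAlg f g hc).le_topologicalClosure (prodSpan_mem f g a d)
  let ιA : A' →⋆ₐ[ℂ] T := StarAlgHom.codRestrict f T fun a => by simpa using hm a 1
  let ιD : D →⋆ₐ[ℂ] T := StarAlgHom.codRestrict g T fun d => by simpa using hm 1 d
  let iT : CStarAlgebra T :=
    StarSubalgebra.cstarAlgebra _ (h_closed := (prodAlg f g hc).isClosed_topologicalClosure)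
  refine ⟨T, iT, ιA, ιD,
    { comm := fun a d => Subtype.ext (hc a d).eq, dense := fun x => ?_, injective := ?_ }⟩
  · rw [closure_subtype]
    have hx : (x : Q) ∈ closure (prodSpan f g : Set Q) := x.2
    refine closure_mono ?_ hx
    intro y hy
    have hle : prodSpan f g ≤ Submodule.map T.toSubalgebra.toSubmodule.subtype
        (Submodule.span ℂ (Set.range fun z : A' × D => ιA z.1 * ιD z.2)) := by
      refine Submodule.span_le.2 ?_
      rintro _ ⟨z, rfl⟩
      exact ⟨_, Submodule.subset_span ⟨z, rfl⟩, rfl⟩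
    obtain ⟨w, hw, rfl⟩ := hle hy
    exact ⟨w, hw, rfl⟩
  · intro n a d hd h
    refine hinj n a d hd ?_
    have h' := congrArg Subtype.val h
    rw [AddSubmonoidClass.coe_finsetSum] at h'
    exact h'

end Generic

section Tensor

variable (S : Chain)

/-- The matrix functions over `A` at a stage. -/
def Chain.Y (n : ℕ) : Type :=
  C(I, CStarMatrix (Fin (S.p n) × Fin (S.q n)) (Fin (S.p n) × Fin (S.q n)) A)

noncomputable instance Chain.cstarY (n : ℕ) : CStarAlgebra (S.Y A n) :=
  inferInstanceAs (CStarAlgebra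
    C(I, CStarMatrix (Fin (S.p n) × Fin (S.q n)) (Fin (S.p n) × Fin (S.q n)) A))

/-- A function as an element of a stage. -/
def Chain.toY (n : ℕ)
    (f : C(I, CStarMatrix (Fin (S.p n) × Fin (S.q n)) (Fin (S.p n) × Fin (S.q n)) A)) : S.Y A n :=
  f

/-- An element of a stage as a function. -/
def Chain.ofY (n : ℕ) (f : S.Y A n) :
    C(I, CStarMatrix (Fin (S.p n) × Fin (S.q n)) (Fin (S.p n) × Fin (S.q n)) A) := f

/-- Evaluation at a point. -/
noncomputable def Chain.evY (n : ℕ) (t : I) :
    S.Y A n →⋆ₐ[ℂ] CStarMatrix (Fin (S.p n) × Fin (S.q n)) (Fin (S.p n) × Fin (S.q n)) A where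
  toFun f := S.ofY A n f t
  map_one' := rfl
  map_mul' _ _ := rfl
  map_zero' := rfl
  map_add' _ _ := rfl
  commutes' _ := rfl
  map_star' _ := rfl

theorem Chain.extY {n : ℕ} {f g : S.Y A n} (h : ∀ t, S.evY A n t f = S.evY A n t g) : f = g :=
  ContinuousMap.ext (f := S.ofY A n f) (g := S.ofY A n g) h

instance Chain.nontrivialY [Nontrivial A] (n : ℕ) : Nontrivial (S.Y A n) :=
  ⟨⟨0, 1, fun h => zero_ne_one ((map_zero (S.evY A n 0)).symm.trans
    ((congrArg (S.evY A n 0) h).trans (map_one _)))⟩⟩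

/-- Constants at a stage. -/
noncomputable def Chain.constA (n : ℕ) : A →⋆ₐ[ℂ] S.Y A n where
  toFun a := S.toY A n (ContinuousMap.const I (diagMat A _ a))
  map_one' := S.extY A fun _ => map_one (diagMat A _)
  map_mul' _ _ := S.extY A fun _ => map_mul (diagMat A _) _ _
  map_zero' := S.extY A fun _ => map_zero (diagMat A _)
  map_add' _ _ := S.extY A fun _ => map_add (diagMat A _) _ _
  commutes' r := S.extY A fun _ => AlgHomClass.commutes (diagMat A _) r
  map_star' _ := S.extY A fun _ => map_star (diagMat A _) _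

/-- Scalar functions at a stage. -/
noncomputable def Chain.scalarA (n : ℕ) : S.X n →⋆ₐ[ℂ] S.Y A n where
  toFun g := S.toY A n ((⟨scalarMat A _,
    map_continuous (scalarMat A (Fin (S.p n) × Fin (S.q n)))⟩ : C(_, _)).comp g)
  map_one' := S.extY A fun _ => map_one (scalarMat A _)
  map_mul' _ _ := S.extY A fun _ => map_mul (scalarMat A _) _ _
  map_zero' := S.extY A fun _ => map_zero (scalarMat A _)
  map_add' _ _ := S.extY A fun _ => map_add (scalarMat A _) _ _
  commutes' r := S.extY A fun _ => AlgHomClass.commutes (scalarMat A _) r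
  map_star' _ := S.extY A fun _ => map_star (scalarMat A _) _

variable [Nontrivial A]

/-- The constant families. -/
noncomputable def Chain.famA (n : ℕ) (_ : 0 ≤ n) : A →⋆ₐ[ℂ] S.Y A n := S.constA A n

/-- The constant sequences. -/
noncomputable def Chain.seqA (a : A) : lp (S.Y A) ∞ := tailSeq (X := S.Y A) (S.famA A) a

theorem Chain.seqA_apply (a : A) (m : ℕ) (t : I) :
    S.evY A m t (S.seqA A a m) = diagMat A _ a := by
  rw [Chain.seqA, tailSeq_apply _ _ (Nat.zero_le m)]
  rfl

/-- The scalar sequences. -/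
noncomputable def Chain.seqS : lp S.X ∞ →⋆ₐ[ℂ] lp (S.Y A) ∞ :=
  seqMap (X := S.X) (Y := S.Y A) (S.scalarA A)

theorem Chain.seqS_apply (g : lp S.X ∞) (m : ℕ) (t : I) :
    S.evY A m t (S.seqS A g m) = scalarMat A _ (g m t) := rfl

/-- The copy of `A`. -/
noncomputable def Chain.inA : A →⋆ₐ[ℂ] SeqQuot (S.Y A) :=
  tailHom (X := S.Y A) (S.famA A)

/-- The copy of the limit. -/
noncomputable def Chain.inD : S.limitSub →⋆ₐ[ℂ] SeqQuot (S.Y A) :=
  (quotMap (X := S.X) (Y := S.Y A) (S.scalarA A)).comp S.limitSub.subtype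

theorem Chain.inA_eq (a : A) : S.inA A a = cls (S.seqA A a) := rfl

theorem Chain.inD_eq (d : S.limitSub) (g : lp S.X ∞) (hg : cls g = (d : SeqQuot S.X)) :
    S.inD A d = cls (S.seqS A g) := by
  rw [Chain.inD, Chain.seqS, StarAlgHom.comp_apply, ← quotMap_cls, hg]
  rfl

theorem Chain.seq_commute (a : A) (g : lp S.X ∞) :
    S.seqA A a * S.seqS A g = S.seqS A g * S.seqA A a := by
  refine lp.ext (funext fun m => S.extY A fun t => ?_)
  show S.evY A m t (S.seqA A a m * S.seqS A g m) = S.evY A m t (S.seqS A g m * S.seqA A a m)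
  rw [map_mul, map_mul, S.seqA_apply A, S.seqS_apply A]
  exact diag_commute_scalar A _ a (g m t)

theorem Chain.in_commute (a : A) (d : S.limitSub) : Commute (S.inA A a) (S.inD A d) := by
  obtain ⟨g, hg⟩ := cls_surjective (d : SeqQuot S.X)
  rw [commute_iff_eq, S.inD_eq A d g hg, S.inA_eq A, ← map_mul, ← map_mul, S.seq_commute A]

theorem Chain.sum_apply_point {k : ℕ} (a : Fin k → A) (g : Fin k → lp S.X ∞) (m : ℕ) (t : I) :
    S.evY A m t ((∑ i, S.seqA A (a i) * S.seqS A (g i) : lp (S.Y A) ∞) m)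
      = ∑ i, diagMat A _ (a i) * scalarMat A _ ((g i) m t) := by
  rw [lp.coeFn_sum, Finset.sum_apply, map_sum]
  refine Finset.sum_congr rfl fun i _ => ?_
  show S.evY A m t (S.seqA A (a i) m * S.seqS A (g i) m) = _
  rw [map_mul, S.seqA_apply A, S.seqS_apply A]

theorem Chain.sum_smul_point {k : ℕ} (c : Fin k → ℂ) (g : Fin k → lp S.X ∞) (m : ℕ) (t : I) :
    (∑ i, c i • g i : lp S.X ∞) m t = ∑ i, c i • ((g i) m t) := by
  rw [lp.coeFn_sum, Finset.sum_apply, ContinuousMap.coe_sum, Finset.sum_apply]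
  rfl

theorem Chain.null_slice (f : A →L[ℂ] ℂ) {k : ℕ} (a : Fin k → A) (g : Fin k → lp S.X ∞)
    (h : cls (∑ i, S.seqA A (a i) * S.seqS A (g i)) = 0) :
    cls (∑ i, f (a i) • g i) = 0 := by
  set F : lp (S.Y A) ∞ := ∑ i, S.seqA A (a i) * S.seqS A (g i) with hF
  refine cls_eq_zero.2 (squeeze_zero (fun m => norm_nonneg _) (fun m => ?_)
    (by simpa using (cls_eq_zero.1 h).const_mul ‖f‖))
  refine (ContinuousMap.norm_le _ (mul_nonneg (norm_nonneg f) (norm_nonneg (F m)))).2 fun t => ?_
  rw [S.sum_smul_point]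
  refine (norm_slice_sum_le f a fun i => g i m t).trans ?_
  rw [← S.sum_apply_point A, ← hF]
  exact mul_le_mul_of_nonneg_left (NonUnitalStarAlgHom.norm_apply_le (S.evY A m t) (F m))
    (norm_nonneg f)

theorem Chain.injective_span (n : ℕ) (a : Fin n → A) (d : Fin n → S.limitSub)
    (hd : LinearIndependent ℂ d) (h : ∑ i, S.inA A (a i) * S.inD A (d i) = 0) : a = 0 := by
  funext i₀
  by_contra hne
  obtain ⟨f, hf⟩ := SeparatingDual.exists_ne_zero (R := ℂ) hne
  choose g hg using fun i => cls_surjective (d i : SeqQuot S.X)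
  have hF : cls (∑ i, S.seqA A (a i) * S.seqS A (g i)) = 0 := by
    rw [cls_sum_mul, ← h]
    exact Finset.sum_congr rfl fun i _ => by rw [← S.inA_eq A, ← S.inD_eq A (d i) (g i) (hg i)]
  have hG := S.null_slice A f a g hF
  rw [cls_sum_smul] at hG
  have hsum : ∑ i, f (a i) • d i = 0 := by
    refine Subtype.ext ?_
    rw [AddSubmonoidClass.coe_finsetSum, ZeroMemClass.coe_zero, ← hG]
    exact Finset.sum_congr rfl fun i _ => by rw [hg i]; rfl
  exact hf (Fintype.linearIndependent_iff.1 hd _ hsum i₀)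

theorem Chain.exists_tensor : ∃ (B : Type) (_ : CStarAlgebra B) (ιA : A →⋆ₐ[ℂ] B)
    (ιD : S.limitSub →⋆ₐ[ℂ] B), IsCTensor ιA ιD :=
  exists_ctensor (S.inA A) (S.inD A) (S.in_commute A) (S.injective_span A)

end Tensor

/-- L. -/
theorem limitPin : LimitPin := fun S => by
  refine ⟨S.limitSub, inferInstance, S.toLimit, S.isLimit, fun A _ => ?_⟩
  rcases subsingleton_or_nontrivial A with hA | hA
  · let ιD : S.limitSub →⋆ₐ[ℂ] A :=
      { toFun := fun _ => 0
        map_one' := Subsingleton.elim _ _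
        map_mul' := fun _ _ => Subsingleton.elim _ _
        map_zero' := rfl
        map_add' := fun _ _ => Subsingleton.elim _ _
        commutes' := fun _ => Subsingleton.elim _ _
        map_star' := fun _ => Subsingleton.elim _ _ }
    exact ⟨A, inferInstance, StarAlgHom.id ℂ A, ιD,
      { comm := fun a d => Subsingleton.elim _ _
        dense := fun x => subset_closure (by rw [Subsingleton.elim x 0]; exact zero_mem _)
        injective := fun n a d _ _ => funext fun i => Subsingleton.elim _ _ }⟩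
  · exact S.exists_tensor A

end Vale.Agent.P101.Bridge
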