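import Vale.Agent.P101.Bridge.Square

/-!
P101/P095 bridge, S as a homomorphism: two commuting unital maps of Z(p,q) extend to a star
homomorphism of the algebra on the square. It is natural in the target and its values commute with
everything commuting with both ranges.
-/

namespace Vale.Agent.P101.Bridge.Square

open Filter Vale.Agent.P101.DropN
open scoped Topology Matrix Matrix.Norms.L2Operator Kronecker unitInterval

variable {p q : ℕ}

/-- The functions on the square with the boundary conditions, as an algebra. -/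
noncomputable def squareAlg (p q : ℕ) : StarSubalgebra ℂ C(I × I, Fib2 p q) where
  carrier := squareSet p q
  mul_mem' {f g} hf hg r :=
    ⟨fun b => ⟨((hf r).1 b).1.mul_left ((hg r).1 b).1, ((hf r).1 b).2.mul_left ((hg r).1 b).2⟩,
      fun b => ⟨((hf r).2 b).1.mul_left ((hg r).2 b).1, ((hf r).2 b).2.mul_left ((hg r).2 b).2⟩⟩
  add_mem' {f g} hf hg r :=
    ⟨fun b => ⟨((hf r).1 b).1.add_left ((hg r).1 b).1, ((hf r).1 b).2.add_left ((hg r).1 b).2⟩,
      fun b => ⟨((hf r).2 b).1.add_left ((hg r).2 b).1, ((hf r).2 b).2.add_left ((hg r).2 b).2⟩⟩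
  algebraMap_mem' c r :=
    ⟨fun b => ⟨Algebra.commutes c _, Algebra.commutes c _⟩,
      fun b => ⟨Algebra.commutes c _, Algebra.commutes c _⟩⟩
  star_mem' {f} hf r := by
    refine ⟨fun b => ⟨?_, ?_⟩, fun b => ⟨?_, ?_⟩⟩
    · have h := ((hf r).1 (star b)).1.star_star
      simpa [Matrix.star_eq_conjTranspose, Matrix.conjTranspose_kronecker] using h
    · have h := ((hf r).1 (star b)).2.star_star
      simpa [Matrix.star_eq_conjTranspose, Matrix.conjTranspose_kronecker] using h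
    · have h := ((hf r).2 (star b)).1.star_star
      simpa [Matrix.star_eq_conjTranspose, Matrix.conjTranspose_kronecker] using h
    · have h := ((hf r).2 (star b)).2.star_star
      simpa [Matrix.star_eq_conjTranspose, Matrix.conjTranspose_kronecker] using h

theorem mem_squareAlg {v : C(I × I, Fib2 p q)} : v ∈ squareAlg p q ↔ v ∈ squareSet p q := Iff.rfl

lemma tens_mem (f g : ZPair p q) : tens f g ∈ squareAlg p q := by
  have hf := atNode_of_mem 1 0 one_ne_zero f
  have hf' := atNode_of_mem 1 (Fin.last 1) one_ne_zero f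
  have hg := atNode_of_mem 1 0 one_ne_zero g
  have hg' := atNode_of_mem 1 (Fin.last 1) one_ne_zero g
  have e0 : node 1 (0 : Fin 2) = 0 := Subtype.ext (by simp [node])
  have e1 : node 1 (Fin.last 1) = 1 := Subtype.ext (by simp [node])
  have kl : ∀ {X Y Z : Fib p q}, Commute X Z → Commute (X ⊗ₖ Y) (Z ⊗ₖ (1 : Fib p q)) :=
    fun {X Y Z} h => by
      show _ * _ = _ * _
      rw [← Matrix.mul_kronecker_mul, ← Matrix.mul_kronecker_mul, h.eq, mul_one, one_mul]
  have kr : ∀ {X Y Z : Fib p q}, Commute Y Z → Commute (X ⊗ₖ Y) ((1 : Fib p q) ⊗ₖ Z) :=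
    fun {X Y Z} h => by
      show _ * _ = _ * _
      rw [← Matrix.mul_kronecker_mul, ← Matrix.mul_kronecker_mul, h.eq, mul_one, one_mul]
  intro r
  refine ⟨fun b => ⟨kl ?_, kr ?_⟩, fun a => ⟨kl ?_, kr ?_⟩⟩
  · exact e0 ▸ hf.1 rfl b
  · exact e0 ▸ hg.1 rfl b
  · exact e1 ▸ hf'.2 rfl a
  · exact e1 ▸ hg'.2 rfl a

variable {G : Type} [CStarAlgebra G] (ψ₁ ψ₂ : ZPair p q →⋆ₐ[ℂ] G)

/-- The closure of the finite sums with their functions. -/
noncomputable def graphCl : Submodule ℂ (G × C(I × I, Fib2 p q)) :=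
  (graph ψ₁ ψ₂).topologicalClosure

variable {ψ₁ ψ₂}

lemma graphCl_norm_le (hc : ∀ x y, Commute (ψ₁ x) (ψ₂ y)) (hp : 0 < p) (hq : 0 < q)
    {x : G × C(I × I, Fib2 p q)} (hx : x ∈ graphCl ψ₁ ψ₂) : ‖x.1‖ ≤ ‖x.2‖ := by
  refine closure_minimal (fun y hy => ?_) (isClosed_le continuous_fst.norm continuous_snd.norm) hx
  exact graph_norm_le hc hp hq hy (norm_nonneg _) y.2.norm_coe_le_norm

lemma graphCl_mul (hc : ∀ x y, Commute (ψ₁ x) (ψ₂ y)) {x y : G × C(I × I, Fib2 p q)}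
    (hx : x ∈ graphCl ψ₁ ψ₂) (hy : y ∈ graphCl ψ₁ ψ₂) : x * y ∈ graphCl ψ₁ ψ₂ :=
  map_mem_closure₂ continuous_mul hx hy fun _ ha _ hb => graph_mul hc ha hb

lemma graphCl_star (hc : ∀ x y, Commute (ψ₁ x) (ψ₂ y)) {x : G × C(I × I, Fib2 p q)}
    (hx : x ∈ graphCl ψ₁ ψ₂) : star x ∈ graphCl ψ₁ ψ₂ :=
  map_mem_closure continuous_star hx fun _ ha => graph_star hc ha

lemma exists_graphCl (hc : ∀ x y, Commute (ψ₁ x) (ψ₂ y)) (hp : 0 < p) (hq : 0 < q)
    {F : C(I × I, Fib2 p q)} (hF : F ∈ squareSet p q) : ∃ T, (T, F) ∈ graphCl ψ₁ ψ₂ := by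
  choose w hw hwz using fun n : ℕ => exists_graph_mesh hc hp hq n.succ_ne_zero hF
  have hlim : Tendsto w atTop (𝓝 F) := by
    rw [Metric.tendsto_atTop]
    intro ε hε
    obtain ⟨δ, hδ, hFδ⟩ := exists_mesh_close F (half_pos hε)
    obtain ⟨N, hN⟩ := exists_nat_gt (1 / δ)
    refine ⟨N, fun n hn => lt_of_le_of_lt ?_ (half_lt_self hε)⟩
    have hn1 : 1 / ((n + 1 : ℕ) : ℝ) ≤ δ := by
      rw [div_le_iff₀ (by positivity)]
      rw [div_lt_iff₀ hδ] at hN
      push_cast
      nlinarith [show (N : ℝ) ≤ n from Nat.cast_le.2 hn]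
    rw [dist_eq_norm, ContinuousMap.norm_le _ (half_pos hε).le]
    intro z
    rw [ContinuousMap.sub_apply, hwz n z]
    refine norm_sum_smul_sub_le _ (fun ab => mul_nonneg (hat_nonneg _ _ _) (hat_nonneg _ _ _))
      ?_ _ _ (half_pos hε).le fun ab hab => ?_
    · simp only [Fintype.sum_prod_type, ← Finset.mul_sum, hat_sum, mul_one]
    · rw [norm_sub_rev]
      refine hFδ z _ ?_
      rw [Prod.dist_eq]
      obtain ⟨ha, hb⟩ := mul_ne_zero_iff.1 hab
      refine max_lt ?_ ?_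
      · by_contra hlt
        exact ha (hat_eq_zero n.succ_ne_zero (le_trans hn1 (not_lt.1 hlt)))
      · by_contra hlt
        exact hb (hat_eq_zero n.succ_ne_zero (le_trans hn1 (not_lt.1 hlt)))
  let T : ℕ → G := fun n => mesh ψ₁ ψ₂ hp hq n.succ_ne_zero F
  have hcau : CauchySeq T := by
    rw [Metric.cauchySeq_iff]
    intro ε hε
    obtain ⟨N, hN⟩ := Metric.cauchySeq_iff.1 hlim.cauchySeq ε hε
    refine ⟨N, fun m hm n hn => lt_of_le_of_lt ?_ (hN m hm n hn)⟩
    rw [dist_eq_norm, dist_eq_norm]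
    exact graphCl_norm_le hc hp hq
      (Submodule.le_topologicalClosure _ (sub_mem (hw m) (hw n)))
  obtain ⟨T', hT⟩ := cauchySeq_tendsto_of_complete hcau
  exact ⟨T', mem_closure_of_tendsto (hT.prodMk_nhds hlim) (Eventually.of_forall hw)⟩

lemma graphCl_unique (hc : ∀ x y, Commute (ψ₁ x) (ψ₂ y)) (hp : 0 < p) (hq : 0 < q) {T T' : G}
    {F : C(I × I, Fib2 p q)} (h : (T, F) ∈ graphCl ψ₁ ψ₂) (h' : (T', F) ∈ graphCl ψ₁ ψ₂) :
    T = T' := by
  have := graphCl_norm_le hc hp hq (sub_mem h h')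
  simpa [sub_eq_zero] using this

/-- Two commuting unital maps of Z(p,q) extend to the algebra on the square. -/
theorem exists_squareHom (hp : 0 < p) (hq : 0 < q) (hc : ∀ x y, Commute (ψ₁ x) (ψ₂ y)) :
    ∃ Θ : squareAlg p q →⋆ₐ[ℂ] G,
      (∀ x, Θ ⟨tens x 1, tens_mem x 1⟩ = ψ₁ x) ∧ (∀ x, Θ ⟨tens 1 x, tens_mem 1 x⟩ = ψ₂ x) ∧
      (∀ g, (∀ x, Commute g (ψ₁ x) ∧ Commute g (ψ₂ x)) → ∀ v, Commute g (Θ v)) ∧
      (∀ τ : G →⋆ₐ[ℂ] G, Continuous τ → (∀ x, τ (ψ₁ x) = ψ₁ x ∧ τ (ψ₂ x) = ψ₂ x) →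
        ∀ v, τ (Θ v) = Θ v) ∧
      ∀ v, ‖Θ v‖ ≤ ‖(v : C(I × I, Fib2 p q))‖ := by
  choose Θ hΘ using fun v : squareAlg p q => exists_graphCl hc hp hq v.2
  have hu : ∀ {v : squareAlg p q} {T : G}, (T, (v : C(I × I, Fib2 p q))) ∈ graphCl ψ₁ ψ₂ →
      Θ v = T := fun {v T} h => graphCl_unique hc hp hq (hΘ v) h
  have h1 : (1 : G × C(I × I, Fib2 p q)) ∈ graphCl ψ₁ ψ₂ :=
    Submodule.le_topologicalClosure _ one_mem_graph
  let Φ : squareAlg p q →⋆ₐ[ℂ] G :=
    { toFun := Θ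
      map_one' := hu h1
      map_mul' := fun a b => hu (graphCl_mul hc (hΘ a) (hΘ b))
      map_zero' := hu (zero_mem _)
      map_add' := fun a b => hu (add_mem (hΘ a) (hΘ b))
      commutes' := fun r => hu (by
        have h := Submodule.smul_mem (graphCl ψ₁ ψ₂) r h1
        simp only [Algebra.algebraMap_eq_smul_one]
        exact h)
      map_star' := fun a => hu (graphCl_star hc (hΘ a)) }
  refine ⟨Φ, fun x => hu ?_, fun x => hu ?_, fun g hg v => ?_, fun τ hτ hfix v => ?_,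
    fun v => graphCl_norm_le hc hp hq (hΘ v)⟩
  · simpa [graphCl] using Submodule.le_topologicalClosure _ (mem_graph ψ₁ ψ₂ x 1)
  · simpa [graphCl] using Submodule.le_topologicalClosure _ (mem_graph ψ₁ ψ₂ 1 x)
  · refine closure_minimal (s := (graph ψ₁ ψ₂ : Set (G × C(I × I, Fib2 p q))))
      (t := {y | Commute g y.1}) (fun y hy => ?_) ?_ (hΘ v)
    · induction hy using Submodule.span_induction with
      | mem y hy => obtain ⟨⟨a, b⟩, rfl⟩ := hy; exact (hg a).1.mul_right (hg b).2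
      | zero => exact Commute.zero_right g
      | add a b _ _ ha hb => exact Commute.add_right ha hb
      | smul c a _ ha => exact Commute.smul_right ha c
    · exact isClosed_eq (continuous_const.mul continuous_fst) (continuous_fst.mul continuous_const)
  · refine closure_minimal (s := (graph ψ₁ ψ₂ : Set (G × C(I × I, Fib2 p q))))
      (t := {y | τ y.1 = y.1}) (fun y hy => ?_) (isClosed_eq (hτ.comp continuous_fst) continuous_fst)
      (hΘ v)
    induction hy using Submodule.span_induction with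
    | mem y hy =>
      obtain ⟨⟨a, b⟩, rfl⟩ := hy
      show τ (ψ₁ a * ψ₂ b) = ψ₁ a * ψ₂ b
      rw [map_mul, (hfix a).1, (hfix b).2]
    | zero => exact map_zero τ
    | add a b _ _ ha hb =>
      show τ (a.1 + b.1) = a.1 + b.1
      rw [map_add, show τ a.1 = a.1 from ha, show τ b.1 = b.1 from hb]
    | smul c a _ ha =>
      show τ (c • a.1) = c • a.1
      rw [map_smul, show τ a.1 = a.1 from ha]

end Vale.Agent.P101.Bridge.Square
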