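import Vale.Agent.P101.Bridge.Pins
import Vale.Agent.P101.Quotient
import Vale.Agent.P101.Ideal
import Vale.Agent.P101.Full
import Vale.Agent.P101.Drop
import Vale.Agent.P101.Commuting
import Vale.Agent.P101.DropN.Lift

/-!
P101 bridge, block M: every prime dimension drop algebra Z(p,q) maps unitally into some
Z(n+1,n+2) (write a p + 1 = b q), hence, without characters, into the central sequence algebra.
-/

namespace Vale.Agent.P101.Bridge.StageMap

open Filter Vale.Agent.P101.DropN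
open scoped Topology BoundedContinuousFunction Matrix Kronecker unitInterval

/-- The regrouping of the indices. -/
def regroup (a b p q : ℕ) :
    (Fin a × Fin b) × (Fin p × Fin q) ≃ Fin (a * p) × Fin (b * q) :=
  (Equiv.prodProdProdComm _ _ _ _).trans (finProdFinEquiv.prodCongr finProdFinEquiv)

/-- The diagonal copies on one fibre. -/
noncomputable def copies (a b p q : ℕ) : Fib p q →⋆ₐ[ℂ] Fib (a * p) (b * q) where
  toFun X := Matrix.reindex (regroup a b p q) (regroup a b p q)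
    ((1 : Matrix (Fin a × Fin b) (Fin a × Fin b) ℂ) ⊗ₖ X)
  map_one' := by simp
  map_zero' := by simp
  map_mul' X Y := by
    simp only [Matrix.reindex_apply, Matrix.submatrix_mul_equiv, ← Matrix.mul_kronecker_mul,
      one_mul]
  map_add' X Y := by ext i j; simp [mul_add]
  commutes' c := by
    simp only [Algebra.algebraMap_eq_smul_one, Matrix.kronecker_smul, Matrix.one_kronecker_one,
      Matrix.reindex_apply, Matrix.submatrix_smul, Pi.smul_apply, Matrix.submatrix_one_equiv]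
  map_star' X := by
    simp [Matrix.star_eq_conjTranspose, Matrix.conjTranspose_kronecker, Matrix.conjTranspose_submatrix]

theorem copies_apply (a b p q : ℕ) (X : Fib p q) (i i' : Fin (a * p)) (j j' : Fin (b * q)) :
    copies a b p q X (i, j) (i', j')
      = (1 : Matrix (Fin a × Fin b) (Fin a × Fin b) ℂ)
          ((finProdFinEquiv.symm i).1, (finProdFinEquiv.symm j).1)
          ((finProdFinEquiv.symm i').1, (finProdFinEquiv.symm j').1) *
        X ((finProdFinEquiv.symm i).2, (finProdFinEquiv.symm j).2)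
          ((finProdFinEquiv.symm i').2, (finProdFinEquiv.symm j').2) := rfl

theorem copies_left (a b p q : ℕ) (A : Matrix (Fin p) (Fin p) ℂ) :
    copies a b p q (A ⊗ₖ (1 : Matrix (Fin q) (Fin q) ℂ))
      = Matrix.reindex finProdFinEquiv finProdFinEquiv ((1 : Matrix (Fin a) (Fin a) ℂ) ⊗ₖ A)
        ⊗ₖ (1 : Matrix (Fin (b * q)) (Fin (b * q)) ℂ) := by
  ext ⟨i, j⟩ ⟨i', j'⟩
  obtain ⟨⟨i1, i2⟩, rfl⟩ := finProdFinEquiv.surjective i
  obtain ⟨⟨j1, j2⟩, rfl⟩ := finProdFinEquiv.surjective j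
  obtain ⟨⟨i1', i2'⟩, rfl⟩ := finProdFinEquiv.surjective i'
  obtain ⟨⟨j1', j2'⟩, rfl⟩ := finProdFinEquiv.surjective j'
  simp only [copies_apply, Matrix.reindex_apply, Matrix.submatrix_apply,
    Matrix.kroneckerMap_apply, Equiv.symm_apply_apply]
  by_cases h1 : i1 = i1' <;> by_cases h2 : j1 = j1' <;>
    simp [Matrix.one_apply, h1, h2, Prod.ext_iff]

theorem copies_right (a b p q : ℕ) (B : Matrix (Fin q) (Fin q) ℂ) :
    copies a b p q ((1 : Matrix (Fin p) (Fin p) ℂ) ⊗ₖ B)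
      = (1 : Matrix (Fin (a * p)) (Fin (a * p)) ℂ) ⊗ₖ
        Matrix.reindex finProdFinEquiv finProdFinEquiv ((1 : Matrix (Fin b) (Fin b) ℂ) ⊗ₖ B) := by
  ext ⟨i, j⟩ ⟨i', j'⟩
  obtain ⟨⟨i1, i2⟩, rfl⟩ := finProdFinEquiv.surjective i
  obtain ⟨⟨j1, j2⟩, rfl⟩ := finProdFinEquiv.surjective j
  obtain ⟨⟨i1', i2'⟩, rfl⟩ := finProdFinEquiv.surjective i'
  obtain ⟨⟨j1', j2'⟩, rfl⟩ := finProdFinEquiv.surjective j'
  simp only [copies_apply, Matrix.reindex_apply, Matrix.submatrix_apply,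
    Matrix.kroneckerMap_apply, Equiv.symm_apply_apply]
  by_cases h1 : i1 = i1' <;> by_cases h2 : j1 = j1' <;>
    simp [Matrix.one_apply, h1, h2, Prod.ext_iff]

/-- Z(p,q) maps unitally into Z(ap,bq). -/
noncomputable def scale (a b p q : ℕ) : ZPair p q →⋆ₐ[ℂ] ZPair (a * p) (b * q) :=
  ((ContinuousMap.compStarAlgHom I (copies a b p q)
      (copies a b p q).toAlgHom.toLinearMap.continuous_of_finiteDimensional).comp
    (ZPair p q).subtype).codRestrict _ fun x => by
      obtain ⟨⟨A, hA⟩, ⟨B, hB⟩⟩ := x.2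
      exact ⟨⟨_, (congrArg (copies a b p q) hA).trans (copies_left a b p q A)⟩,
        ⟨_, (congrArg (copies a b p q) hB).trans (copies_right a b p q B)⟩⟩

theorem exists_mul_succ {p q : ℕ} (hq : 2 ≤ q) (h : Nat.Coprime p q) :
    ∃ a b : ℕ, 0 < a * p ∧ a * p + 1 = b * q := by
  obtain ⟨m, -, hm⟩ := Nat.exists_mul_mod_eq_one_of_coprime h (by omega : 1 < q)
  refine ⟨m * (q - 1), (p * m * (q - 1) + 1) / q, ?_, ?_⟩
  · have : 0 < m * p := by
      rcases Nat.eq_zero_or_pos (m * p) with h0 | h0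
      · rw [mul_comm, h0, Nat.zero_mod] at hm; omega
      · exact h0
    calc 0 < (q - 1) * (m * p) := Nat.mul_pos (by omega) this
      _ = m * (q - 1) * p := by ring
  · have hdiv : q ∣ p * m * (q - 1) + 1 := by
      obtain ⟨c, hc⟩ : ∃ c, p * m = q * c + 1 := ⟨p * m / q, by
        have := Nat.div_add_mod (p * m) q; omega⟩
      refine ⟨c * (q - 1) + 1, ?_⟩
      obtain ⟨r, rfl⟩ : ∃ r, q = r + 1 := ⟨q - 1, by omega⟩
      rw [hc, Nat.add_sub_cancel]
      ring
    rw [Nat.div_mul_cancel hdiv]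
    ring

/-- Block M. -/
theorem stageMapPin : StageMapPin := by
  intro p q _ hq hpq A _ _ w hw hno
  obtain ⟨F, instF, π, hπs, hπ, hcop⟩ := quotientPin A w hw
  refine ⟨F, instF, π, hπs, hπ, ?_⟩
  have hE : IsEmpty (F →⋆ₐ[ℂ] ℂ) := ⟨fun χ => hno ⟨χ.comp π, fun f hf => by
    rw [StarAlgHom.comp_apply, (hπ f).2 hf, map_zero]⟩⟩
  obtain ⟨k, N, ⟨W⟩⟩ := noCharPin F hE
  obtain ⟨N', ⟨W'⟩⟩ := fullPin F hcop k N W
  obtain ⟨y, s, hrel⟩ := dropPin F (witnessCopies_of_hasCopies hcop) N' W'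
  obtain ⟨a, b, hpos, hab⟩ := exists_mul_succ hq hpq
  obtain ⟨n, hn⟩ : ∃ n, n + 1 = a * p := ⟨a * p - 1, by omega⟩
  obtain ⟨x, t, hxt⟩ := exists_dropN_of_hasCopies hcop hrel (n + 1)
  obtain ⟨ψ⟩ := Hom.exists_starAlgHom hxt
  have sc := scale a b p q
  rw [show a * p = n + 1 from hn.symm, show b * q = n + 2 by omega] at sc
  exact ⟨ψ.comp sc⟩

end Vale.Agent.P101.Bridge.StageMap
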