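import Vale.Agent.P101.Bridge.Pins

/-!
P101 bridge, block J: in Z(P,Q) finite families of matrix units with continuous weights average
every element to its normalised fibre trace.
-/

namespace Vale.Agent.P101.Bridge.JiangSu

open Vale.Agent.P101.DropN
open scoped Topology Matrix Matrix.Norms.L2Operator Kronecker unitInterval ComplexOrder

variable {P Q : ℕ}

/-- The normalised trace. -/
noncomputable def ntr (X : Fib P Q) : ℂ := (↑(P * Q) : ℂ)⁻¹ * X.trace

theorem continuous_ntr : Continuous (ntr (P := P) (Q := Q)) :=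
  continuous_const.mul (Matrix.traceLinearMap (Fin P × Fin Q) ℂ ℂ).continuous_of_finiteDimensional

theorem ntr_sub (X Y : Fib P Q) : ntr (X - Y) = ntr X - ntr Y := by
  simp [ntr, Matrix.trace_sub, mul_sub]

theorem ntr_mul_comm (X Y : Fib P Q) : ntr (X * Y) = ntr (Y * X) := by
  simp [ntr, Matrix.trace_mul_comm X Y]

theorem ntr_one (hP : 0 < P) (hQ : 0 < Q) : ntr (1 : Fib P Q) = 1 := by
  have : ((↑(P * Q) : ℂ)) ≠ 0 := Nat.cast_ne_zero.2 (Nat.mul_pos hP hQ).ne'
  simp [ntr, Matrix.trace_one, Fintype.card_prod] at this ⊢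
  field_simp

theorem norm_apply_le (X : Fib P Q) (i j : Fin P × Fin Q) : ‖X i j‖ ≤ ‖X‖ := by
  have h := X.l2_opNorm_mulVec (EuclideanSpace.single j 1)
  rw [PiLp.norm_single, norm_one, mul_one] at h
  refine le_trans ?_ h
  refine le_trans (le_of_eq ?_) (PiLp.norm_apply_le _ i)
  simp

theorem norm_ntr_le (X : Fib P Q) : ‖ntr X‖ ≤ ‖X‖ := by
  rw [ntr, norm_mul, norm_inv, Complex.norm_natCast]
  rcases Nat.eq_zero_or_pos (P * Q) with h | h
  · simp [h]
  · rw [inv_mul_le_iff₀ (by exact_mod_cast h)]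
    refine (norm_sum_le _ _).trans ((Finset.sum_le_sum fun i _ => norm_apply_le X i i).trans ?_)
    simp [Fintype.card_prod]

/-- The trace of a square. -/
theorem ntr_star_mul_self (X : Fib P Q) :
    ntr (star X * X) = ((((P * Q : ℕ) : ℝ)⁻¹ * ∑ i, ∑ j, ‖X j i‖ ^ 2 : ℝ) : ℂ) := by
  push_cast
  simp only [ntr, Matrix.trace, Matrix.diag, Matrix.mul_apply, Matrix.star_apply, Nat.cast_mul]
  congr 1
  refine Finset.sum_congr rfl fun i _ => Finset.sum_congr rfl fun j _ => ?_
  exact Complex.conj_mul' _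

theorem ntr_star_mul_self_nonneg (X : Fib P Q) :
    0 ≤ (ntr (star X * X)).re ∧ (ntr (star X * X)).im = 0 := by
  rw [ntr_star_mul_self, Complex.ofReal_re, Complex.ofReal_im]
  exact ⟨by positivity, rfl⟩

theorem ntr_star_mul_self_pos (hP : 0 < P) (hQ : 0 < Q) {X : Fib P Q} (hX : X ≠ 0) :
    0 < (ntr (star X * X)).re := by
  obtain ⟨a, b, hab⟩ : ∃ a b, X a b ≠ 0 := by
    by_contra h
    push Not at h
    exact hX (Matrix.ext h)
  rw [ntr_star_mul_self, Complex.ofReal_re]
  have hN : (0 : ℝ) < ((P * Q : ℕ) : ℝ) := Nat.cast_pos.2 (Nat.mul_pos hP hQ)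
  refine mul_pos (inv_pos.2 hN) (Finset.sum_pos' (fun i _ => by positivity)
    ⟨b, Finset.mem_univ _, Finset.sum_pos' (fun j _ => by positivity) ⟨a, Finset.mem_univ _, ?_⟩⟩)
  exact pow_pos (norm_pos_iff.2 hab) 2

/-! ### Sums over matrix units -/

theorem sum_single_conj {n : Type} [Fintype n] [DecidableEq n] (A : Matrix n n ℂ) :
    ∑ ij : n × n, star (Matrix.single ij.1 ij.2 (1 : ℂ)) * A * Matrix.single ij.1 ij.2 1
      = A.trace • (1 : Matrix n n ℂ) := by
  have e : ∀ i j : n, star (Matrix.single i j (1 : ℂ)) * A * Matrix.single i j 1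
      = Matrix.single j j (A i i) := by
    intro i j
    simp [Matrix.star_eq_conjTranspose, Matrix.conjTranspose_single, Matrix.single_mul_mul_single]
  simp only [e, Fintype.sum_prod_type]
  rw [Finset.sum_comm]
  ext a b
  rcases eq_or_ne a b with rfl | h
  · simp [Matrix.sum_apply, Matrix.single_apply, Matrix.trace]
  · simp only [Matrix.sum_apply, Matrix.single_apply, Matrix.smul_apply, Matrix.one_apply_ne h,
      smul_zero]
    exact Finset.sum_eq_zero fun x _ => Finset.sum_eq_zero fun y _ =>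
      if_neg fun hx => h (hx.1.symm.trans hx.2)

theorem sum_single_mul_star {n : Type} [Fintype n] [DecidableEq n] :
    ∑ ij : n × n, Matrix.single ij.1 ij.2 (1 : ℂ) * star (Matrix.single ij.1 ij.2 1)
      = (Fintype.card n : ℂ) • (1 : Matrix n n ℂ) := by
  have h := sum_single_conj (1 : Matrix n n ℂ)
  simp only [mul_one, Matrix.trace_one] at h
  rw [← h, ← (Equiv.prodComm n n).sum_comp]
  refine Finset.sum_congr rfl fun ij _ => ?_
  simp [Matrix.star_eq_conjTranspose, Matrix.conjTranspose_single]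

/-! ### The averaging families -/

/-- `L` as an element on the left end. -/
noncomputable def endL (A : Matrix (Fin P) (Fin P) ℂ) : Fib P Q :=
  A ⊗ₖ (1 : Matrix (Fin Q) (Fin Q) ℂ)

/-- `B` as an element on the right end. -/
noncomputable def endR (B : Matrix (Fin Q) (Fin Q) ℂ) : Fib P Q :=
  (1 : Matrix (Fin P) (Fin P) ℂ) ⊗ₖ B

/-- The indices of the averaging family. -/
abbrev Idx (P Q : ℕ) :=
  (Fin P × Fin P) ⊕ (Fin Q × Fin Q) ⊕ ((Fin P × Fin Q) × (Fin P × Fin Q))

/-- The constant matrix units of the averaging family. -/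
noncomputable def unitMat : Idx P Q → Fib P Q
  | .inl ij => ((Real.sqrt P)⁻¹ : ℂ) • endL (Matrix.single ij.1 ij.2 1)
  | .inr (.inl ij) => ((Real.sqrt Q)⁻¹ : ℂ) • endR (Matrix.single ij.1 ij.2 1)
  | .inr (.inr ij) => ((Real.sqrt (P * Q : ℕ))⁻¹ : ℂ) • Matrix.single ij.1 ij.2 1

/-- Choose the weight of a family. -/
def pick {α : Type} (w0 w1 w2 : α) : Idx P Q → α
  | .inl _ => w0
  | .inr (.inl _) => w1
  | .inr (.inr _) => w2

/-- The average over the left end. -/
noncomputable def avg0 (X : Fib P Q) : Fib P Q :=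
  ∑ ij : Fin P × Fin P, star (unitMat (Q := Q) (.inl ij)) * X * unitMat (.inl ij)

/-- The average over the right end. -/
noncomputable def avg1 (X : Fib P Q) : Fib P Q :=
  ∑ ij : Fin Q × Fin Q, star (unitMat (P := P) (.inr (.inl ij))) * X * unitMat (.inr (.inl ij))

theorem smul_star_mul_mul_smul {n : Type} [Fintype n] [DecidableEq n] (c : ℝ)
    (U V W : Matrix n n ℂ) :
    star (((c : ℂ)⁻¹) • U) * V * (((c : ℂ)⁻¹) • W) = (((c * c : ℝ) : ℂ)⁻¹) • (star U * V * W) := by
  rw [star_smul, smul_mul_assoc, smul_mul_assoc, mul_smul_comm, smul_smul]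
  congr 1
  simp [Complex.conj_ofReal]

theorem star_endL (A : Matrix (Fin P) (Fin P) ℂ) :
    star (endL (Q := Q) A) = endL (star A) := by
  simp [endL, Matrix.star_eq_conjTranspose, Matrix.conjTranspose_kronecker]

theorem star_endR (B : Matrix (Fin Q) (Fin Q) ℂ) :
    star (endR (P := P) B) = endR (star B) := by
  simp [endR, Matrix.star_eq_conjTranspose, Matrix.conjTranspose_kronecker]

theorem endL_mul (A A' : Matrix (Fin P) (Fin P) ℂ) :
    endL (Q := Q) A * endL A' = endL (A * A') := by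
  rw [endL, endL, endL, ← Matrix.mul_kronecker_mul, one_mul]

theorem endR_mul (B B' : Matrix (Fin Q) (Fin Q) ℂ) :
    endR (P := P) B * endR B' = endR (B * B') := by
  rw [endR, endR, endR, ← Matrix.mul_kronecker_mul, one_mul]

theorem endL_sum {ι : Type} (s : Finset ι) (A : ι → Matrix (Fin P) (Fin P) ℂ) :
    endL (Q := Q) (∑ i ∈ s, A i) = ∑ i ∈ s, endL (A i) :=
  map_sum (AddMonoidHom.mk' (fun A => endL (Q := Q) A) fun _ _ => Matrix.add_kronecker _ _ _) A s

theorem endR_sum {ι : Type} (s : Finset ι) (B : ι → Matrix (Fin Q) (Fin Q) ℂ) :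
    endR (P := P) (∑ i ∈ s, B i) = ∑ i ∈ s, endR (B i) :=
  map_sum (AddMonoidHom.mk' (fun B => endR (P := P) B) fun _ _ => Matrix.kronecker_add _ _ _) B s

theorem endL_smul_one (c : ℂ) :
    endL (Q := Q) (c • (1 : Matrix (Fin P) (Fin P) ℂ)) = c • 1 := by
  rw [endL, Matrix.smul_kronecker, Matrix.one_kronecker_one]

theorem endR_smul_one (c : ℂ) :
    endR (P := P) (c • (1 : Matrix (Fin Q) (Fin Q) ℂ)) = c • 1 := by
  rw [endR, Matrix.kronecker_smul, Matrix.one_kronecker_one]

variable (hP : 0 < P) (hQ : 0 < Q)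
include hP hQ

theorem avg0_end (A : Matrix (Fin P) (Fin P) ℂ) :
    avg0 (endL (Q := Q) A) = ntr (endL (Q := Q) A) • (1 : Fib P Q) := by
  have hP' : (P : ℂ) ≠ 0 := Nat.cast_ne_zero.2 hP.ne'
  have hQ' : (Q : ℂ) ≠ 0 := Nat.cast_ne_zero.2 hQ.ne'
  simp only [avg0, unitMat, smul_star_mul_mul_smul, star_endL, endL_mul, ← Finset.smul_sum,
    ← endL_sum, sum_single_conj, endL_smul_one, smul_smul]
  congr 1
  rw [Real.mul_self_sqrt (by positivity)]
  simp [ntr, endL, Matrix.trace_kronecker, Matrix.trace_one]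
  field_simp

theorem avg1_end (B : Matrix (Fin Q) (Fin Q) ℂ) :
    avg1 (endR (P := P) B) = ntr (endR (P := P) B) • (1 : Fib P Q) := by
  have hP' : (P : ℂ) ≠ 0 := Nat.cast_ne_zero.2 hP.ne'
  have hQ' : (Q : ℂ) ≠ 0 := Nat.cast_ne_zero.2 hQ.ne'
  simp only [avg1, unitMat, smul_star_mul_mul_smul, star_endR, endR_mul, ← Finset.smul_sum,
    ← endR_sum, sum_single_conj, endR_smul_one, smul_smul]
  congr 1
  rw [Real.mul_self_sqrt (by positivity)]
  simp [ntr, endR, Matrix.trace_kronecker, Matrix.trace_one]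
  field_simp

theorem sum_unitMat_full (X : Fib P Q) :
    ∑ ij : (Fin P × Fin Q) × (Fin P × Fin Q),
      star (unitMat (.inr (.inr ij))) * X * unitMat (.inr (.inr ij)) = ntr X • (1 : Fib P Q) := by
  simp only [unitMat, smul_star_mul_mul_smul, ← Finset.smul_sum, sum_single_conj, smul_smul]
  congr 1
  rw [Real.mul_self_sqrt (by positivity)]
  simp [ntr]

theorem sum_mul_star_unitMat :
    (∑ ij : Fin P × Fin P, unitMat (Q := Q) (.inl ij) * star (unitMat (.inl ij)) = 1) ∧
    (∑ ij : Fin Q × Fin Q, unitMat (P := P) (.inr (.inl ij)) * star (unitMat (.inr (.inl ij))) = 1) ∧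
    ∑ ij : (Fin P × Fin Q) × (Fin P × Fin Q),
      unitMat (.inr (.inr ij)) * star (unitMat (.inr (.inr ij))) = (1 : Fib P Q) := by
  have hP' : (P : ℂ) ≠ 0 := Nat.cast_ne_zero.2 hP.ne'
  have hQ' : (Q : ℂ) ≠ 0 := Nat.cast_ne_zero.2 hQ.ne'
  have e : ∀ {n : Type} [Fintype n] [DecidableEq n] (c : ℝ) (U : Matrix n n ℂ),
      ((c : ℂ)⁻¹ • U) * star ((c : ℂ)⁻¹ • U) = (((c * c : ℝ) : ℂ)⁻¹) • (U * star U) := by
    intro n _ _ c U
    rw [star_smul, smul_mul_assoc, mul_smul_comm, smul_smul]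
    congr 1
    simp [Complex.conj_ofReal]
  refine ⟨?_, ?_, ?_⟩
  · simp only [unitMat, e, star_endL, endL_mul, ← Finset.smul_sum, ← endL_sum, sum_single_mul_star,
      endL_smul_one, smul_smul]
    rw [Real.mul_self_sqrt (by positivity)]
    simp [hP']
  · simp only [unitMat, e, star_endR, endR_mul, ← Finset.smul_sum, ← endR_sum, sum_single_mul_star,
      endR_smul_one, smul_smul]
    rw [Real.mul_self_sqrt (by positivity)]
    simp [hQ']
  · simp only [unitMat, e, ← Finset.smul_sum, sum_single_mul_star, smul_smul]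
    rw [Real.mul_self_sqrt (by positivity)]
    simp [Fintype.card_prod]
    field_simp
    rw [one_smul]

theorem avg_one : avg0 (1 : Fib P Q) = 1 ∧ avg1 (1 : Fib P Q) = 1 := by
  constructor
  · have h := avg0_end hP hQ (1 : Matrix (Fin P) (Fin P) ℂ)
    simp only [endL, Matrix.one_kronecker_one] at h
    rw [h, ntr_one hP hQ, one_smul]
  · have h := avg1_end hP hQ (1 : Matrix (Fin Q) (Fin Q) ℂ)
    simp only [endR, Matrix.one_kronecker_one] at h
    rw [h, ntr_one hP hQ, one_smul]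

/-- Every element can be averaged to its fibre trace, uniformly. -/
theorem exists_average (y : ZPair P Q) (η : ℝ) (hη : 0 < η) :
    ∃ (m : ℕ) (a : Fin m → ZPair P Q), (∑ i, star (a i) * a i = 1) ∧
      (∑ i, a i * star (a i) = 1) ∧
      ∀ t : I, ‖(∑ i, star ((a i : C(I, Fib P Q)) t) * (y : C(I, Fib P Q)) t
          * (a i : C(I, Fib P Q)) t)
        - ntr ((y : C(I, Fib P Q)) t) • (1 : Fib P Q)‖ ≤ η := by
  obtain ⟨⟨A, hA⟩, ⟨B, hB⟩⟩ : (∃ A : Matrix (Fin P) (Fin P) ℂ,
      (y : C(I, Fib P Q)) 0 = endL A) ∧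
      ∃ B : Matrix (Fin Q) (Fin Q) ℂ, (y : C(I, Fib P Q)) 1 = endR B := y.2
  set f : I → Fib P Q := fun t => (y : C(I, Fib P Q)) t with hf
  have hfc : Continuous f := map_continuous (y : C(I, Fib P Q))
  have c0 : Continuous fun t => avg0 (f t) - ntr (f t) • (1 : Fib P Q) :=
    (continuous_finsetSum _ fun ij _ => (continuous_const.mul hfc).mul continuous_const).sub
      ((continuous_ntr.comp hfc).smul continuous_const)
  have c1 : Continuous fun t => avg1 (f t) - ntr (f t) • (1 : Fib P Q) :=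
    (continuous_finsetSum _ fun ij _ => (continuous_const.mul hfc).mul continuous_const).sub
      ((continuous_ntr.comp hfc).smul continuous_const)
  have e0 : avg0 (f 0) - ntr (f 0) • (1 : Fib P Q) = 0 := by
    rw [show f 0 = _ from hA, avg0_end hP hQ, sub_self]
  have e1 : avg1 (f 1) - ntr (f 1) • (1 : Fib P Q) = 0 := by
    rw [show f 1 = _ from hB, avg1_end hP hQ, sub_self]
  obtain ⟨δ0, hδ0, h0⟩ := Metric.continuous_iff.1 c0 0 η hη
  obtain ⟨δ1, hδ1, h1⟩ := Metric.continuous_iff.1 c1 1 η hη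
  obtain ⟨h, hh, hh0, hh1, hh2⟩ : ∃ h : ℝ, 0 < h ∧ h < δ0 ∧ h < δ1 ∧ h ≤ 1 / 2 :=
    ⟨min (min δ0 δ1 / 2) (1 / 2), by positivity,
      (min_le_left _ _).trans_lt (by linarith [min_le_left δ0 δ1, lt_min hδ0 hδ1]),
      (min_le_left _ _).trans_lt (by linarith [min_le_right δ0 δ1, lt_min hδ0 hδ1]),
      min_le_right _ _⟩
  let u : C(I, ℝ) := ⟨fun t => max 0 (1 - (t : ℝ) / h), by fun_prop⟩
  let v : C(I, ℝ) := ⟨fun t => max 0 (1 - (1 - (t : ℝ)) / h), by fun_prop⟩
  let r : C(I, ℝ) := ⟨fun t => 1 - u t - v t, by fun_prop⟩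
  have hu : ∀ t, 0 ≤ u t := fun t => le_max_left _ _
  have hv : ∀ t, 0 ≤ v t := fun t => le_max_left _ _
  have hr : ∀ t, 0 ≤ r t := by
    intro t
    have ht0 := t.2.1
    have ht1 := t.2.2
    show 0 ≤ 1 - max 0 (1 - (t : ℝ) / h) - max 0 (1 - (1 - (t : ℝ)) / h)
    have a0 : 0 ≤ (t : ℝ) / h := div_nonneg ht0 hh.le
    have a1 : 0 ≤ (1 - (t : ℝ)) / h := div_nonneg (by linarith) hh.le
    have a2 : 2 ≤ (t : ℝ) / h + (1 - (t : ℝ)) / h := by
      rw [← add_div, le_div_iff₀ hh]; linarith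
    rcases max_choice 0 (1 - (t : ℝ) / h) with e | e <;>
      rcases max_choice 0 (1 - (1 - (t : ℝ)) / h) with e' | e' <;> rw [e, e'] <;> linarith
  have u0 : u 0 = 1 := by show max 0 _ = _; simp
  have v1 : v 1 = 1 := by show max 0 _ = _; simp
  have v0 : v 0 = 0 := by
    show max 0 _ = _
    exact max_eq_left (by simp only [Set.Icc.coe_zero, sub_zero, sub_nonpos]; rw [one_le_div hh]; linarith)
  have u1 : u 1 = 0 := by
    show max 0 _ = _
    exact max_eq_left (by simp only [Set.Icc.coe_one, sub_nonpos]; rw [one_le_div hh]; linarith)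
  have r0 : r 0 = 0 := by show 1 - u 0 - v 0 = 0; rw [u0, v0]; ring
  have r1 : r 1 = 0 := by show 1 - u 1 - v 1 = 0; rw [u1, v1]; ring
  let wt : Idx P Q → C(I, ℝ) := pick u v r
  let g : Idx P Q → C(I, Fib P Q) := fun i =>
    ⟨fun t => ((Real.sqrt (wt i t) : ℝ) : ℂ) • unitMat i, by fun_prop⟩
  have g_apply : ∀ i t, g i t = ((Real.sqrt (wt i t) : ℝ) : ℂ) • unitMat i := fun _ _ => rfl
  have gmem : ∀ i, g i ∈ ZPair P Q := by
    intro i
    rcases i with ij | ij | ij
    · refine ⟨⟨((Real.sqrt P)⁻¹ : ℂ) • Matrix.single ij.1 ij.2 1, ?_⟩, ⟨0, ?_⟩⟩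
      · rw [g_apply, show wt (.inl ij) 0 = 1 from u0, Real.sqrt_one, Complex.ofReal_one, one_smul,
          unitMat, endL, Matrix.smul_kronecker]
      · rw [g_apply, show wt (.inl ij) 1 = 0 from u1]; simp
    · refine ⟨⟨0, ?_⟩, ⟨((Real.sqrt Q)⁻¹ : ℂ) • Matrix.single ij.1 ij.2 1, ?_⟩⟩
      · rw [g_apply, show wt (.inr (.inl ij)) 0 = 0 from v0]; simp
      · rw [g_apply, show wt (.inr (.inl ij)) 1 = 1 from v1, Real.sqrt_one, Complex.ofReal_one,
          one_smul, unitMat, endR, Matrix.kronecker_smul]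
    · refine ⟨⟨0, ?_⟩, ⟨0, ?_⟩⟩
      · rw [g_apply, show wt (.inr (.inr ij)) 0 = 0 from r0]; simp
      · rw [g_apply, show wt (.inr (.inr ij)) 1 = 0 from r1]; simp
  have hw : ∀ i t, 0 ≤ wt i t := by
    rintro (ij | ij | ij) t
    exacts [hu t, hv t, hr t]
  have conj : ∀ (X : Fib P Q) (t : I), ∑ i, star (g i t) * X * g i t
      = ((u t : ℝ) : ℂ) • avg0 X + ((v t : ℝ) : ℂ) • avg1 X
        + ((r t : ℝ) : ℂ) • (ntr X • (1 : Fib P Q)) := by
    intro X t
    have e : ∀ i, star (g i t) * X * g i t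
        = ((wt i t : ℝ) : ℂ) • (star (unitMat i) * X * unitMat i) := by
      intro i
      rw [g_apply, star_smul, smul_mul_assoc, smul_mul_assoc, mul_smul_comm, smul_smul]
      congr 1
      rw [Complex.star_def, Complex.conj_ofReal, ← Complex.ofReal_mul, Real.mul_self_sqrt (hw i t)]
    simp only [e, Fintype.sum_sum_type, ← add_assoc, avg0, avg1, ← sum_unitMat_full hP hQ X,
      Finset.smul_sum]
    rfl
  have hone : ∀ t, u t + v t + r t = 1 := fun t => by
    show u t + v t + (1 - u t - v t) = 1; ring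
  refine ⟨Fintype.card (Idx P Q),
    fun i => ⟨g ((Fintype.equivFin _).symm i), gmem _⟩, ?_, ?_, fun t => ?_⟩
  · refine Subtype.ext (ContinuousMap.ext fun t => ?_)
    simp only [AddSubmonoidClass.coe_finsetSum, MulMemClass.coe_mul, StarMemClass.coe_star,
      OneMemClass.coe_one, ContinuousMap.sum_apply, ContinuousMap.mul_apply,
      ContinuousMap.star_apply, ContinuousMap.one_apply]
    rw [(Fintype.equivFin _).symm.sum_comp fun i => star (g i t) * g i t]
    have := conj 1 t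
    simp only [mul_one] at this
    rw [this, (avg_one hP hQ).1, (avg_one hP hQ).2, ntr_one hP hQ, one_smul, ← add_smul,
      ← add_smul, ← Complex.ofReal_add, ← Complex.ofReal_add, hone, Complex.ofReal_one, one_smul]
  · refine Subtype.ext (ContinuousMap.ext fun t => ?_)
    simp only [AddSubmonoidClass.coe_finsetSum, MulMemClass.coe_mul, StarMemClass.coe_star,
      OneMemClass.coe_one, ContinuousMap.sum_apply, ContinuousMap.mul_apply,
      ContinuousMap.star_apply, ContinuousMap.one_apply]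
    rw [(Fintype.equivFin _).symm.sum_comp fun i => g i t * star (g i t)]
    have e : ∀ i, g i t * star (g i t)
        = ((wt i t : ℝ) : ℂ) • (unitMat i * star (unitMat i)) := by
      intro i
      rw [g_apply, star_smul, smul_mul_assoc, mul_smul_comm, smul_smul]
      congr 1
      rw [Complex.star_def, Complex.conj_ofReal, ← Complex.ofReal_mul, Real.mul_self_sqrt (hw i t)]
    obtain ⟨s0, s1, s2⟩ := sum_mul_star_unitMat hP hQ (P := P) (Q := Q)
    simp only [e, Fintype.sum_sum_type, ← add_assoc]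
    simp only [wt, pick, ← Finset.smul_sum, s0, s1, s2]
    rw [← add_smul,
      ← add_smul, ← Complex.ofReal_add, ← Complex.ofReal_add, hone, Complex.ofReal_one, one_smul]
  · rw [(Fintype.equivFin _).symm.sum_comp fun i => star (g i t) * (y : C(I, Fib P Q)) t * g i t,
      conj]
    have split3 : ((u t : ℝ) : ℂ) • avg0 (f t) + ((v t : ℝ) : ℂ) • avg1 (f t)
          + ((r t : ℝ) : ℂ) • (ntr (f t) • (1 : Fib P Q)) - ntr (f t) • (1 : Fib P Q)
        = ((u t : ℝ) : ℂ) • (avg0 (f t) - ntr (f t) • (1 : Fib P Q))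
          + ((v t : ℝ) : ℂ) • (avg1 (f t) - ntr (f t) • (1 : Fib P Q)) := by
      have : ((r t : ℝ) : ℂ) = 1 - (u t : ℂ) - (v t : ℂ) := by
        show (((1 - u t - v t : ℝ)) : ℂ) = _; push_cast; ring
      rw [this]
      module
    rw [split3]
    have near : ∀ (w : ℝ) (Z : Fib P Q), 0 ≤ w → (0 < w → ‖Z‖ ≤ η) →
        ‖(w : ℂ) • Z‖ ≤ w * η := by
      intro w Z hw0 hZ
      rw [norm_smul, Complex.norm_real, Real.norm_eq_abs, abs_of_nonneg hw0]
      rcases hw0.eq_or_lt with h' | h'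
      · rw [← h', zero_mul, zero_mul]
      · exact mul_le_mul_of_nonneg_left (hZ h') hw0
    refine (norm_add_le _ _).trans (le_trans (add_le_add (near _ _ (hu t) fun hpos => ?_)
      (near _ _ (hv t) fun hpos => ?_)) ?_)
    · have ht : (t : ℝ) < h := by
        by_contra hcon
        push Not at hcon
        have : u t = 0 := max_eq_left (by rw [sub_nonpos, one_le_div hh]; exact hcon)
        linarith
      have := h0 t (by
        rw [Subtype.dist_eq, Real.dist_eq, Set.Icc.coe_zero, sub_zero, abs_of_nonneg t.2.1]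
        linarith)
      rw [dist_eq_norm] at this
      rw [show avg0 (f 0) - ntr (f 0) • (1 : Fib P Q) = 0 from e0, sub_zero] at this
      exact this.le
    · have ht : 1 - (t : ℝ) < h := by
        by_contra hcon
        push Not at hcon
        have : v t = 0 := max_eq_left (by rw [sub_nonpos, one_le_div hh]; exact hcon)
        linarith
      have := h1 t (by
        rw [Subtype.dist_eq, Real.dist_eq, Set.Icc.coe_one, abs_sub_comm,
          abs_of_nonneg (sub_nonneg.2 t.2.2)]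
        linarith)
      rw [dist_eq_norm] at this
      rw [show avg1 (f 1) - ntr (f 1) • (1 : Fib P Q) = 0 from e1, sub_zero] at this
      exact this.le
    · nlinarith [hr t, hone t, hu t, hv t]

end Vale.Agent.P101.Bridge.JiangSu
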