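import Vale.Agent.P101.Bridge.ChainStep

/-!
P101 bridge, central copies: coordinates `(α, β), (i₀, i₁)` of one fibre of the next stage, in
which the two ends of the algebra are algebras on `(α, i₀)` resp. `(β, i₁)`.
-/

namespace Vale.Agent.P101.Bridge.Central

open Vale.Agent.P101.DropN
open scoped Matrix Matrix.Norms.L2Operator Kronecker unitInterval

/-- Index set of the first factor: `c` single blocks and `n` groups. -/
abbrev Half (c n q : ℕ) := Fin c ⊕ Fin n × Fin q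

section Basic

variable {p q : ℕ} {K₀ K₁ : Type} [Fintype K₀] [DecidableEq K₀] [Fintype K₁] [DecidableEq K₁]

/-- The fibre. -/
abbrev Big (p q : ℕ) (K : Type) := Matrix ((Fin p × Fin q) × K) ((Fin p × Fin q) × K) ℂ

/-- A matrix of the form `C ⊗ 1` seen from the left end. -/
def InLeft (M : Big p q (K₀ × K₁)) : Prop :=
  ∃ C : Matrix (Fin p × K₀) (Fin p × K₀) ℂ, ∀ z z', M z z' =
    if z.1.2 = z'.1.2 ∧ z.2.2 = z'.2.2 then C (z.1.1, z.2.1) (z'.1.1, z'.2.1) else 0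

/-- A matrix of the form `1 ⊗ C` seen from the right end. -/
def InRight (M : Big p q (K₀ × K₁)) : Prop :=
  ∃ C : Matrix (Fin q × K₁) (Fin q × K₁) ℂ, ∀ z z', M z z' =
    if z.1.1 = z'.1.1 ∧ z.2.1 = z'.2.1 then C (z.1.2, z.2.2) (z'.1.2, z'.2.2) else 0

/-- The coordinates of the next stage. -/
def coordEquiv {P Q : ℕ} (eP : Fin p × K₀ ≃ Fin P) (eQ : Fin q × K₁ ≃ Fin Q) :
    (Fin p × Fin q) × (K₀ × K₁) ≃ Fin P × Fin Q :=
  (Equiv.prodProdProdComm _ _ _ _).trans (eP.prodCongr eQ)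

/-- Change of coordinates. -/
noncomputable def coordHom {Z Y : Type} [Fintype Z] [DecidableEq Z] [Fintype Y] [DecidableEq Y]
    (e : Z ≃ Y) : Matrix Z Z ℂ →⋆ₐ[ℂ] Matrix Y Y ℂ where
  toFun M := Matrix.reindex e e M
  map_one' := by simp
  map_mul' M N := by simp only [Matrix.reindex_apply, Matrix.submatrix_mul_equiv]
  map_zero' := by simp
  map_add' M N := by ext i j; rfl
  commutes' r := by
    simp only [Algebra.algebraMap_eq_smul_one, Matrix.reindex_apply, Matrix.submatrix_smul,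
      Pi.smul_apply, Matrix.submatrix_one_equiv]
  map_star' M := by
    simp only [Matrix.reindex_apply, Matrix.star_eq_conjTranspose, Matrix.conjTranspose_submatrix]

theorem coord_left {P Q : ℕ} (eP : Fin p × K₀ ≃ Fin P) (eQ : Fin q × K₁ ≃ Fin Q)
    {M : Big p q (K₀ × K₁)} (h : InLeft M) :
    ∃ C : Matrix (Fin P) (Fin P) ℂ,
      coordHom (coordEquiv eP eQ) M = C ⊗ₖ (1 : Matrix (Fin Q) (Fin Q) ℂ) := by
  obtain ⟨C, hC⟩ := h
  refine ⟨Matrix.reindex eP eP C, ?_⟩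
  ext ⟨i, j⟩ ⟨i', j'⟩
  obtain ⟨⟨α, i₀⟩, rfl⟩ := eP.surjective i
  obtain ⟨⟨β, i₁⟩, rfl⟩ := eQ.surjective j
  obtain ⟨⟨α', i₀'⟩, rfl⟩ := eP.surjective i'
  obtain ⟨⟨β', i₁'⟩, rfl⟩ := eQ.surjective j'
  show M ((coordEquiv eP eQ).symm (eP (α, i₀), eQ (β, i₁)))
    ((coordEquiv eP eQ).symm (eP (α', i₀'), eQ (β', i₁'))) = _
  rw [hC]
  simp [coordEquiv, Matrix.one_apply, Prod.ext_iff]

theorem coord_right {P Q : ℕ} (eP : Fin p × K₀ ≃ Fin P) (eQ : Fin q × K₁ ≃ Fin Q)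
    {M : Big p q (K₀ × K₁)} (h : InRight M) :
    ∃ C : Matrix (Fin Q) (Fin Q) ℂ,
      coordHom (coordEquiv eP eQ) M = (1 : Matrix (Fin P) (Fin P) ℂ) ⊗ₖ C := by
  obtain ⟨C, hC⟩ := h
  refine ⟨Matrix.reindex eQ eQ C, ?_⟩
  ext ⟨i, j⟩ ⟨i', j'⟩
  obtain ⟨⟨α, i₀⟩, rfl⟩ := eP.surjective i
  obtain ⟨⟨β, i₁⟩, rfl⟩ := eQ.surjective j
  obtain ⟨⟨α', i₀'⟩, rfl⟩ := eP.surjective i'
  obtain ⟨⟨β', i₁'⟩, rfl⟩ := eQ.surjective j'
  show M ((coordEquiv eP eQ).symm (eP (α, i₀), eQ (β, i₁)))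
    ((coordEquiv eP eQ).symm (eP (α', i₀'), eQ (β', i₁'))) = _
  rw [hC]
  simp [coordEquiv, Matrix.one_apply, Prod.ext_iff]

variable {K : Type} [Fintype K] [DecidableEq K]

/-- Matrices on `(β, i)`, constant in `α`. -/
noncomputable def fixL : Matrix (Fin q × K) (Fin q × K) ℂ →⋆ₐ[ℂ] Big p q K where
  toFun M := coordHom (Equiv.prodAssoc (Fin p) (Fin q) K).symm
    ((1 : Matrix (Fin p) (Fin p) ℂ) ⊗ₖ M)
  map_one' := by rw [Matrix.one_kronecker_one, map_one]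
  map_mul' M N := by rw [← map_mul, ← Matrix.mul_kronecker_mul, one_mul]
  map_zero' := by rw [Matrix.kronecker_zero, map_zero]
  map_add' M N := by rw [Matrix.kronecker_add, map_add]
  commutes' r := by
    rw [Algebra.algebraMap_eq_smul_one, Matrix.kronecker_smul, Matrix.one_kronecker_one, map_smul,
      map_one, Algebra.algebraMap_eq_smul_one]
  map_star' M := by
    rw [← map_star]
    congr 1
    rw [Matrix.star_eq_conjTranspose, Matrix.star_eq_conjTranspose,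
      Matrix.conjTranspose_kronecker, Matrix.conjTranspose_one]

theorem fixL_apply (M : Matrix (Fin q × K) (Fin q × K) ℂ) (z z' : (Fin p × Fin q) × K) :
    fixL M z z' = if z.1.1 = z'.1.1 then M (z.1.2, z.2) (z'.1.2, z'.2) else 0 := by
  show ((1 : Matrix (Fin p) (Fin p) ℂ) ⊗ₖ M) (z.1.1, (z.1.2, z.2)) (z'.1.1, (z'.1.2, z'.2)) = _
  simp [Matrix.one_apply]

/-- Swap of the two coordinates. -/
def flipEquiv (p q : ℕ) (K : Type) : Fin q × (Fin p × K) ≃ (Fin p × Fin q) × K :=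
  (Equiv.prodAssoc _ _ _).symm.trans ((Equiv.prodComm _ _).prodCongr (Equiv.refl K))

/-- Matrices on `(α, i)`, constant in `β`. -/
noncomputable def fixR : Matrix (Fin p × K) (Fin p × K) ℂ →⋆ₐ[ℂ] Big p q K where
  toFun M := coordHom (flipEquiv p q K) ((1 : Matrix (Fin q) (Fin q) ℂ) ⊗ₖ M)
  map_one' := by rw [Matrix.one_kronecker_one, map_one]
  map_mul' M N := by rw [← map_mul, ← Matrix.mul_kronecker_mul, one_mul]
  map_zero' := by rw [Matrix.kronecker_zero, map_zero]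
  map_add' M N := by rw [Matrix.kronecker_add, map_add]
  commutes' r := by
    rw [Algebra.algebraMap_eq_smul_one, Matrix.kronecker_smul, Matrix.one_kronecker_one, map_smul,
      map_one, Algebra.algebraMap_eq_smul_one]
  map_star' M := by
    rw [← map_star]
    congr 1
    rw [Matrix.star_eq_conjTranspose, Matrix.star_eq_conjTranspose,
      Matrix.conjTranspose_kronecker, Matrix.conjTranspose_one]

theorem fixR_apply (M : Matrix (Fin p × K) (Fin p × K) ℂ) (z z' : (Fin p × Fin q) × K) :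
    fixR M z z' = if z.1.2 = z'.1.2 then M (z.1.1, z.2) (z'.1.1, z'.2) else 0 := by
  show ((1 : Matrix (Fin q) (Fin q) ℂ) ⊗ₖ M) (z.1.2, (z.1.1, z.2)) (z'.1.2, (z'.1.1, z'.2)) = _
  simp [Matrix.one_apply]

/-- Constant blocks. -/
noncomputable def diag : (K → Fib p q) →⋆ₐ[ℂ] Big p q K :=
  blockHom (Equiv.refl ((Fin p × Fin q) × K))

theorem diag_apply (f : K → Fib p q) (z z' : (Fin p × Fin q) × K) :
    diag f z z' = if z.2 = z'.2 then f z.2 z.1 z'.1 else 0 := by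
  obtain ⟨x, k⟩ := z
  obtain ⟨x', k'⟩ := z'
  simp [diag, blockHom_apply, Matrix.blockDiagonal_apply]

theorem diag_const (M : Fib p q) : diag (K := K) (fun _ => M) = M ⊗ₖ (1 : Matrix K K ℂ) := by
  ext z z'
  rw [diag_apply]
  simp [Matrix.one_apply]

theorem commute_fixL (A : Matrix (Fin p) (Fin p) ℂ) (M : Matrix (Fin q × K) (Fin q × K) ℂ) :
    Commute (fixL M) (diag (fun _ : K => A ⊗ₖ (1 : Matrix (Fin q) (Fin q) ℂ))) := by
  have e : diag (fun _ : K => A ⊗ₖ (1 : Matrix (Fin q) (Fin q) ℂ)) =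
      coordHom (Equiv.prodAssoc (Fin p) (Fin q) K).symm
        (A ⊗ₖ (1 : Matrix (Fin q × K) (Fin q × K) ℂ)) := by
    ext ⟨⟨α, β⟩, k⟩ ⟨⟨α', β'⟩, k'⟩
    rw [diag_apply]
    show _ = (A ⊗ₖ (1 : Matrix (Fin q × K) (Fin q × K) ℂ)) (α, (β, k)) (α', (β', k'))
    by_cases h : β = β' <;> by_cases h' : k = k' <;> simp [h, h']
  rw [e, commute_iff_eq, show fixL M = coordHom (Equiv.prodAssoc (Fin p) (Fin q) K).symm
    ((1 : Matrix (Fin p) (Fin p) ℂ) ⊗ₖ M) from rfl, ← map_mul, ← map_mul,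
    ← Matrix.mul_kronecker_mul, ← Matrix.mul_kronecker_mul]
  simp only [one_mul, mul_one]

theorem commute_fixR (B : Matrix (Fin q) (Fin q) ℂ) (M : Matrix (Fin p × K) (Fin p × K) ℂ) :
    Commute (fixR M) (diag (fun _ : K => (1 : Matrix (Fin p) (Fin p) ℂ) ⊗ₖ B)) := by
  have e : diag (fun _ : K => (1 : Matrix (Fin p) (Fin p) ℂ) ⊗ₖ B) =
      coordHom (flipEquiv p q K) (B ⊗ₖ (1 : Matrix (Fin p × K) (Fin p × K) ℂ)) := by
    ext ⟨⟨α, β⟩, k⟩ ⟨⟨α', β'⟩, k'⟩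
    rw [diag_apply]
    show _ = (B ⊗ₖ (1 : Matrix (Fin p × K) (Fin p × K) ℂ)) (β, (α, k)) (β', (α', k'))
    by_cases h : α = α' <;> by_cases h' : k = k' <;> simp [h, h']
  rw [e, commute_iff_eq, show fixR M = coordHom (flipEquiv p q K)
    ((1 : Matrix (Fin q) (Fin q) ℂ) ⊗ₖ M) from rfl, ← map_mul, ← map_mul,
    ← Matrix.mul_kronecker_mul, ← Matrix.mul_kronecker_mul]
  simp only [one_mul, mul_one]

theorem perm_conj {Z : Type} [Fintype Z] [DecidableEq Z] (g : Equiv.Perm Z) (M : Matrix Z Z ℂ) :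
    g.permMatrix ℂ * M * star (g.permMatrix ℂ) = M.submatrix g g := by
  rw [Matrix.star_eq_conjTranspose, Matrix.conjTranspose_permMatrix]
  simp only [Equiv.Perm.permMatrix, PEquiv.toMatrix_toPEquiv_mul, PEquiv.mul_toMatrix_toPEquiv]
  ext i j
  simp [Equiv.Perm.inv_def]

/-- A permutation of `(β, i)` on the fibre. -/
def permL (τ : Equiv.Perm (Fin q × K)) : Equiv.Perm ((Fin p × Fin q) × K) :=
  ((Equiv.prodAssoc _ _ _).trans ((Equiv.refl (Fin p)).prodCongr τ)).trans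
    (Equiv.prodAssoc _ _ _).symm

/-- A permutation of `(α, i)` on the fibre. -/
def permR (τ : Equiv.Perm (Fin p × K)) : Equiv.Perm ((Fin p × Fin q) × K) :=
  ((flipEquiv p q K).symm.trans ((Equiv.refl (Fin q)).prodCongr τ)).trans (flipEquiv p q K)

theorem fixL_perm (τ : Equiv.Perm (Fin q × K)) (M : Big p q K) :
    fixL (τ.permMatrix ℂ) * M * star (fixL (τ.permMatrix ℂ)) = M.submatrix (permL τ) (permL τ) := by
  have e : (fixL (τ.permMatrix ℂ) : Big p q K) = (permL τ).permMatrix ℂ := by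
    ext ⟨⟨α, β⟩, k⟩ ⟨⟨α', β'⟩, k'⟩
    rw [fixL_apply]
    by_cases h : α = α' <;>
      simp [h, permL, Equiv.Perm.permMatrix, PEquiv.toMatrix_apply, Prod.ext_iff]
  rw [e, perm_conj]

theorem fixR_perm (τ : Equiv.Perm (Fin p × K)) (M : Big p q K) :
    fixR (τ.permMatrix ℂ) * M * star (fixR (τ.permMatrix ℂ)) = M.submatrix (permR τ) (permR τ) := by
  have e : (fixR (τ.permMatrix ℂ) : Big p q K) = (permR τ).permMatrix ℂ := by
    ext ⟨⟨α, β⟩, k⟩ ⟨⟨α', β'⟩, k'⟩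
    rw [fixR_apply]
    by_cases h : β = β' <;>
      simp [h, permR, flipEquiv, Equiv.Perm.permMatrix, PEquiv.toMatrix_apply, Prod.ext_iff]
  rw [e, perm_conj]

end Basic

section Ends

variable {p q c₀ n₀ c₁ n₁ : ℕ}

/-- Exchange of the group coordinate at the left end. -/
def swapL (q c₀ n₀ : ℕ) (K₁ : Type) : Fin q × (Half c₀ n₀ q × K₁) → Fin q × (Half c₀ n₀ q × K₁)
  | (β, (.inl c, i₁)) => (β, (.inl c, i₁))
  | (β, (.inr (n, γ), i₁)) => (γ, (.inr (n, β), i₁))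

theorem swapL_involutive (q c₀ n₀ : ℕ) (K₁ : Type) : Function.Involutive (swapL q c₀ n₀ K₁) := by
  rintro ⟨β, c | ⟨n, γ⟩, i₁⟩ <;> rfl

/-- Exchange of the group coordinate at the right end. -/
def swapR (p c₁ n₁ : ℕ) (K₀ : Type) : Fin p × (K₀ × Half c₁ n₁ p) → Fin p × (K₀ × Half c₁ n₁ p)
  | (α, (i₀, .inl c)) => (α, (i₀, .inl c))
  | (α, (i₀, .inr (n, γ))) => (γ, (i₀, .inr (n, α)))

theorem swapR_involutive (p c₁ n₁ : ℕ) (K₀ : Type) : Function.Involutive (swapR p c₁ n₁ K₀) := by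
  rintro ⟨α, i₀, c | ⟨n, γ⟩⟩ <;> rfl

/-- The index set of the blocks. -/
abbrev Blocks (p q c₀ n₀ c₁ n₁ : ℕ) := Half c₀ n₀ q × Half c₁ n₁ p

/-- The permutation at the left end. -/
def endL (p q c₀ n₀ c₁ n₁ : ℕ) : Equiv.Perm (Fin q × Blocks p q c₀ n₀ c₁ n₁) :=
  (swapL_involutive q c₀ n₀ (Half c₁ n₁ p)).toPerm _

/-- The permutation at the right end. -/
def endR (ρ : Equiv.Perm (Blocks p q c₀ n₀ c₁ n₁)) :
    Equiv.Perm (Fin p × Blocks p q c₀ n₀ c₁ n₁) :=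
  ((swapR_involutive p c₁ n₁ (Half c₀ n₀ q)).toPerm _).trans ((Equiv.refl _).prodCongr ρ)

theorem left_end (f : Blocks p q c₀ n₀ c₁ n₁ → Fib p q) (A : Matrix (Fin p) (Fin p) ℂ)
    (M : Fib p q) (hA : ∀ c i₁, f (.inl c, i₁) = A ⊗ₖ (1 : Matrix (Fin q) (Fin q) ℂ))
    (hM : ∀ g i₁, f (.inr g, i₁) = M) :
    InLeft ((diag f).submatrix (permL (endL p q c₀ n₀ c₁ n₁)) (permL (endL p q c₀ n₀ c₁ n₁))) := by
  refine ⟨Matrix.of fun y y' => match y, y' with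
    | (α, Sum.inl c), (α', Sum.inl c') => if c = c' then A α α' else 0
    | (α, Sum.inr (n, γ)), (α', Sum.inr (n', γ')) => if n = n' then M (α, γ) (α', γ') else 0
    | _, _ => 0, ?_⟩
  rintro ⟨⟨α, β⟩, c | ⟨n, γ⟩, i₁⟩ ⟨⟨α', β'⟩, c' | ⟨n', γ'⟩, i₁'⟩
  · show diag f ((α, β), (.inl c, i₁)) ((α', β'), (.inl c', i₁')) = _
    rw [diag_apply]
    simp only [Matrix.of_apply, Prod.mk.injEq, Sum.inl.injEq]
    by_cases h1 : c = c' <;> by_cases h2 : i₁ = i₁' <;> by_cases h3 : β = β' <;>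
      simp [hA, h1, h2, h3]
  · show diag f ((α, β), (.inl c, i₁)) ((α', γ'), (.inr (n', β'), i₁')) = _
    rw [diag_apply]
    simp
  · show diag f ((α, γ), (.inr (n, β), i₁)) ((α', β'), (.inl c', i₁')) = _
    rw [diag_apply]
    simp
  · show diag f ((α, γ), (.inr (n, β), i₁)) ((α', γ'), (.inr (n', β'), i₁')) = _
    rw [diag_apply]
    simp only [Matrix.of_apply, Prod.mk.injEq, Sum.inr.injEq]
    by_cases h1 : n = n' <;> by_cases h2 : i₁ = i₁' <;> by_cases h3 : β = β' <;>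
      simp [hM, h1, h2, h3]

theorem right_end (ρ : Equiv.Perm (Blocks p q c₀ n₀ c₁ n₁))
    (f : Blocks p q c₀ n₀ c₁ n₁ → Fib p q) (B : Matrix (Fin q) (Fin q) ℂ) (M : Fib p q)
    (hB : ∀ i₀ c, f (ρ (i₀, .inl c)) = (1 : Matrix (Fin p) (Fin p) ℂ) ⊗ₖ B)
    (hM : ∀ i₀ g, f (ρ (i₀, .inr g)) = M) :
    InRight ((diag f).submatrix (permR (endR ρ)) (permR (endR ρ))) := by
  refine ⟨Matrix.of fun y y' => match y, y' with
    | (β, Sum.inl c), (β', Sum.inl c') => if c = c' then B β β' else 0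
    | (β, Sum.inr (n, γ)), (β', Sum.inr (n', γ')) => if n = n' then M (γ, β) (γ', β') else 0
    | _, _ => 0, ?_⟩
  rintro ⟨⟨α, β⟩, i₀, c | ⟨n, γ⟩⟩ ⟨⟨α', β'⟩, i₀', c' | ⟨n', γ'⟩⟩
  · show diag f ((α, β), ρ (i₀, .inl c)) ((α', β'), ρ (i₀', .inl c')) = _
    rw [diag_apply]
    simp only [Matrix.of_apply, ρ.injective.eq_iff, Prod.mk.injEq, Sum.inl.injEq]
    by_cases h1 : c = c' <;> by_cases h2 : i₀ = i₀' <;> by_cases h3 : α = α' <;>
      simp [hB, h1, h2, h3]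
  · show diag f ((α, β), ρ (i₀, .inl c)) ((γ', β'), ρ (i₀', .inr (n', α'))) = _
    rw [diag_apply]
    simp
  · show diag f ((γ, β), ρ (i₀, .inr (n, α))) ((α', β'), ρ (i₀', .inl c')) = _
    rw [diag_apply]
    simp
  · show diag f ((γ, β), ρ (i₀, .inr (n, α))) ((γ', β'), ρ (i₀', .inr (n', α'))) = _
    rw [diag_apply]
    simp only [Matrix.of_apply, ρ.injective.eq_iff, Prod.mk.injEq, Sum.inr.injEq]
    by_cases h1 : n = n' <;> by_cases h2 : i₀ = i₀' <;> by_cases h3 : α = α' <;>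
      simp [hM, h1, h2, h3]

end Ends

section Small

variable {p q a b : ℕ} {K₀ K₁ : Type} [Fintype K₀] [DecidableEq K₀] [Fintype K₁] [DecidableEq K₁]
  (e₀ : K₀ ≃ Fin 2 × Fin a) (e₁ : K₁ ≃ Fin 3 × Fin b)

/-- Copies of the small fibre among the blocks. -/
noncomputable def small : Fib 2 3 →⋆ₐ[ℂ] Big p q (K₀ × K₁) where
  toFun Y := (1 : Fib p q) ⊗ₖ coordHom ((Equiv.prodProdProdComm (Fin 2) (Fin 3) (Fin a) (Fin b)).trans
    (e₀.symm.prodCongr e₁.symm)) (Y ⊗ₖ (1 : Matrix (Fin a × Fin b) (Fin a × Fin b) ℂ))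
  map_one' := by rw [Matrix.one_kronecker_one, map_one, Matrix.one_kronecker_one]
  map_mul' M N := by
    rw [← Matrix.mul_kronecker_mul, ← map_mul, ← Matrix.mul_kronecker_mul, one_mul, one_mul]
  map_zero' := by rw [Matrix.zero_kronecker, map_zero, Matrix.kronecker_zero]
  map_add' M N := by rw [Matrix.add_kronecker, map_add, Matrix.kronecker_add]
  commutes' r := by
    simp only [Algebra.algebraMap_eq_smul_one, Matrix.smul_kronecker, Matrix.one_kronecker_one,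
      map_smul, map_one, Matrix.kronecker_smul]
  map_star' M := by
    rw [Matrix.star_eq_conjTranspose, Matrix.star_eq_conjTranspose,
      Matrix.conjTranspose_kronecker, Matrix.conjTranspose_one, ← Matrix.star_eq_conjTranspose,
      ← Matrix.star_eq_conjTranspose, ← map_star]
    congr 2
    rw [Matrix.star_eq_conjTranspose, Matrix.star_eq_conjTranspose,
      Matrix.conjTranspose_kronecker, Matrix.conjTranspose_one]

theorem small_apply (Y : Fib 2 3) (z z' : (Fin p × Fin q) × (K₀ × K₁)) :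
    small e₀ e₁ Y z z' = (if z.1 = z'.1 then 1 else 0) *
      (Y ((e₀ z.2.1).1, (e₁ z.2.2).1) ((e₀ z'.2.1).1, (e₁ z'.2.2).1) *
        if (e₀ z.2.1).2 = (e₀ z'.2.1).2 ∧ (e₁ z.2.2).2 = (e₁ z'.2.2).2 then 1 else 0) := by
  obtain ⟨x, i₀, i₁⟩ := z
  obtain ⟨x', i₀', i₁'⟩ := z'
  simp only [← Prod.mk.injEq]
  rfl

theorem small_commute (Y : Fib 2 3) (M : Fib p q) :
    Commute (small e₀ e₁ Y) (diag (fun _ : K₀ × K₁ => M)) := by
  rw [diag_const]
  show Commute ((1 : Fib p q) ⊗ₖ _) _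
  rw [commute_iff_eq, ← Matrix.mul_kronecker_mul, ← Matrix.mul_kronecker_mul]
  simp

theorem small_left (C : Matrix (Fin 2) (Fin 2) ℂ) :
    InLeft (p := p) (q := q) (small e₀ e₁ (C ⊗ₖ (1 : Matrix (Fin 3) (Fin 3) ℂ))) := by
  refine ⟨Matrix.of fun y y' =>
    if y.1 = y'.1 ∧ (e₀ y.2).2 = (e₀ y'.2).2 then C (e₀ y.2).1 (e₀ y'.2).1 else 0, ?_⟩
  rintro ⟨⟨α, β⟩, i₀, i₁⟩ ⟨⟨α', β'⟩, i₀', i₁'⟩
  rw [small_apply]
  have h : i₁ = i₁' ↔ (e₁ i₁).1 = (e₁ i₁').1 ∧ (e₁ i₁).2 = (e₁ i₁').2 := by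
    rw [← Prod.ext_iff, e₁.injective.eq_iff]
  simp only [Matrix.of_apply, Matrix.kroneckerMap_apply, Matrix.one_apply, Prod.mk.injEq]
  rw [if_congr (and_congr_right fun _ => h) rfl rfl]
  by_cases h1 : α = α' <;> by_cases h2 : β = β' <;> by_cases h3 : (e₁ i₁).1 = (e₁ i₁').1 <;>
    by_cases h4 : (e₁ i₁).2 = (e₁ i₁').2 <;> by_cases h5 : (e₀ i₀).2 = (e₀ i₀').2 <;>
    simp [h1, h2, h3, h4, h5]

theorem small_right (C : Matrix (Fin 3) (Fin 3) ℂ) :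
    InRight (p := p) (q := q) (small e₀ e₁ ((1 : Matrix (Fin 2) (Fin 2) ℂ) ⊗ₖ C)) := by
  refine ⟨Matrix.of fun y y' =>
    if y.1 = y'.1 ∧ (e₁ y.2).2 = (e₁ y'.2).2 then C (e₁ y.2).1 (e₁ y'.2).1 else 0, ?_⟩
  rintro ⟨⟨α, β⟩, i₀, i₁⟩ ⟨⟨α', β'⟩, i₀', i₁'⟩
  rw [small_apply]
  have h : i₀ = i₀' ↔ (e₀ i₀).1 = (e₀ i₀').1 ∧ (e₀ i₀).2 = (e₀ i₀').2 := by
    rw [← Prod.ext_iff, e₀.injective.eq_iff]
  simp only [Matrix.of_apply, Matrix.kroneckerMap_apply, Matrix.one_apply, Prod.mk.injEq]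
  rw [if_congr (and_congr_right fun _ => h) rfl rfl]
  by_cases h1 : α = α' <;> by_cases h2 : β = β' <;> by_cases h3 : (e₀ i₀).1 = (e₀ i₀').1 <;>
    by_cases h4 : (e₀ i₀).2 = (e₀ i₀').2 <;> by_cases h5 : (e₁ i₁).2 = (e₁ i₁').2 <;>
    simp [h1, h2, h3, h4, h5]

end Small

end Vale.Agent.P101.Bridge.Central
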