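import Vale.Agent.P101.Bridge.CentralCoord

/-!
P101 bridge, central copies: one step of a chain with a copy of Z(2,3) almost commuting with the
image of every element whose fibres are unitarily almost constant.
-/

namespace Vale.Agent.P101.Bridge.Central

open Vale.Agent.P101.DropN
open scoped Matrix Matrix.Norms.L2Operator Kronecker unitInterval

section Estimate

variable {E : Type} [CStarAlgebra E]

theorem comm_star {u N : E} (hu : u ∈ unitary E) {c : ℝ} (h : ‖u * N - N * u‖ ≤ c) :
    ‖star u * N - N * star u‖ ≤ c := by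
  have e : star u * N - N * star u = star u * (-(u * N - N * u)) * star u := by
    simp only [neg_sub, mul_sub, sub_mul, mul_assoc, Unitary.mul_star_self_of_mem hu, mul_one]
    rw [← mul_assoc (star u) u, Unitary.star_mul_self_of_mem hu, one_mul]
  rw [e, CStarRing.norm_mul_mem_unitary _ (Unitary.star_mem hu),
    CStarRing.norm_mem_unitary_mul _ (Unitary.star_mem hu), norm_neg]
  exact h

theorem conj_comm_le {G L N : E} (hG : G ∈ unitary E) (hLN : Commute L N) {c : ℝ}
    (h : ‖G * N - N * G‖ ≤ c) :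
    ‖G * L * star G * N - N * (G * L * star G)‖ ≤ 2 * c * ‖L‖ := by
  have e : G * L * star G * N - N * (G * L * star G) =
      G * (L * (star G * N - N * star G)) + (G * N - N * G) * (L * star G) := by
    have h1 : G * (L * (N * star G)) = G * (N * (L * star G)) := by
      rw [← mul_assoc L, hLN.eq, mul_assoc]
    simp only [mul_sub, sub_mul, mul_assoc, h1]
    abel
  rw [e]
  refine (norm_add_le _ _).trans ?_
  rw [CStarRing.norm_mem_unitary_mul _ hG]
  refine (add_le_add (norm_mul_le _ _) (norm_mul_le _ _)).trans ?_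
  rw [CStarRing.norm_mul_mem_unitary _ (Unitary.star_mem hG)]
  have h1 := mul_le_mul_of_nonneg_left (comm_star hG h) (norm_nonneg L)
  have h2 := mul_le_mul_of_nonneg_right h (norm_nonneg L)
  linarith

theorem comm_close {V k N D : E} (hV : V ∈ unitary E) {η c : ℝ}
    (hD : ‖D - V * N * star V‖ ≤ η) (hk : ‖k * N - N * k‖ ≤ c) :
    ‖V * k * star V * D - D * (V * k * star V)‖ ≤ c + 2 * ‖k‖ * η := by
  set Δ := D - V * N * star V with hΔ
  have hs := Unitary.star_mul_self_of_mem hV
  have h1 : V * k * star V * (V * N * star V) = V * (k * N) * star V := by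
    simp only [mul_assoc]
    rw [← mul_assoc (star V) V, hs, one_mul]
  have h2 : V * N * star V * (V * k * star V) = V * (N * k) * star V := by
    simp only [mul_assoc]
    rw [← mul_assoc (star V) V, hs, one_mul]
  have e : V * k * star V * D - D * (V * k * star V) =
      V * (k * N - N * k) * star V + (V * k * star V * Δ - Δ * (V * k * star V)) := by
    rw [hΔ, mul_sub (V * k * star V) D, sub_mul D, h1, h2, mul_sub V, sub_mul]
    abel
  rw [e]
  have hn : ‖V * k * star V‖ = ‖k‖ := by
    rw [CStarRing.norm_mul_mem_unitary _ (Unitary.star_mem hV),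
      CStarRing.norm_mem_unitary_mul _ hV]
  refine (norm_add_le _ _).trans (add_le_add ?_ ((norm_sub_le _ _).trans ?_))
  · rw [CStarRing.norm_mul_mem_unitary _ (Unitary.star_mem hV),
      CStarRing.norm_mem_unitary_mul _ hV]
    exact hk
  · refine (add_le_add (norm_mul_le _ _) (norm_mul_le _ _)).trans ?_
    rw [hn]
    have := mul_le_mul_of_nonneg_left hD (norm_nonneg k)
    linarith

theorem mem_unitary_map {F : Type} [CStarAlgebra F] (φ : E →⋆ₐ[ℂ] F) {u : E}
    (hu : u ∈ unitary E) : φ u ∈ unitary F := Unitary.map_mem φ hu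

theorem continuous_hom {F : Type} [CStarAlgebra F] (φ : E →⋆ₐ[ℂ] F) : Continuous φ :=
  AddMonoidHomClass.continuous_of_bound φ 1 fun x => by
    rw [one_mul]; exact NonUnitalStarAlgHom.norm_apply_le φ x

/-- Conjugation by a unitary. -/
noncomputable def conjBy (u : E) (hu : u ∈ unitary E) : E →⋆ₐ[ℂ] E where
  toFun x := u * x * star u
  map_one' := by rw [mul_one, Unitary.mul_star_self_of_mem hu]
  map_mul' x y := by
    simp only [mul_assoc]
    rw [← mul_assoc (star u) u, Unitary.star_mul_self_of_mem hu, one_mul]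
  map_zero' := by rw [mul_zero, zero_mul]
  map_add' x y := by rw [mul_add, add_mul]
  commutes' r := by
    rw [Algebra.algebraMap_eq_smul_one, mul_smul_comm, smul_mul_assoc, mul_one,
      Unitary.mul_star_self_of_mem hu]
  map_star' x := by simp only [star_mul, star_star, mul_assoc]

end Estimate

section Unitaries

variable {p q : ℕ} {K : Type} [Fintype K] [DecidableEq K]

theorem fixL_mem {g : Matrix (Fin q × K) (Fin q × K) ℂ} (h : g ∈ unitary _) :
    (fixL g : Big p q K) ∈ unitary (Big p q K) :=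
  mem_unitary_map (fixL (p := p) (q := q) (K := K)) h

theorem fixR_mem {g : Matrix (Fin p × K) (Fin p × K) ℂ} (h : g ∈ unitary _) :
    (fixR g : Big p q K) ∈ unitary (Big p q K) :=
  mem_unitary_map (fixR (p := p) (q := q) (K := K)) h

theorem coordHom_mem {Z Y : Type} [Fintype Z] [DecidableEq Z] [Fintype Y] [DecidableEq Y]
    (f : Z ≃ Y) {g : Matrix Z Z ℂ} (h : g ∈ unitary _) : coordHom f g ∈ unitary (Matrix Y Y ℂ) :=
  mem_unitary_map (coordHom f) h

theorem diag_mem {f : K → Fib p q} (h : ∀ i, f i ∈ unitary (Fib p q)) :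
    diag f ∈ unitary (Big p q K) := by
  refine mem_unitary_map (diag (p := p) (q := q) (K := K)) ?_
  rw [Unitary.mem_iff]
  exact ⟨funext fun i => Unitary.star_mul_self_of_mem (h i),
    funext fun i => Unitary.mul_star_self_of_mem (h i)⟩

theorem diag_star_const (w : Fib p q) :
    diag (fun _ : K => star w) = star (diag (fun _ : K => w)) :=
  map_star (diag (p := p) (q := q) (K := K)) fun _ => w

theorem fixL_commute_star (A : Matrix (Fin p) (Fin p) ℂ) (g : Matrix (Fin q × K) (Fin q × K) ℂ) :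
    Commute (star (fixL g : Big p q K))
      (diag (fun _ : K => A ⊗ₖ (1 : Matrix (Fin q) (Fin q) ℂ))) := by
  rw [← map_star (fixL (p := p) (q := q) (K := K)) g]
  exact commute_fixL A (star g)

theorem fixR_commute_star (B : Matrix (Fin q) (Fin q) ℂ) (g : Matrix (Fin p × K) (Fin p × K) ℂ) :
    Commute (star (fixR g : Big p q K))
      (diag (fun _ : K => (1 : Matrix (Fin p) (Fin p) ℂ) ⊗ₖ B)) := by
  rw [← map_star (fixR (p := p) (q := q) (K := K)) g]
  exact commute_fixR B (star g)

end Unitaries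

section Step

variable {p q : ℕ} {K₀ K₁ : Type} [Fintype K₀] [DecidableEq K₀] [Fintype K₁] [DecidableEq K₁]

/-- The functions on the interval in coordinates. -/
abbrev BigPath (p q : ℕ) (K : Type) [Fintype K] [DecidableEq K] := C(I, Big p q K)

/-- The outer paths: a path to the permutation of the left end, run backwards. -/
noncomputable def outerL (g : C(I, Matrix (Fin q × (K₀ × K₁))
    (Fin q × (K₀ × K₁)) ℂ)) : BigPath p q (K₀ × K₁) :=
  ⟨fun t => fixL (g (unitInterval.symm t)),
    (continuous_hom (fixL (p := p) (q := q) (K := (K₀ × K₁)))).comp (g.continuous.comp unitInterval.continuous_symm)⟩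

/-- The outer paths: a path to the permutation of the right end. -/
noncomputable def outerR (g : C(I, Matrix (Fin p × (K₀ × K₁))
    (Fin p × (K₀ × K₁)) ℂ)) : BigPath p q (K₀ × K₁) :=
  ⟨fun t => fixR (g t), (continuous_hom (fixR (p := p) (q := q) (K := (K₀ × K₁)))).comp g.continuous⟩

/-- Blockwise values of a function along paths. -/
noncomputable def along (ξ : (K₀ × K₁) → C(I, I)) (v : C(I, Fib p q)) :
    BigPath p q (K₀ × K₁) :=
  ⟨fun t => diag (fun i => v (ξ i t)),
    (continuous_hom (diag (p := p) (q := q) (K := K₀ × K₁))).comp (by fun_prop)⟩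

variable (p q K₀ K₁) in
/-- The data of a step: the paths of the blocks, and paths to the regroupings at both ends. -/
structure Ends where
  ξ : (K₀ × K₁) → C(I, I)
  lip : ∀ i s t, dist (ξ i s) (ξ i t) ≤ dist s t / 2
  low : ∃ i, ξ i = lowHalf
  high : ∃ i, ξ i = highHalf
  gL : C(I, Matrix (Fin q × (K₀ × K₁)) (Fin q × (K₀ × K₁)) ℂ)
  gR : C(I, Matrix (Fin p × (K₀ × K₁)) (Fin p × (K₀ × K₁)) ℂ)
  hL : ∀ t, gL t ∈ unitary (Matrix (Fin q × (K₀ × K₁)) (Fin q × (K₀ × K₁)) ℂ)
  hR : ∀ t, gR t ∈ unitary (Matrix (Fin p × (K₀ × K₁)) (Fin p × (K₀ × K₁)) ℂ)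
  gL0 : gL 0 = 1
  gR0 : gR 0 = 1
  left : ∀ (x : C(I, Fib p q)) (A : Matrix (Fin p) (Fin p) ℂ),
    x 0 = A ⊗ₖ (1 : Matrix (Fin q) (Fin q) ℂ) →
    InLeft (fixL (gL 1) * diag (fun i => x (ξ i 0)) * star (fixL (gL 1)))
  right : ∀ (x : C(I, Fib p q)) (B : Matrix (Fin q) (Fin q) ℂ),
    x 1 = (1 : Matrix (Fin p) (Fin p) ℂ) ⊗ₖ B →
    InRight (fixR (gR 1) * diag (fun i => x (ξ i 1)) * star (fixR (gR 1)))

variable (e : Ends p q K₀ K₁)

/-- The conjugating path of the step. -/
noncomputable def Ends.u : BigPath p q (K₀ × K₁) := outerL e.gL * outerR e.gR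

/-- The correcting path. -/
noncomputable def Ends.corr (w : Fib p q) : BigPath p q (K₀ × K₁) :=
  star (outerL e.gL) * (ContinuousMap.const I (diag fun _ => star w) * star (outerR e.gR) *
    ContinuousMap.const I (diag fun _ => w))

/-- The unitary in which the small algebra sits. -/
noncomputable def Ends.frame (U : C(I, Fib p q)) : BigPath p q (K₀ × K₁) :=
  e.u * along e.ξ U * e.corr (U 1) *
    star ⟨fun t => diag fun _ => U t, (continuous_hom (diag (p := p) (q := q) (K := (K₀ × K₁)))).comp (by fun_prop)⟩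

theorem Ends.outerL_mem (t : I) : outerL e.gL t ∈ unitary (Big p q _) :=
  fixL_mem (e.hL (unitInterval.symm t))

theorem Ends.outerR_mem (t : I) : outerR e.gR t ∈ unitary (Big p q _) :=
  fixR_mem (e.hR t)

theorem Ends.u_mem (t : I) : e.u t ∈ unitary (Big p q _) :=
  mul_mem (e.outerL_mem t) (e.outerR_mem t)

theorem Ends.u_zero : e.u 0 = fixL (e.gL 1) := by
  show fixL (e.gL (unitInterval.symm 0)) * fixR (e.gR 0) = _
  rw [unitInterval.symm_zero, e.gR0, map_one fixR, mul_one]

theorem Ends.u_one : e.u 1 = fixR (e.gR 1) := by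
  show fixL (e.gL (unitInterval.symm 1)) * fixR (e.gR 1) = _
  rw [unitInterval.symm_one, e.gL0, map_one fixL, one_mul]

theorem Ends.corr_mem {w : Fib p q} (hw : w ∈ unitary (Fib p q)) (t : I) :
    e.corr w t ∈ unitary (Big p q _) :=
  mul_mem (Unitary.star_mem (e.outerL_mem t))
    (mul_mem (mul_mem (diag_mem fun _ => Unitary.star_mem hw)
      (Unitary.star_mem (e.outerR_mem t))) (diag_mem fun _ => hw))

theorem Ends.frame_zero {U : C(I, Fib p q)} (hU : ∀ t, U t ∈ unitary (Fib p q)) (h0 : U 0 = 1) :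
    InLeft (e.frame U 0) := by
  have hc : e.corr (U 1) 0 = star (fixL (e.gL 1)) := by
    show star (fixL (e.gL (unitInterval.symm 0))) * (diag (fun _ => star (U 1)) *
      star (fixR (e.gR 0)) * diag fun _ => U 1) = _
    rw [unitInterval.symm_zero, e.gR0, map_one fixR, star_one, mul_one, ← map_mul]
    rw [show ((fun _ => star (U 1)) * fun _ => U 1 : (K₀ × K₁) → Fib p q) = 1 from
      funext fun _ => Unitary.star_mul_self_of_mem (hU 1), map_one diag, mul_one]
  have h : e.frame U 0 = fixL (e.gL 1) *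
      diag (fun i => U (e.ξ i 0)) * star (fixL (e.gL 1)) := by
    show e.u 0 * diag (fun i => U (e.ξ i 0)) * e.corr (U 1) 0 * star (diag fun _ => U 0) = _
    rw [hc, e.u_zero, h0]
    rw [show (fun _ => (1 : Fib p q) : (K₀ × K₁) → Fib p q) = 1 from rfl, map_one diag,
      star_one, mul_one]
  rw [h]
  exact e.left U 1 (by rw [h0, Matrix.one_kronecker_one])

theorem Ends.frame_one {U : C(I, Fib p q)}
    (hU : ∀ t, U t ∈ unitary (Fib p q)) : InRight (e.frame U 1) := by
  set R : Big p q ((K₀ × K₁)) := fixR (e.gR 1) with hR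
  set W : Big p q ((K₀ × K₁)) := diag fun _ => U 1 with hW
  have hc : e.corr (U 1) 1 = diag (fun _ => star (U 1)) * star R * W := by
    show star (fixL (e.gL (unitInterval.symm 1))) * (diag (fun _ => star (U 1)) *
      star (fixR (e.gR 1)) * diag fun _ => U 1) = _
    rw [unitInterval.symm_one, e.gL0, map_one fixL, star_one, one_mul]
  have h : e.frame U 1 = R * diag (fun i => U (e.ξ i 1) * star (U 1)) * star R := by
    show e.u 1 * diag (fun i => U (e.ξ i 1)) * e.corr (U 1) 1 * star W = _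
    rw [hc, e.u_one, ← hR]
    simp only [mul_assoc]
    rw [show W * star W = 1 from
      Unitary.mul_star_self_of_mem (diag_mem fun _ => hU 1), mul_one, ← mul_assoc (diag _),
      ← map_mul]
    rfl
  rw [h, hR]
  exact e.right (U * ContinuousMap.const I (star (U 1))) 1 (by
    show U 1 * star (U 1) = _
    rw [Unitary.mul_star_self_of_mem (hU 1), Matrix.one_kronecker_one])

/-- The estimate at one point. -/
theorem Ends.comm_at {a b : ℕ} (e₀ : K₀ ≃ Fin 2 × Fin a)
    (e₁ : K₁ ≃ Fin 3 × Fin b) {U : C(I, Fib p q)}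
    (hU : ∀ t, U t ∈ unitary (Fib p q)) (x : ZPair p q) {η : ℝ}
    (hx : ∀ s : I, ‖(x : C(I, Fib p q)) s - U s * (x : C(I, Fib p q)) 0 * star (U s)‖ ≤ η)
    (t : I) (Y : Fib 2 3) :
    ‖e.frame U t * small e₀ e₁ Y * star (e.frame U t) *
        (e.u t * along e.ξ (x : C(I, Fib p q)) t * star (e.u t)) -
      e.u t * along e.ξ (x : C(I, Fib p q)) t * star (e.u t) *
        (e.frame U t * small e₀ e₁ Y * star (e.frame U t))‖ ≤ 6 * η * ‖Y‖ := by
  have hη : 0 ≤ η := le_trans (norm_nonneg _) (hx 0)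
  obtain ⟨⟨A, hA⟩, ⟨B, hB⟩⟩ := x.2
  set L : Big p q ((K₀ × K₁)) := small e₀ e₁ Y with hLdef
  set N : Big p q ((K₀ × K₁)) := diag fun _ => (x : C(I, Fib p q)) 0 with hN
  set V := e.u t * along e.ξ U t with hVdef
  set G := e.corr (U 1) t with hGdef
  set W : Big p q ((K₀ × K₁)) := diag fun _ => U t
  have hV : V ∈ unitary (Big p q _) := mul_mem (e.u_mem t) (diag_mem fun _ => hU _)
  have hG : G ∈ unitary (Big p q _) := e.corr_mem (hU 1) t
  have hWu : W ∈ unitary (Big p q _) := diag_mem fun _ => hU t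
  have hconj : e.frame U t * L * star (e.frame U t) = V * (G * L * star G) * star V := by
    show V * G * star W * L * star (V * G * star W) = _
    have hWL : star W * L * W = L := by
      rw [mul_assoc, (small_commute e₀ e₁ Y (U t)).eq, ← mul_assoc,
        Unitary.star_mul_self_of_mem hWu, one_mul]
    rw [star_mul, star_mul, star_star]
    calc V * G * star W * L * (W * (star G * star V))
        = V * (G * (star W * L * W) * star G) * star V := by simp only [mul_assoc]
      _ = _ := by rw [hWL]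
  have hD : ‖e.u t * along e.ξ (x : C(I, Fib p q)) t * star (e.u t) - V * N * star V‖ ≤ η := by
    have he : V * N * star V = e.u t *
        diag (fun i => U (e.ξ i t) * (x : C(I, Fib p q)) 0 * star (U (e.ξ i t))) *
          star (e.u t) := by
      rw [show (fun i => U (e.ξ i t) * (x : C(I, Fib p q)) 0 * star (U (e.ξ i t))) =
        ((fun i => U (e.ξ i t)) * fun _ => (x : C(I, Fib p q)) 0) *
          star (fun i => U (e.ξ i t)) from rfl, map_mul, map_mul, map_star]
      show e.u t * diag (fun i => U (e.ξ i t)) * N *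
        star (e.u t * diag fun i => U (e.ξ i t)) = _
      rw [star_mul]
      simp only [mul_assoc, hN]
    rw [he, ← sub_mul, ← mul_sub, CStarRing.norm_mul_mem_unitary _ (Unitary.star_mem (e.u_mem t)),
      CStarRing.norm_mem_unitary_mul _ (e.u_mem t)]
    show ‖diag _ - diag _‖ ≤ η
    rw [← map_sub (diag (p := p) (q := q) (K := K₀ × K₁))]
    exact (NonUnitalStarAlgHom.norm_apply_le (diag (p := p) (q := q) (K := K₀ × K₁)) _).trans
      ((pi_norm_le_iff_of_nonneg hη).2 fun i => hx _)
  have hGN : ‖G * N - N * G‖ ≤ 2 * η := by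
    set Lp := outerL e.gL t
    set K : Big p q ((K₀ × K₁)) := diag fun _ => U 1 with hK
    set Rp := star (outerR e.gR t) with hRp
    have hLN : star Lp * N = N * star Lp := by
      rw [hN, hA]
      exact (fixL_commute_star A (e.gL (unitInterval.symm t))).eq
    have hKs : diag (fun _ : (K₀ × K₁) => star (U 1)) = star K := diag_star_const (U 1)
    have hGe : G = star Lp * (star K * Rp * K) := by
      show star Lp * (diag (fun _ => star (U 1)) * Rp * K) = _
      rw [hKs]
    set N₁ : Big p q ((K₀ × K₁)) := diag fun _ => (x : C(I, Fib p q)) 1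
    have hRN : Rp * N₁ = N₁ * Rp := by
      have h := (fixR_commute_star (K := K₀ × K₁) B (e.gR t)).eq
      rw [← hB] at h
      exact h
    have hK1 : K ∈ unitary (Big p q _) := diag_mem fun _ => hU 1
    have hR1 : Rp ∈ unitary (Big p q _) := Unitary.star_mem (e.outerR_mem t)
    have hclose : ‖K * N * star K - N₁‖ ≤ η := by
      rw [← hKs, hK, hN, ← map_mul (diag (p := p) (q := q) (K := K₀ × K₁)),
        ← map_mul (diag (p := p) (q := q) (K := K₀ × K₁)), ← map_sub (diag (p := p) (q := q) (K := K₀ × K₁))]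
      refine (NonUnitalStarAlgHom.norm_apply_le (diag (p := p) (q := q) (K := K₀ × K₁)) _).trans
        ((pi_norm_le_iff_of_nonneg hη).2 fun i => ?_)
      show ‖U 1 * (x : C(I, Fib p q)) 0 * star (U 1) - (x : C(I, Fib p q)) 1‖ ≤ η
      rw [norm_sub_rev]
      exact hx 1
    have e1 : G * N - N * G = star Lp * (star K * (Rp * (K * N * star K - N₁) -
        (K * N * star K - N₁) * Rp) * K) := by
      rw [mul_sub Rp, sub_mul _ _ Rp, hRN, sub_sub_sub_cancel_right, hGe, mul_sub, sub_mul, mul_sub]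
      have k1 : N * (star Lp * (star K * Rp * K)) = star Lp * (N * (star K * Rp * K)) := by
        rw [← mul_assoc, ← hLN, mul_assoc]
      rw [k1]
      have s := Unitary.star_mul_self_of_mem hK1
      simp only [mul_assoc]
      rw [s, mul_one, ← mul_assoc (star K) K, s, one_mul]
    rw [e1, CStarRing.norm_mem_unitary_mul _ (Unitary.star_mem (e.outerL_mem t)),
      CStarRing.norm_mul_mem_unitary _ hK1,
      CStarRing.norm_mem_unitary_mul _ (Unitary.star_mem hK1)]
    refine (norm_sub_le _ _).trans ?_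
    rw [CStarRing.norm_mul_mem_unitary _ hR1, CStarRing.norm_mem_unitary_mul _ hR1]
    linarith
  rw [hconj]
  refine (comm_close hV hD (conj_comm_le hG (small_commute e₀ e₁ Y _) hGN)).trans ?_
  have hn : ‖G * L * star G‖ = ‖L‖ := by
    rw [CStarRing.norm_mul_mem_unitary _ (Unitary.star_mem hG),
      CStarRing.norm_mem_unitary_mul _ hG]
  rw [hn]
  have hl : ‖L‖ ≤ ‖Y‖ := NonUnitalStarAlgHom.norm_apply_le (small e₀ e₁) Y
  have := mul_le_mul_of_nonneg_left hl hη
  linarith

variable {P Q : ℕ} (eP : Fin p × K₀ ≃ Fin P) (eQ : Fin q × K₁ ≃ Fin Q)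

/-- The step in the coordinates of the next stage. -/
noncomputable def Ends.uOut : C(I, Fib P Q) :=
  ⟨fun t => coordHom (coordEquiv eP eQ) (e.u t),
    (continuous_hom _).comp e.u.continuous⟩

theorem Ends.uOut_mem (t : I) : e.uOut eP eQ t ∈ unitary (Fib P Q) :=
  coordHom_mem _ (e.u_mem t)

/-- Evaluation along the paths in the coordinates of the next stage. -/
noncomputable def Ends.stepFun : C(I, Fib p q) →⋆ₐ[ℂ] C(I, Fib P Q) :=
  pathHom (e.uOut eP eQ) (e.uOut_mem eP eQ) (coordEquiv eP eQ) e.ξ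

theorem Ends.stepFun_apply (x : C(I, Fib p q)) (t : I) :
    e.stepFun eP eQ x t =
      coordHom (coordEquiv eP eQ) (e.u t * along e.ξ x t * star (e.u t)) := by
  rw [map_mul, map_mul, map_star]
  rfl

theorem Ends.stepFun_mem (x : ZPair p q) :
    e.stepFun eP eQ (x : C(I, Fib p q)) ∈ ZPair P Q := by
  obtain ⟨⟨A, hA⟩, ⟨B, hB⟩⟩ := x.2
  refine ⟨?_, ?_⟩
  · rw [e.stepFun_apply, e.u_zero]
    exact coord_left eP eQ (e.left _ A hA)
  · rw [e.stepFun_apply, e.u_one]
    exact coord_right eP eQ (e.right _ B hB)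

/-- The connecting map. -/
noncomputable def Ends.step :
    ZPair p q →⋆ₐ[ℂ] ZPair P Q :=
  StarAlgHom.codRestrict ((e.stepFun eP eQ).comp (ZPair p q).subtype) _
    (e.stepFun_mem eP eQ)

theorem Ends.frame_unitary {U : C(I, Fib p q)} (hU : ∀ t, U t ∈ unitary (Fib p q)) (t : I) :
    e.frame U t ∈ unitary (Big p q _) :=
  mul_mem (mul_mem (mul_mem (e.u_mem t) (diag_mem fun _ => hU _)) (e.corr_mem (hU 1) t))
    (Unitary.star_mem (diag_mem fun _ => hU t))

/-- Copies of Z(2,3) in the next stage. -/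
theorem Ends.exists_copy {a b : ℕ}
    (e₀ : K₀ ≃ Fin 2 × Fin a) (e₁ : K₁ ≃ Fin 3 × Fin b) (U : C(I, Fib p q))
    (hU : ∀ t, U t ∈ unitary (Fib p q)) (h0 : U 0 = 1) :
    ∃ κ : ZPair 2 3 →⋆ₐ[ℂ] ZPair P Q, ∀ (x : ZPair p q) (y : ZPair 2 3) (η : ℝ),
      (∀ s : I, ‖(x : C(I, Fib p q)) s - U s * (x : C(I, Fib p q)) 0 * star (U s)‖ ≤ η) →
      ‖(κ y : C(I, Fib P Q)) * (e.step eP eQ x : C(I, Fib P Q)) -
        (e.step eP eQ x : C(I, Fib P Q)) * (κ y : C(I, Fib P Q))‖ ≤
          6 * η * ‖(y : C(I, Fib 2 3))‖ := by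
  let R : C(I, Fib P Q) :=
    ⟨fun t => coordHom (coordEquiv eP eQ) (e.frame U t),
      (continuous_hom _).comp (e.frame U).continuous⟩
  have hR : R ∈ unitary C(I, Fib P Q) := by
    rw [Unitary.mem_iff]
    exact ⟨ContinuousMap.ext fun t =>
      Unitary.star_mul_self_of_mem (coordHom_mem _ (e.frame_unitary hU t)),
      ContinuousMap.ext fun t =>
      Unitary.mul_star_self_of_mem (coordHom_mem _ (e.frame_unitary hU t))⟩
  let sm : Fib 2 3 →⋆ₐ[ℂ] Fib P Q := (coordHom (coordEquiv eP eQ)).comp (small e₀ e₁)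
  let Φ : ZPair 2 3 →⋆ₐ[ℂ] C(I, Fib P Q) :=
    (conjBy R hR).comp ((ContinuousMap.compStarAlgHom I sm (continuous_hom sm)).comp
      (ZPair 2 3).subtype)
  have hap : ∀ (y : ZPair 2 3) (t : I), Φ y t = coordHom (coordEquiv eP eQ)
      (e.frame U t * small e₀ e₁ ((y : C(I, Fib 2 3)) t) * star (e.frame U t)) := fun y t => by
    rw [map_mul, map_mul, map_star]
    rfl
  have hmem : ∀ y, Φ y ∈ ZPair P Q := fun y => by
    obtain ⟨⟨A, hA⟩, ⟨B, hB⟩⟩ := y.2
    obtain ⟨F, hF⟩ := coord_left eP eQ (e.frame_zero hU h0)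
    obtain ⟨F', hF'⟩ := coord_right eP eQ (e.frame_one hU)
    obtain ⟨C, hC⟩ := coord_left eP eQ (small_left (p := p) (q := q) e₀ e₁ A)
    obtain ⟨C', hC'⟩ := coord_right eP eQ (small_right (p := p) (q := q) e₀ e₁ B)
    refine ⟨⟨F * C * star F, ?_⟩, ⟨F' * C' * star F', ?_⟩⟩
    · rw [hap, map_mul, map_mul, map_star, hA, hF, hC, ← Matrix.mul_kronecker_mul, one_mul,
        Matrix.star_eq_conjTranspose, Matrix.conjTranspose_kronecker, Matrix.conjTranspose_one,
        ← Matrix.mul_kronecker_mul, one_mul, Matrix.star_eq_conjTranspose]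
    · rw [hap, map_mul, map_mul, map_star, hB, hF', hC', ← Matrix.mul_kronecker_mul, one_mul,
        Matrix.star_eq_conjTranspose, Matrix.conjTranspose_kronecker, Matrix.conjTranspose_one,
        ← Matrix.mul_kronecker_mul, one_mul, Matrix.star_eq_conjTranspose]
  refine ⟨StarAlgHom.codRestrict Φ _ hmem, fun x y η hx => ?_⟩
  have hη : 0 ≤ η := le_trans (norm_nonneg _) (hx 0)
  refine (ContinuousMap.norm_le _ (by positivity)).2 fun t => ?_
  show ‖Φ y t * e.stepFun eP eQ x t - e.stepFun eP eQ x t * Φ y t‖ ≤ _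
  rw [hap, e.stepFun_apply, ← map_mul, ← map_mul, ← map_sub]
  refine (NonUnitalStarAlgHom.norm_apply_le _ _).trans ((e.comm_at e₀ e₁ hU x hx t _).trans ?_)
  exact mul_le_mul_of_nonneg_left (ContinuousMap.norm_coe_le_norm _ t) (by positivity)

theorem Ends.step_contracts :
    StepContracts (e.step eP eQ) := by
  intro v hv
  let w : C(I, Fib P Q) :=
    ⟨fun t => coordHom (coordEquiv eP eQ) (e.u t * along e.ξ v t),
      (continuous_hom _).comp (e.u * along e.ξ v).continuous⟩
  refine ⟨w, fun t => coordHom_mem _ (mul_mem (e.u_mem t) (diag_mem fun i => hv _)),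
    fun x η s t h => ?_⟩
  have hη : 0 ≤ η := le_trans (by simp) (h s s (by simp; positivity))
  have hconj : ∀ t, star (w t) * (e.step eP eQ x : C(I, Fib P Q)) t * w t =
      coordHom (coordEquiv eP eQ) (diag fun i => star (v (e.ξ i t)) *
        (x : C(I, Fib p q)) (e.ξ i t) * v (e.ξ i t)) := fun t => by
    show star (coordHom _ (e.u t * along e.ξ v t)) * e.stepFun eP eQ x t *
      coordHom _ (e.u t * along e.ξ v t) = _
    rw [e.stepFun_apply, ← map_star, ← map_mul, ← map_mul]
    congr 1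
    have hu := Unitary.star_mul_self_of_mem (e.u_mem t)
    rw [star_mul]
    simp only [mul_assoc]
    rw [← mul_assoc (star (e.u t)) (e.u t), hu, one_mul, ← mul_assoc (star (e.u t)) (e.u t),
      hu, one_mul]
    show star (diag _) * (diag _ * diag _) = _
    rw [← map_star (diag (p := p) (q := q) (K := K₀ × K₁)),
      ← map_mul (diag (p := p) (q := q) (K := K₀ × K₁)), ← map_mul (diag (p := p) (q := q) (K := K₀ × K₁))]
    rfl
  rw [hconj, hconj, ← map_sub, ← map_sub]
  refine (NonUnitalStarAlgHom.norm_apply_le _ _).trans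
    ((NonUnitalStarAlgHom.norm_apply_le _ _).trans ((pi_norm_le_iff_of_nonneg hη).2
      fun i => h _ _ ?_))
  exact e.lip i s t

theorem Ends.step_zeros : StepZeros (e.step eP eQ) := by
  intro x t r h hr
  have key := pathHom_eq_zero (e.uOut eP eQ) (e.uOut_mem eP eQ) (coordEquiv eP eQ) e.ξ
    (x := (x : C(I, Fib p q))) (t := t) h
  rcases hr with hr | hr
  · obtain ⟨i, hi⟩ := e.low
    have h2 := key i
    rwa [hi, show lowHalf t = r from Subtype.ext hr.symm] at h2
  · obtain ⟨i, hi⟩ := e.high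
    have h2 := key i
    rwa [hi, show highHalf t = r from Subtype.ext hr.symm] at h2

end Step

theorem injective_of_zeros {p q P Q : ℕ} {φ : ZPair p q →⋆ₐ[ℂ] ZPair P Q} (h : StepZeros φ) :
    Function.Injective φ := by
  intro x y hxy
  set z : ZPair p q := ⟨(x : C(I, Fib p q)) - (y : C(I, Fib p q)), sub_mem x.2 y.2⟩ with hz
  have hzy : z + y = x := Subtype.ext (sub_add_cancel _ _)
  have h1 : φ z = 0 := by
    have h2 := map_add φ z y
    rw [hzy, hxy] at h2
    exact right_eq_add.1 h2
  have h0 : ∀ t : I, (φ z : C(I, Fib P Q)) t = 0 := fun t => by rw [h1]; rfl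
  refine Subtype.ext (sub_eq_zero.1 (ContinuousMap.ext fun r => ?_))
  rcases le_total (r : ℝ) (1 / 2) with h' | h'
  · exact h z ⟨2 * r, by constructor <;> linarith [r.2.1]⟩ r (h0 _) (Or.inl (by simp))
  · exact h z ⟨2 * r - 1, by constructor <;> linarith [r.2.2]⟩ r (h0 _) (Or.inr (by simp))

end Vale.Agent.P101.Bridge.Central
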