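import Vale.Agent.P101.Bridge.ChainStep

/-!
P101 bridge, C: the chain of Jiang and Su. Composites of `j` steps contract by `2^(-j)`, and a zero
of an image forces zeros on a translate of the grid of mesh `2^(-j)`.
-/

namespace Vale.Agent.P101.Bridge

open Vale.Agent.P101.DropN
open scoped Matrix Matrix.Norms.L2Operator Kronecker unitInterval

/-- The dimensions at one stage. -/
structure Stage where
  p : ℕ
  q : ℕ
  two_p : 2 ≤ p
  two_q : 2 ≤ q
  coprime : Nat.Coprime p q

lemma exists_next (s : Stage) : ∃ s' : Stage, ∃ φ : ZPair s.p s.q →⋆ₐ[ℂ] ZPair s'.p s'.q,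
    Function.Injective φ ∧ StepContracts φ ∧ StepZeros φ := by
  obtain ⟨P, Q, hP, hQ, hc, h⟩ := exists_step s.two_p s.two_q s.coprime
  exact ⟨⟨P, Q, hP, hQ, hc⟩, h⟩

/-- The next stage. -/
noncomputable def Stage.next (s : Stage) : Stage := (exists_next s).choose

/-- The connecting map. -/
noncomputable def Stage.hom (s : Stage) : ZPair s.p s.q →⋆ₐ[ℂ] ZPair s.next.p s.next.q :=
  (exists_next s).choose_spec.choose

lemma Stage.hom_spec (s : Stage) :
    Function.Injective s.hom ∧ StepContracts s.hom ∧ StepZeros s.hom :=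
  (exists_next s).choose_spec.choose_spec

/-- The stages. -/
noncomputable def stage : ℕ → Stage
  | 0 => ⟨2, 3, le_refl 2, by norm_num, by norm_num⟩
  | k + 1 => (stage k).next

/-- The chain. -/
noncomputable def jiangSuChain : Chain where
  p k := (stage k).p
  q k := (stage k).q
  two_p k := (stage k).two_p
  two_q k := (stage k).two_q
  coprime k := (stage k).coprime
  φ k := (stage k).hom
  injective k := (stage k).hom_spec.1

lemma chain_contracts (k j : ℕ) : Contracts (jiangSuChain.comp k j) ((1 / 2) ^ j) := by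
  induction j with
  | zero =>
    refine ⟨1, fun t => one_mem _, fun x η δ h s t hst => ?_⟩
    rw [pow_zero, one_mul] at hst
    simpa [Chain.comp] using h s t hst
  | succ j ih =>
    obtain ⟨v, hv, hx⟩ := ih
    obtain ⟨w, hw, hstep⟩ := (stage (k + j)).hom_spec.2.1 v hv
    refine ⟨w, hw, fun x η δ h s t hst => ?_⟩
    refine hstep (jiangSuChain.comp k j x) η s t fun a b hab => hx x η δ h a b ?_
    rw [pow_succ] at hst
    calc (1 / 2 : ℝ) ^ j * dist a b ≤ (1 / 2) ^ j * (dist s t / 2) :=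
          mul_le_mul_of_nonneg_left hab (by positivity)
      _ ≤ δ := by linarith

lemma chain_zeros (k j : ℕ) (x : ZPair (jiangSuChain.p k) (jiangSuChain.q k)) (t : I)
    (h : (jiangSuChain.comp k j x : C(I, Fib (jiangSuChain.p (k + j)) (jiangSuChain.q (k + j)))) t = 0)
    (m : ℕ) (hm : m < 2 ^ j) (r : I)
    (hr : (r : ℝ) = ((t : ℝ) + m) / 2 ^ j) :
    (x : C(I, Fib (jiangSuChain.p k) (jiangSuChain.q k))) r = 0 := by
  induction j generalizing t m with
  | zero =>
    obtain rfl : m = 0 := by simpa using hm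
    have : r = t := Subtype.ext (by simpa using hr)
    subst this
    exact h
  | succ j ih =>
    have hz := (stage (k + j)).hom_spec.2.2 (jiangSuChain.comp k j x) t
    rcases Nat.even_or_odd' m with ⟨m', rfl | rfl⟩
    · refine ih ⟨(t : ℝ) / 2, by constructor <;> linarith [t.2.1, t.2.2]⟩
        (hz _ h (Or.inl rfl)) m' (by rw [pow_succ] at hm; omega) ?_
      rw [hr, pow_succ]; push_cast; field_simp
    · refine ih ⟨((t : ℝ) + 1) / 2, by constructor <;> linarith [t.2.1, t.2.2]⟩
        (hz _ h (Or.inr rfl)) m' (by rw [pow_succ] at hm; omega) ?_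
      rw [hr, pow_succ]; push_cast; field_simp; ring

lemma chain_reaches (k j : ℕ) : Reaches (jiangSuChain.comp k j) ((1 / 2) ^ j) := by
  intro x t h r
  set N : ℕ := 2 ^ j with hN
  have hN1 : 1 ≤ N := Nat.one_le_two_pow
  have hN0 : (0 : ℝ) < N := by exact_mod_cast hN1
  set m := min ⌊(r : ℝ) * N⌋₊ (N - 1) with hm
  have hmN : m + 1 ≤ N := by omega
  have hlo : (m : ℝ) ≤ r * N :=
    le_trans (by exact_mod_cast min_le_left _ _) (Nat.floor_le (mul_nonneg r.2.1 hN0.le))
  have hhi : (r : ℝ) * N ≤ m + 1 := by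
    rcases le_or_gt ⌊(r : ℝ) * N⌋₊ (N - 1) with hle | hgt
    · rw [hm, min_eq_left hle]; exact (Nat.lt_floor_add_one _).le
    · rw [hm, min_eq_right hgt.le, Nat.cast_sub hN1]
      push_cast
      nlinarith [r.2.2]
  have hm1 : (m : ℝ) + 1 ≤ N := by exact_mod_cast hmN
  let r' : I := ⟨((t : ℝ) + m) / N, by
    constructor
    · exact div_nonneg (add_nonneg t.2.1 (Nat.cast_nonneg m)) hN0.le
    · rw [div_le_one hN0]; linarith [t.2.2]⟩
  refine ⟨r', ?_, chain_zeros k j x t h m (by omega) r' (by simp [r', hN])⟩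
  have hr : (1 / 2 : ℝ) ^ j = 1 / N := by rw [hN]; push_cast; rw [div_pow, one_pow]
  rw [hr, Subtype.dist_eq, Real.dist_eq, show ((r' : ℝ)) = ((t : ℝ) + m) / N from rfl,
    show (r : ℝ) - ((t : ℝ) + m) / N = ((r : ℝ) * N - t - m) / N by field_simp; ring,
    abs_div, abs_of_pos hN0]
  refine div_le_div_of_nonneg_right (abs_le.2 ⟨?_, ?_⟩) hN0.le <;> linarith [t.2.1, t.2.2]

theorem chainPin : ChainPin :=
  ⟨jiangSuChain, fun k j => ⟨chain_contracts k j, chain_reaches k j⟩⟩

end Vale.Agent.P101.Bridge
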