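import Vale.Agent.P101.Bridge.Pins

/-!
P101 bridge, C: continuous unitary paths to permutation matrices, and block diagonal sums of two
kinds of blocks seen as a tensor with an identity.
-/

namespace Vale.Agent.P101.Bridge

open scoped Matrix Matrix.Norms.L2Operator Kronecker unitInterval

section Path

variable {Z : Type} [Fintype Z] [DecidableEq Z]

/-- The phase from `1` to `-1`. -/
noncomputable def halfTurn (t : I) : ℂ := Complex.exp (((Real.pi * (t : ℝ) : ℝ) : ℂ) * Complex.I)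

lemma halfTurn_mul_star (t : I) : halfTurn t * star (halfTurn t) = 1 := by
  rw [Complex.star_def, Complex.mul_conj, Complex.normSq_eq_norm_sq, halfTurn,
    Complex.norm_exp_ofReal_mul_I]
  simp

/-- A unitary path from `1` to a symmetry. -/
noncomputable def symPath (S : Matrix Z Z ℂ) : C(I, Matrix Z Z ℂ) :=
  ⟨fun t => 1 + (halfTurn t - 1) • ((2 : ℂ)⁻¹ • (1 - S)), by unfold halfTurn; fun_prop⟩

lemma symPath_zero (S : Matrix Z Z ℂ) : symPath S 0 = 1 := by
  simp [symPath, halfTurn]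

lemma symPath_one (S : Matrix Z Z ℂ) : symPath S 1 = S := by
  have h : halfTurn 1 = -1 := by simp [halfTurn, Complex.exp_pi_mul_I]
  simp only [symPath, ContinuousMap.coe_mk, h]
  module

lemma symPath_unitary {S : Matrix Z Z ℂ} (h1 : S * S = 1) (h2 : star S = S) (t : I) :
    symPath S t ∈ unitary (Matrix Z Z ℂ) := by
  set P : Matrix Z Z ℂ := (2 : ℂ)⁻¹ • (1 - S) with hP
  have hPP : P * P = P := by
    simp only [hP, Matrix.smul_mul, Matrix.mul_smul, sub_mul, mul_sub, one_mul, mul_one, h1]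
    module
  have hPs : star P = P := by
    rw [hP, star_smul, star_sub, star_one, h2]
    simp
  have key : ∀ a b : ℂ, a + b + a * b = 0 → (1 + a • P) * (1 + b • P) = 1 := by
    intro a b hab
    have e : a • P * (b • P) = (a * b) • P := by
      rw [Matrix.smul_mul, Matrix.mul_smul, hPP, smul_smul]
    rw [add_mul, one_mul, mul_add, mul_one, e]
    calc 1 + b • P + (a • P + (a * b) • P) = 1 + (a + b + a * b) • P := by module
      _ = 1 := by rw [hab, zero_smul, add_zero]
  have hs : star (1 + (halfTurn t - 1) • P) = 1 + (star (halfTurn t) - 1) • P := by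
    rw [star_add, star_one, star_smul, hPs, star_sub, star_one]
  have h := halfTurn_mul_star t
  show 1 + (halfTurn t - 1) • P ∈ unitary (Matrix Z Z ℂ)
  rw [Unitary.mem_iff, hs]
  exact ⟨key _ _ (by linear_combination h), key _ _ (by linear_combination h)⟩

lemma exists_permPath (τ₀ : Equiv.Perm Z) :
    ∃ u : C(I, Matrix Z Z ℂ), (∀ t, u t ∈ unitary (Matrix Z Z ℂ)) ∧ u 0 = 1 ∧
      u 1 = τ₀.permMatrix ℂ := by
  induction τ₀ using Equiv.Perm.swap_induction_on with
  | one => exact ⟨1, fun t => one_mem _, rfl, by simp⟩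
  | swap_mul τ x y hxy ih =>
    obtain ⟨u, hu, hu0, hu1⟩ := ih
    have h1 : (Equiv.swap x y).permMatrix ℂ * (Equiv.swap x y).permMatrix ℂ = 1 := by
      rw [← Matrix.permMatrix_mul, Equiv.swap_mul_self, Matrix.permMatrix_one]
    have h2 : star ((Equiv.swap x y).permMatrix ℂ) = (Equiv.swap x y).permMatrix ℂ := by
      rw [Matrix.star_eq_conjTranspose, Matrix.conjTranspose_permMatrix, Equiv.swap_inv]
    refine ⟨u * symPath ((Equiv.swap x y).permMatrix ℂ),
      fun t => mul_mem (hu t) (symPath_unitary h1 h2 t), ?_, ?_⟩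
    · simp [hu0, symPath_zero]
    · simp [hu1, symPath_one, Matrix.permMatrix_mul]

lemma conj_permMatrix {X : Type} (E E' : X ≃ Z) (M : Matrix X X ℂ) :
    Equiv.Perm.permMatrix ℂ (E'.symm.trans E) * Matrix.reindex E E M *
      star (Equiv.Perm.permMatrix ℂ (E'.symm.trans E)) = Matrix.reindex E' E' M := by
  rw [Matrix.star_eq_conjTranspose, Matrix.conjTranspose_permMatrix]
  simp only [Equiv.Perm.permMatrix, PEquiv.toMatrix_toPEquiv_mul, PEquiv.mul_toMatrix_toPEquiv]
  ext i j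
  simp [Equiv.Perm.inv_def]

end Path

section Blocks

variable {X ι : Type} [Fintype X] [DecidableEq X] [Fintype ι] [DecidableEq ι]

/-- `card L` blocks of the form `A ⊗ 1` and `card R` blocks `M` form `C ⊗ 1` when both
multiplicities are divisible by `Q`. -/
lemma exists_tensor_index {L R : Type} [Fintype L] [Fintype R] (ε : ι ≃ L ⊕ R) {a b Q m n : ℕ}
    (χ : X ≃ Fin a × Fin b) (hL : b * Fintype.card L = m * Q) (hR : Fintype.card R = n * Q) :
    ∃ e : X × ι ≃ (Fin a × Fin m ⊕ X × Fin n) × Fin Q,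
      ∀ (A : Matrix (Fin a) (Fin a) ℂ) (M : Matrix X X ℂ) (f : ι → Matrix X X ℂ),
        (∀ l x x', f (ε.symm (Sum.inl l)) x x' =
          if (χ x).2 = (χ x').2 then A (χ x).1 (χ x').1 else 0) →
        (∀ r, f (ε.symm (Sum.inr r)) = M) →
        ∃ C : Matrix (Fin a × Fin m ⊕ X × Fin n) (Fin a × Fin m ⊕ X × Fin n) ℂ, ∀ z z', Matrix.blockDiagonal f z z' =
          if (e z).2 = (e z').2 then C (e z).1 (e z').1 else 0 := by
  classical
  let τ₀ : Fin b × L ≃ Fin m × Fin Q := Fintype.equivOfCardEq (by simp [hL])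
  let ρ : R ≃ Fin n × Fin Q := Fintype.equivOfCardEq (by simp [hR])
  let eL : X × L ≃ (Fin a × Fin m) × Fin Q :=
    ((χ.prodCongr (Equiv.refl L)).trans (Equiv.prodAssoc _ _ _)).trans
      (((Equiv.refl (Fin a)).prodCongr τ₀).trans (Equiv.prodAssoc _ _ _).symm)
  let eR : X × R ≃ (X × Fin n) × Fin Q :=
    ((Equiv.refl X).prodCongr ρ).trans (Equiv.prodAssoc _ _ _).symm
  refine ⟨(((Equiv.refl X).prodCongr ε).trans (Equiv.prodSumDistrib X L R)).trans
    ((eL.sumCongr eR).trans (Equiv.sumProdDistrib _ _ _).symm), fun A M f hfL hfR =>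
    ⟨Matrix.fromBlocks (fun y y' => if y.2 = y'.2 then A y.1 y'.1 else 0) 0 0
      (Matrix.blockDiagonal fun _ => M), ?_⟩⟩
  rintro ⟨x, i⟩ ⟨x', i'⟩
  obtain ⟨s, rfl⟩ := ε.symm.surjective i
  obtain ⟨s', rfl⟩ := ε.symm.surjective i'
  simp only [Matrix.blockDiagonal_apply, EmbeddingLike.apply_eq_iff_eq]
  rcases s with l | r <;> rcases s' with l' | r'
  · simp only [hfL, ← ite_and]
    simp [eL, ← ite_and, Matrix.fromBlocks]
    refine if_congr ?_ rfl rfl
    constructor
    · rintro ⟨rfl, hb⟩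
      rw [hb]; exact ⟨rfl, rfl⟩
    · rintro ⟨h1, h2⟩
      have h := τ₀.injective (Prod.ext h2 h1)
      simp only [Prod.mk.injEq] at h
      exact ⟨h.2, h.1⟩
  · simp [eL, eR, Matrix.fromBlocks]
  · simp [eL, eR, Matrix.fromBlocks]
  · simp [eR, hfR, Matrix.blockDiagonal_apply, ← ite_and, Matrix.fromBlocks]
    refine if_congr ?_ rfl rfl
    constructor
    · rintro rfl
      exact ⟨rfl, rfl⟩
    · rintro ⟨h1, h2⟩
      exact ρ.injective (Prod.ext h2 h1)

lemma reindex_eq_kronecker {Z Y : Type} [Fintype Z] [DecidableEq Z] {P Q : ℕ}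
    (e : Z ≃ Y × Fin Q) (g : Y ≃ Fin P) (M : Matrix Z Z ℂ) (C : Matrix Y Y ℂ)
    (h : ∀ z z', M z z' = if (e z).2 = (e z').2 then C (e z).1 (e z').1 else 0) :
    Matrix.reindex (e.trans (g.prodCongr (Equiv.refl (Fin Q))))
      (e.trans (g.prodCongr (Equiv.refl (Fin Q)))) M =
      Matrix.reindex g g C ⊗ₖ (1 : Matrix (Fin Q) (Fin Q) ℂ) := by
  ext ⟨i, j⟩ ⟨i', j'⟩
  simp [h, Matrix.one_apply]

lemma reindex_eq_kronecker' {Z Y : Type} [Fintype Z] [DecidableEq Z] {P Q : ℕ}
    (e : Z ≃ Y × Fin P) (g : Y ≃ Fin Q) (M : Matrix Z Z ℂ) (C : Matrix Y Y ℂ)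
    (h : ∀ z z', M z z' = if (e z).2 = (e z').2 then C (e z).1 (e z').1 else 0) :
    Matrix.reindex ((e.trans (g.prodCongr (Equiv.refl (Fin P)))).trans (Equiv.prodComm _ _))
      ((e.trans (g.prodCongr (Equiv.refl (Fin P)))).trans (Equiv.prodComm _ _)) M =
      (1 : Matrix (Fin P) (Fin P) ℂ) ⊗ₖ Matrix.reindex g g C := by
  ext ⟨i, j⟩ ⟨i', j'⟩
  simp [h, Matrix.one_apply]

end Blocks

end Vale.Agent.P101.Bridge
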