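import Vale.Agent.P101.Bridge.ChainPath

/-!
P101 bridge, C: one connecting map of Jiang and Su. It evaluates along the paths `t/2`, `1/2`,
(t+1)/2, so it halves distances up to a continuous conjugation, and a zero of an image forces
zeros at both `t/2` and (t+1)/2.
-/

namespace Vale.Agent.P101.Bridge

open Vale.Agent.P101.DropN
open scoped Matrix Matrix.Norms.L2Operator Kronecker unitInterval

/-- A continuous conjugation can be pushed through `φ`, halving distances. -/
def StepContracts {p q P Q : ℕ} (φ : ZPair p q →⋆ₐ[ℂ] ZPair P Q) : Prop :=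
  ∀ v : C(I, Fib p q), (∀ t, v t ∈ unitary (Fib p q)) →
    ∃ w : C(I, Fib P Q), (∀ t, w t ∈ unitary (Fib P Q)) ∧
      ∀ (x : ZPair p q) (η : ℝ) (s t : I),
        (∀ a b : I, dist a b ≤ dist s t / 2 →
          ‖star (v a) * (x : C(I, Fib p q)) a * v a
            - star (v b) * (x : C(I, Fib p q)) b * v b‖ ≤ η) →
        ‖star (w s) * (φ x : C(I, Fib P Q)) s * w s
          - star (w t) * (φ x : C(I, Fib P Q)) t * w t‖ ≤ η

/-- A zero of `φ x` at `t` forces zeros of `x` at `t/2` and (t+1)/2. -/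
def StepZeros {p q P Q : ℕ} (φ : ZPair p q →⋆ₐ[ℂ] ZPair P Q) : Prop :=
  ∀ (x : ZPair p q) (t r : I), (φ x : C(I, Fib P Q)) t = 0 →
    ((r : ℝ) = (t : ℝ) / 2 ∨ (r : ℝ) = ((t : ℝ) + 1) / 2) → (x : C(I, Fib p q)) r = 0

/-- `t ↦ t/2`. -/
noncomputable def lowHalf : C(I, I) :=
  ⟨fun t => ⟨(t : ℝ) / 2, by constructor <;> linarith [t.2.1, t.2.2]⟩, by fun_prop⟩

/-- `t ↦ (t+1)/2`. -/
noncomputable def highHalf : C(I, I) :=
  ⟨fun t => ⟨((t : ℝ) + 1) / 2, by constructor <;> linarith [t.2.1, t.2.2]⟩, by fun_prop⟩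

/-- The midpoint. -/
noncomputable def midPoint : I := ⟨1 / 2, by constructor <;> norm_num⟩

section Block

variable {X ι Z : Type} [Fintype X] [DecidableEq X] [Fintype ι] [DecidableEq ι] [Fintype Z]
  [DecidableEq Z]

/-- The block diagonal sum in fixed coordinates. -/
noncomputable def blockHom (E : X × ι ≃ Z) : (ι → Matrix X X ℂ) →⋆ₐ[ℂ] Matrix Z Z ℂ where
  toFun f := Matrix.reindex E E (Matrix.blockDiagonal f)
  map_one' := by simp [Matrix.blockDiagonal_one]
  map_mul' f g := by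
    simp only [Matrix.reindex_apply, Pi.mul_def, Matrix.blockDiagonal_mul,
      Matrix.submatrix_mul_equiv]
  map_zero' := by simp [Matrix.blockDiagonal_zero]
  map_add' f g := by simp [Matrix.blockDiagonal_add]; rfl
  commutes' r := by
    ext i j
    obtain ⟨⟨a, k⟩, rfl⟩ := E.surjective i
    obtain ⟨⟨a', k'⟩, rfl⟩ := E.surjective j
    simp only [Matrix.reindex_apply, Matrix.submatrix_apply, Equiv.symm_apply_apply,
      Matrix.blockDiagonal_apply, Matrix.algebraMap_matrix_apply, Pi.algebraMap_apply,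
      E.injective.eq_iff, Prod.mk.injEq]
    split_ifs <;> simp_all
  map_star' f := by
    simp only [Matrix.reindex_apply, Matrix.star_eq_conjTranspose, Matrix.conjTranspose_submatrix,
      Matrix.blockDiagonal_conjTranspose]
    rfl

lemma blockHom_apply (E : X × ι ≃ Z) (f : ι → Matrix X X ℂ) :
    blockHom E f = Matrix.reindex E E (Matrix.blockDiagonal f) := rfl

lemma blockHom_injective (E : X × ι ≃ Z) : Function.Injective (blockHom E) :=
  fun f g h => Matrix.blockDiagonal_injective ((Matrix.reindex E E).injective h)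

lemma blockHom_continuous (E : X × ι ≃ Z) : Continuous (blockHom E) :=
  AddMonoidHomClass.continuous_of_bound (blockHom E) 1 fun f => by
    rw [one_mul]; exact NonUnitalStarAlgHom.norm_apply_le (blockHom E) f

variable (u : C(I, Matrix Z Z ℂ)) (hu : ∀ t, u t ∈ unitary (Matrix Z Z ℂ)) (E : X × ι ≃ Z)
  (ξ : ι → C(I, I))

/-- Evaluation along the paths, conjugated. -/
noncomputable def pathHom : C(I, Matrix X X ℂ) →⋆ₐ[ℂ] C(I, Matrix Z Z ℂ) where
  toFun x := ⟨fun t => u t * blockHom E (fun i => x (ξ i t)) * star (u t),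
    (u.continuous.mul ((blockHom_continuous E).comp (by fun_prop))).mul u.continuous.star⟩
  map_one' := by
    ext1 t
    simp only [ContinuousMap.coe_mk, ContinuousMap.one_apply]
    rw [show (fun _ : ι => (1 : Matrix X X ℂ)) = 1 from rfl, map_one, mul_one,
      Unitary.mul_star_self_of_mem (hu t)]
  map_mul' x y := by
    ext1 t
    simp only [ContinuousMap.coe_mk, ContinuousMap.mul_apply]
    rw [show (fun i => x (ξ i t) * y (ξ i t)) = (fun i => x (ξ i t)) * fun i => y (ξ i t) from rfl,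
      map_mul]
    simp only [mul_assoc]
    rw [← mul_assoc (star (u t)) (u t), Unitary.star_mul_self_of_mem (hu t), one_mul]
  map_zero' := by
    ext1 t
    simp only [ContinuousMap.coe_mk, ContinuousMap.zero_apply]
    rw [show (fun _ : ι => (0 : Matrix X X ℂ)) = 0 from rfl, map_zero, mul_zero, zero_mul]
  map_add' x y := by
    ext1 t
    simp only [ContinuousMap.coe_mk, ContinuousMap.add_apply]
    rw [show (fun i => x (ξ i t) + y (ξ i t)) = (fun i => x (ξ i t)) + fun i => y (ξ i t) from rfl,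
      map_add, mul_add, add_mul]
  commutes' r := by
    ext1 t
    simp only [ContinuousMap.coe_mk, Algebra.algebraMap_eq_smul_one, ContinuousMap.smul_apply,
      ContinuousMap.one_apply]
    rw [show (fun _ : ι => r • (1 : Matrix X X ℂ)) = r • 1 from rfl, map_smul, map_one,
      mul_smul_comm, smul_mul_assoc, mul_one, Unitary.mul_star_self_of_mem (hu t)]
  map_star' x := by
    ext1 t
    simp only [ContinuousMap.coe_mk, ContinuousMap.star_apply, star_mul, star_star, ← map_star,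
      mul_assoc]
    rfl

lemma pathHom_apply (x : C(I, Matrix X X ℂ)) (t : I) :
    pathHom u hu E ξ x t = u t * blockHom E (fun i => x (ξ i t)) * star (u t) := rfl

lemma star_mul_pathHom_mul (x : C(I, Matrix X X ℂ)) (t : I) :
    star (u t) * pathHom u hu E ξ x t * u t = blockHom E (fun i => x (ξ i t)) := by
  have h := Unitary.star_mul_self_of_mem (hu t)
  rw [pathHom_apply]
  simp only [mul_assoc, h, mul_one]
  rw [← mul_assoc, h, one_mul]

lemma pathHom_eq_zero {x : C(I, Matrix X X ℂ)} {t : I} (h : pathHom u hu E ξ x t = 0) (i : ι) :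
    x (ξ i t) = 0 := by
  have h2 := star_mul_pathHom_mul u hu E ξ x t
  rw [h, mul_zero, zero_mul] at h2
  exact congrFun (blockHom_injective E (h2.symm.trans (map_zero _).symm)) i

end Block

/-- One step of the chain. -/
theorem exists_step {p q : ℕ} (hp : 2 ≤ p) (hq : 2 ≤ q) (hpq : Nat.Coprime p q) :
    ∃ P Q : ℕ, 2 ≤ P ∧ 2 ≤ Q ∧ Nat.Coprime P Q ∧ ∃ φ : ZPair p q →⋆ₐ[ℂ] ZPair P Q,
      Function.Injective φ ∧ StepContracts φ ∧ StepZeros φ := by
  obtain ⟨k₀, hk₀, hk₀'⟩ := Nat.exists_infinite_primes (2 * (p + q) + 1)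
  obtain ⟨k₁, hk₁, hk₁'⟩ := Nat.exists_infinite_primes (k₀ + 1)
  have cq : Nat.Coprime k₀ q :=
    hk₀'.coprime_iff_not_dvd.2 fun h => absurd (Nat.le_of_dvd (by omega) h) (by omega)
  have cp : Nat.Coprime k₁ p :=
    hk₁'.coprime_iff_not_dvd.2 fun h => absurd (Nat.le_of_dvd (by omega) h) (by omega)
  have ck : Nat.Coprime k₀ k₁ := (Nat.coprime_primes hk₀' hk₁').2 (by omega)
  have cPQ : Nat.Coprime (p * k₀) (q * k₁) :=
    Nat.Coprime.mul_left (Nat.Coprime.mul_right hpq cp.symm) (Nat.Coprime.mul_right cq ck)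
  obtain ⟨c₀, hc₀, hc₀q, hd₀⟩ : ∃ c, 0 < c ∧ c < q ∧ c + q * (k₀ / q) = k₀ := by
    refine ⟨k₀ % q, Nat.pos_of_ne_zero fun h => ?_, Nat.mod_lt _ (by omega), Nat.mod_add_div _ _⟩
    exact absurd (Nat.dvd_gcd (Nat.dvd_of_mod_eq_zero h) dvd_rfl) (by
      rw [cq.gcd_eq_one]; intro h2; have := Nat.le_of_dvd one_pos h2; omega)
  obtain ⟨c₁, hc₁, hc₁p, hd₁⟩ : ∃ c, 0 < c ∧ c < p ∧ c + p * (k₁ / p) = k₁ := by
    refine ⟨k₁ % p, Nat.pos_of_ne_zero fun h => ?_, Nat.mod_lt _ (by omega), Nat.mod_add_div _ _⟩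
    exact absurd (Nat.dvd_gcd (Nat.dvd_of_mod_eq_zero h) dvd_rfl) (by
      rw [cp.gcd_eq_one]; intro h2; have := Nat.le_of_dvd one_pos h2; omega)
  set n₀ := k₀ / q
  set n₁ := k₁ / p
  set r₀ := k₁ * c₀ with hr₀
  set r₁ := k₀ * c₁ with hr₁
  have hsum : r₀ + r₁ ≤ k₀ * k₁ := by nlinarith
  obtain ⟨r₂, hr₂⟩ := Nat.exists_eq_add_of_le hsum
  have h₀ : r₀ + n₀ * (q * k₁) = k₀ * k₁ := by rw [hr₀, ← hd₀]; ring
  have h₁ : r₁ + n₁ * (p * k₀) = k₀ * k₁ := by rw [hr₁, ← hd₁]; ring
  let ι : Type := Fin r₀ ⊕ (Fin r₁ ⊕ Fin r₂)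
  let ξ : ι → C(I, I) :=
    Sum.elim (fun _ => lowHalf) (Sum.elim (fun _ => highHalf) fun _ => ContinuousMap.const I midPoint)
  let X : Type := Fin p × Fin q
  obtain ⟨e₀, he₀⟩ := exists_tensor_index (X := X) (Equiv.refl ι)
    (Equiv.refl (Fin p × Fin q)) (m := c₀) (n := n₀) (Q := q * k₁)
    (by rw [Fintype.card_fin, hr₀]; ring)
    (by rw [Fintype.card_sum, Fintype.card_fin, Fintype.card_fin]; omega)
  let ε₁ : ι ≃ Fin r₁ ⊕ (Fin r₀ ⊕ Fin r₂) :=
    ((Equiv.sumAssoc _ _ _).symm.trans ((Equiv.sumComm _ _).sumCongr (Equiv.refl _))).trans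
      (Equiv.sumAssoc _ _ _)
  obtain ⟨e₁, he₁⟩ := exists_tensor_index (X := X) ε₁
    (Equiv.prodComm (Fin p) (Fin q)) (m := c₁) (n := n₁) (Q := p * k₀)
    (by rw [Fintype.card_fin, hr₁]; ring)
    (by rw [Fintype.card_sum, Fintype.card_fin, Fintype.card_fin]; omega)
  have hY₀ : p * c₀ + p * q * n₀ = p * k₀ := by rw [← hd₀]; ring
  have hY₁ : q * c₁ + p * q * n₁ = q * k₁ := by rw [← hd₁]; ring
  let g₀ : Fin p × Fin c₀ ⊕ X × Fin n₀ ≃ Fin (p * k₀) :=
    Fintype.equivOfCardEq (by simp only [Fintype.card_sum, Fintype.card_prod, Fintype.card_fin, X, hY₀])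
  let g₁ : Fin q × Fin c₁ ⊕ X × Fin n₁ ≃ Fin (q * k₁) :=
    Fintype.equivOfCardEq (by simp only [Fintype.card_sum, Fintype.card_prod, Fintype.card_fin, X, hY₁])
  let E₀ := e₀.trans (g₀.prodCongr (Equiv.refl (Fin (q * k₁))))
  let E₁ := (e₁.trans (g₁.prodCongr (Equiv.refl (Fin (p * k₀))))).trans (Equiv.prodComm _ _)
  obtain ⟨u, hu, hu0, hu1⟩ := exists_permPath (E₁.symm.trans E₀)
  let Φ := (pathHom u hu E₀ ξ).comp (ZPair p q).subtype
  have hΦ : ∀ x, Φ x ∈ ZPair (p * k₀) (q * k₁) := by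
    rintro ⟨x, ⟨a, ha⟩, ⟨b, hb⟩⟩
    refine ⟨?_, ?_⟩
    · obtain ⟨C, hC⟩ := he₀ a (x midPoint) (fun i => x (ξ i 0))
        (fun l y y' => by
          show x (lowHalf 0) y y' = _
          rw [show lowHalf 0 = (0 : I) from Subtype.ext (by simp [lowHalf]), ha]
          simp [Matrix.one_apply]; rfl)
        (fun r => by
          rcases r with r | r
          · show x (highHalf 0) = x midPoint
            congr 1; exact Subtype.ext (by simp [highHalf, midPoint])
          · rfl)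
      exact ⟨_, by
        show pathHom u hu E₀ ξ x 0 = _
        rw [pathHom_apply, hu0, one_mul, star_one, mul_one, blockHom_apply]
        exact reindex_eq_kronecker e₀ g₀ _ C hC⟩
    · obtain ⟨C, hC⟩ := he₁ b (x midPoint) (fun i => x (ξ i 1))
        (fun l y y' => by
          show x (highHalf 1) y y' = _
          rw [show highHalf 1 = (1 : I) from Subtype.ext (by simp [highHalf]), hb]
          simp [Matrix.one_apply]; rfl)
        (fun r => by
          rcases r with r | r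
          · show x (lowHalf 1) = x midPoint
            congr 1
          · rfl)
      exact ⟨_, by
        show pathHom u hu E₀ ξ x 1 = _
        rw [pathHom_apply, hu1, blockHom_apply, conj_permMatrix E₀ E₁]
        exact reindex_eq_kronecker' e₁ g₁ _ C hC⟩
  have hp2 : 2 ≤ p * k₀ := le_trans hp (Nat.le_mul_of_pos_right p (by omega))
  have hq2 : 2 ≤ q * k₁ := le_trans hq (Nat.le_mul_of_pos_right q (by omega))
  let φ : ZPair p q →⋆ₐ[ℂ] ZPair (p * k₀) (q * k₁) := StarAlgHom.codRestrict Φ _ hΦ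
  have hzero : StepZeros φ := by
    intro x t r h hr
    have key := pathHom_eq_zero u hu E₀ ξ (x := (x : C(I, Fib p q))) (t := t) h
    rcases hr with hr | hr
    · have h1 : r = lowHalf t := Subtype.ext hr
      have hr0 : 0 < r₀ := Nat.mul_pos (by omega) hc₀
      rw [h1]; exact key (Sum.inl ⟨0, hr0⟩)
    · have h1 : r = highHalf t := Subtype.ext hr
      have hr1 : 0 < r₁ := Nat.mul_pos (by omega) hc₁
      rw [h1]; exact key (Sum.inr (Sum.inl ⟨0, hr1⟩))
  have hinj : Function.Injective φ := by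
    intro x y hxy
    have h0 : pathHom u hu E₀ ξ ((x : C(I, Fib p q)) - (y : C(I, Fib p q))) = 0 := by
      rw [map_sub, sub_eq_zero]
      exact congrArg Subtype.val hxy
    refine Subtype.ext (sub_eq_zero.1 (ContinuousMap.ext fun r => ?_))
    have key : ∀ (t : I) i, ((x : C(I, Fib p q)) - (y : C(I, Fib p q))) (ξ i t) = 0 := fun t i =>
      pathHom_eq_zero u hu E₀ ξ (by rw [h0]; rfl) i
    rcases le_total (r : ℝ) (1 / 2) with h' | h'
    · have hr0 : 0 < r₀ := Nat.mul_pos (by omega) hc₀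
      have h1 : r = lowHalf ⟨2 * r, by constructor <;> linarith [r.2.1]⟩ :=
        Subtype.ext (by simp [lowHalf])
      rw [h1]; exact key _ (Sum.inl ⟨0, hr0⟩)
    · have hr1 : 0 < r₁ := Nat.mul_pos (by omega) hc₁
      have h1 : r = highHalf ⟨2 * r - 1, by constructor <;> linarith [r.2.2]⟩ :=
        Subtype.ext (by simp [highHalf])
      rw [h1]; exact key _ (Sum.inr (Sum.inl ⟨0, hr1⟩))
  refine ⟨p * k₀, q * k₁, hp2, hq2, cPQ, φ, hinj, ?_, hzero⟩
  intro v hv
  let w : C(I, Fib (p * k₀) (q * k₁)) :=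
    ⟨fun t => u t * blockHom E₀ (fun i => v (ξ i t)),
      u.continuous.mul ((blockHom_continuous E₀).comp (by fun_prop))⟩
  have hw : ∀ t, w t ∈ unitary (Fib (p * k₀) (q * k₁)) := fun t => by
    refine mul_mem (hu t) (Unitary.map_mem (blockHom E₀) ?_)
    rw [Unitary.mem_iff]
    exact ⟨funext fun i => Unitary.star_mul_self_of_mem (hv _),
      funext fun i => Unitary.mul_star_self_of_mem (hv _)⟩
  refine ⟨w, hw, fun x η s t h => ?_⟩
  have hη : 0 ≤ η := le_trans (by simp) (h s s (by simp; positivity))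
  have hconj : ∀ t, star (w t) * (φ x : C(I, Fib (p * k₀) (q * k₁))) t * w t =
      blockHom E₀ (fun i => star (v (ξ i t)) * (x : C(I, Fib p q)) (ξ i t) * v (ξ i t)) := by
    intro t
    have h2 := star_mul_pathHom_mul u hu E₀ ξ (x : C(I, Fib p q)) t
    show star (u t * blockHom E₀ (fun i => v (ξ i t))) * pathHom u hu E₀ ξ x t *
      (u t * blockHom E₀ (fun i => v (ξ i t))) = _
    simp only [star_mul, mul_assoc] at h2 ⊢
    rw [← mul_assoc (pathHom u hu E₀ ξ _ t), ← mul_assoc (star (u t)), h2, ← map_star, ← map_mul,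
      ← map_mul]
    rfl
  rw [hconj, hconj, ← map_sub]
  refine (NonUnitalStarAlgHom.norm_apply_le (blockHom E₀) _).trans ((pi_norm_le_iff_of_nonneg hη).2
    fun i => h _ _ ?_)
  rw [Subtype.dist_eq, Subtype.dist_eq, Real.dist_eq, Real.dist_eq]
  rcases i with i | i | i <;> simp [ξ, lowHalf, highHalf, ← sub_div, abs_div]
  positivity

end Vale.Agent.P101.Bridge
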