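import Vale.Agent.P101.Bridge.Pins

/-!
P101 bridge, E: one-sided approximate intertwining. An injective unital map `ι : A → B` of separable
algebras, whose image can be reached from any finite subset of `B` by unitaries almost commuting
with prescribed elements of `ι A`, is unitarily conjugate to an isomorphism in the limit.
-/

namespace Vale.Agent.P101.Bridge

open Filter
open scoped Topology

section Conj

variable {B : Type} [CStarAlgebra B]

lemma norm_conj_sub_le {u : B} (hu : u ∈ unitary B) (z : B) :
    ‖u * z * star u - z‖ ≤ ‖u * z - z * u‖ := by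
  have h : u * z * star u - z = (u * z - z * u) * star u := by
    rw [sub_mul, mul_assoc z, Unitary.mul_star_self_of_mem hu, mul_one]
  rw [h, CStarRing.norm_mul_mem_unitary _ (Unitary.star_mem hu)]

lemma norm_conj {u : B} (hu : u ∈ unitary B) (z : B) : ‖u * z * star u‖ = ‖z‖ := by
  rw [CStarRing.norm_mul_mem_unitary _ (Unitary.star_mem hu), CStarRing.norm_mem_unitary_mul _ hu]

end Conj

theorem intertwinePin : IntertwinePin := by
  intro A B _ _ _ _ ι hι H
  have hε : ∀ n : ℕ, (0 : ℝ) < (1 / 2) ^ n := fun n => by positivity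
  choose u hu hcomm c hc using fun K F n => H K F _ (hε n)
  classical
  -- approximants as a total function
  let c' : Finset A → Finset B → ℕ → B → A := fun K F n b =>
    if hb : b ∈ F then c K F n b hb else 0
  have hc' : ∀ K F n, ∀ b ∈ F, ‖star (u K F n) * b * u K F n - ι (c' K F n b)‖ ≤ (1 / 2) ^ n :=
    fun K F n b hb => by simpa only [c', dif_pos hb] using hc K F n b hb
  let da := TopologicalSpace.denseSeq A
  let db := TopologicalSpace.denseSeq B
  let FF : ℕ → B → Finset B := fun n v =>
    (Finset.range (n + 1)).image fun j => star v * db j * v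
  let KK : ℕ → Finset A → Finset A := fun n K => K ∪ (Finset.range (n + 1)).image da
  let st : ℕ → B × Finset A := fun n => Nat.rec ((1 : B), (∅ : Finset A))
    (fun n s => (s.1 * u (KK n s.2) (FF n s.1) n,
      KK n s.2 ∪ (FF n s.1).image (c' (KK n s.2) (FF n s.1) n))) n
  let v : ℕ → B := fun n => (st n).1
  let K : ℕ → Finset A := fun n => (st n).2
  let step : ℕ → B := fun n => u (KK n (K n)) (FF n (v n)) n
  have hv : ∀ n, v (n + 1) = v n * step n := fun n => rfl
  have hK : ∀ n, K (n + 1) = KK n (K n) ∪
      (FF n (v n)).image (c' (KK n (K n)) (FF n (v n)) n) := fun n => rfl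
  have hstep : ∀ n, step n ∈ unitary B := fun n => hu _ _ _
  have hvu : ∀ n, v n ∈ unitary B := by
    intro n
    induction n with
    | zero => exact one_mem _
    | succ n ih => rw [hv]; exact mul_mem ih (hstep n)
  have hKmono : ∀ m n, m ≤ n → K m ⊆ K n := by
    intro m n hmn
    induction hmn with
    | refl => exact Finset.Subset.refl _
    | step _ ih =>
      refine ih.trans ?_
      rw [Nat.succ_eq_add_one, hK]
      exact Finset.subset_union_left.trans Finset.subset_union_left
  let θ : ℕ → A → B := fun n a => v n * ι a * star (v n)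
  have hθ : ∀ n a, θ n a = v n * ι a * star (v n) := fun _ _ => rfl
  have hiso : ∀ n a, ‖θ n a‖ = ‖a‖ := fun n a => by
    rw [hθ, norm_conj (hvu n), NonUnitalStarAlgHom.norm_map ι hι]
  have hlin : ∀ n a b, θ n a - θ n b = θ n (a - b) := fun n a b => by
    simp only [hθ, map_sub, mul_sub, sub_mul]
  -- a stationary element moves by at most the summable errors
  have hmove : ∀ N n, N ≤ n → ∀ a ∈ K N, ‖θ (n + 1) a - θ n a‖ ≤ (1 / 2) ^ n := by
    intro N n hn a ha
    have ha' : a ∈ KK n (K n) := Finset.mem_union_left _ (hKmono N n hn ha)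
    have he : θ (n + 1) a - θ n a = v n * (step n * ι a * star (step n) - ι a) * star (v n) := by
      simp only [hθ, hv, star_mul, mul_sub, sub_mul, mul_assoc]
    rw [he, norm_conj (hvu n)]
    exact (norm_conj_sub_le (hstep n) _).trans (hcomm _ _ n a ha')
  have hfar : ∀ N n, N ≤ n → ∀ a ∈ K N, ‖θ n a - θ N a‖ ≤ 2 * (1 / 2) ^ N - 2 * (1 / 2) ^ n := by
    intro N n hn a ha
    induction hn with
    | refl => simp
    | @step m hm ih =>
      have h1 := hmove N m hm a ha
      have h2 := norm_sub_le_norm_sub_add_norm_sub (θ (m + 1) a) (θ m a) (θ N a)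
      rw [Nat.succ_eq_add_one, pow_succ]
      linarith
  have hcau : ∀ a, CauchySeq fun n => θ n a := by
    intro a
    rw [Metric.cauchySeq_iff']
    intro ε hε'
    obtain ⟨_, ⟨j, rfl⟩, hj⟩ : ∃ b ∈ Set.range da, dist a b < ε / 8 :=
      Metric.mem_closure_iff.1 (TopologicalSpace.denseRange_denseSeq A a) _ (by positivity)
    obtain ⟨M, hM⟩ := exists_pow_lt_of_lt_one (show (0 : ℝ) < ε / 8 by positivity)
      (show (1 / 2 : ℝ) < 1 by norm_num)
    refine ⟨max M (j + 1), fun n hn => ?_⟩
    have hjK : da j ∈ K (max M (j + 1)) := by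
      refine hKmono (j + 1) _ (le_max_right _ _) ?_
      rw [hK]
      exact Finset.mem_union_left _ (Finset.mem_union_right _
        (Finset.mem_image_of_mem _ (Finset.self_mem_range_succ j)))
    have h1 := hfar _ n hn _ hjK
    have h2 : (1 / 2 : ℝ) ^ max M (j + 1) < ε / 8 :=
      lt_of_le_of_lt (pow_le_pow_of_le_one (by norm_num) (by norm_num) (le_max_left _ _)) hM
    have h3 : ∀ m, ‖θ m a - θ m (da j)‖ < ε / 8 := fun m => by
      rw [hlin, hiso, ← dist_eq_norm]; exact hj
    have h4 := h3 n
    have h5 := h3 (max M (j + 1))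
    have h6 : (0 : ℝ) ≤ (1 / 2) ^ n := by positivity
    set N := max M (j + 1)
    have h7 := norm_sub_le_norm_sub_add_norm_sub (θ n a) (θ n (da j)) (θ N a)
    have h8 := norm_sub_le_norm_sub_add_norm_sub (θ n (da j)) (θ N (da j)) (θ N a)
    rw [norm_sub_rev] at h5
    rw [dist_eq_norm]
    linarith
  choose Θ hΘ using fun a => cauchySeq_tendsto_of_complete (hcau a)
  have hu1 : ∀ n, star (v n) * v n = 1 := fun n => Unitary.star_mul_self_of_mem (hvu n)
  have hu2 : ∀ n, v n * star (v n) = 1 := fun n => Unitary.mul_star_self_of_mem (hvu n)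
  let Φ : A →⋆ₐ[ℂ] B :=
    { toFun := Θ
      map_one' := tendsto_nhds_unique (hΘ 1)
        (tendsto_const_nhds.congr fun n => by simp [hθ, hu2])
      map_mul' := fun a b => tendsto_nhds_unique (hΘ (a * b))
        (((hΘ a).mul (hΘ b)).congr fun n => by
          simp only [hθ, map_mul, mul_assoc]
          rw [← mul_assoc (star (v n)) (v n), hu1, one_mul])
      map_zero' := tendsto_nhds_unique (hΘ 0)
        (tendsto_const_nhds.congr fun n => by simp [hθ])
      map_add' := fun a b => tendsto_nhds_unique (hΘ (a + b))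
        (((hΘ a).add (hΘ b)).congr fun n => by simp [hθ, map_add, mul_add, add_mul])
      commutes' := fun r => tendsto_nhds_unique (hΘ _)
        (tendsto_const_nhds.congr fun n => by
          rw [hθ, AlgHomClass.commutes, ← Algebra.commutes r (v n), mul_assoc, hu2, mul_one])
      map_star' := fun a => tendsto_nhds_unique (hΘ (star a))
        ((hΘ a).star.congr fun n => by simp [hθ, map_star, mul_assoc]) }
  have hΦ : ∀ a, Tendsto (fun n => θ n a) atTop (𝓝 (Φ a)) := hΘ
  have hΦnorm : ∀ a, ‖Φ a‖ = ‖a‖ := fun a =>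
    tendsto_nhds_unique (hΦ a).norm (tendsto_const_nhds.congr fun n => (hiso n a).symm)
  have hΦiso : Isometry Φ := AddMonoidHomClass.isometry_of_norm Φ hΦnorm
  have hclosed : IsClosed (Set.range Φ) := hΦiso.isClosedEmbedding.isClosed_range
  have hdb : ∀ j, db j ∈ closure (Set.range Φ) := by
    intro j
    refine Metric.mem_closure_iff.2 fun ε hε' => ?_
    obtain ⟨M, hM⟩ := exists_pow_lt_of_lt_one (show (0 : ℝ) < ε / 4 by positivity)
      (show (1 / 2 : ℝ) < 1 by norm_num)
    set n := max M j with hn
    have hb : star (v n) * db j * v n ∈ FF n (v n) :=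
      Finset.mem_image_of_mem _ (Finset.mem_range.2 (by omega))
    set a := c' (KK n (K n)) (FF n (v n)) n (star (v n) * db j * v n) with ha
    have haK : a ∈ K (n + 1) := by
      rw [hK]; exact Finset.mem_union_right _ (Finset.mem_image_of_mem _ hb)
    have h1 : ‖db j - θ (n + 1) a‖ ≤ (1 / 2) ^ n := by
      have h := hc' (KK n (K n)) (FF n (v n)) n _ hb
      have he : star (v (n + 1)) * (db j - θ (n + 1) a) * v (n + 1) =
          star (step n) * (star (v n) * db j * v n) * step n - ι a := by
        show star (v (n + 1)) * (db j - v (n + 1) * ι a * star (v (n + 1))) * v (n + 1) = _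
        rw [mul_sub, sub_mul]
        congr 1
        · simp [hv, mul_assoc]
        · simp only [mul_assoc]
          have hu3 : star (v (n + 1)) * v (n + 1) = 1 := hu1 (n + 1)
          rw [← mul_assoc (star (v (n + 1))) (v (n + 1)), hu3, one_mul, mul_one]
      rw [← norm_conj (Unitary.star_mem (hvu (n + 1))) (db j - θ (n + 1) a), star_star, he]
      exact h
    have h2 : ‖θ (n + 1) a - Φ a‖ ≤ 2 * (1 / 2) ^ (n + 1) := by
      refine le_of_tendsto ((tendsto_const_nhds.sub (hΦ a)).norm) ?_
      filter_upwards [eventually_ge_atTop (n + 1)] with m hm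
      rw [norm_sub_rev]
      refine (hfar _ m hm a haK).trans ?_
      have : (0 : ℝ) ≤ (1 / 2) ^ m := by positivity
      linarith
    refine ⟨Φ a, ⟨a, rfl⟩, ?_⟩
    have h3 : (1 / 2 : ℝ) ^ n < ε / 4 :=
      lt_of_le_of_lt (pow_le_pow_of_le_one (by norm_num) (by norm_num) (le_max_left _ _)) hM
    rw [pow_succ] at h2
    rw [dist_eq_norm]
    linarith [norm_sub_le_norm_sub_add_norm_sub (db j) (θ (n + 1) a) (Φ a)]
  have hsur : Function.Surjective Φ := by
    intro b
    have h : b ∈ closure (Set.range Φ) :=
      closure_minimal (by rintro _ ⟨j, rfl⟩; exact hdb j) isClosed_closure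
        (TopologicalSpace.denseRange_denseSeq B b)
    rwa [hclosed.closure_eq] at h
  exact ⟨StarAlgEquiv.ofBijective Φ ⟨hΦiso.injective, hsur⟩⟩

end Vale.Agent.P101.Bridge
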