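import Vale.Agent.P101.Quotient
import Mathlib.Analysis.CStarAlgebra.lpSpace
import Mathlib.Analysis.CStarAlgebra.ContinuousMap

/-!
P101 bridge, block L: bounded sequences in varying C*-algebras modulo those tending to zero.
-/

namespace Vale.Agent.P101.Bridge

open Filter
open scoped Topology ENNReal

variable (X : ℕ → Type) [∀ n, CStarAlgebra (X n)] [∀ n, Nontrivial (X n)]

noncomputable instance seqCStarAlgebra : CStarAlgebra (lp X ∞) where

/-- The sequences tending to zero in norm. -/
noncomputable def c0 : Ideal (lp X ∞) where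
  carrier := {f | Tendsto (fun n => ‖f n‖) atTop (𝓝 0)}
  add_mem' {f g} hf hg :=
    squeeze_zero (fun n => norm_nonneg _) (fun n => by simpa using norm_add_le (f n) (g n))
      (by simpa using hf.add hg)
  zero_mem' := by simp
  smul_mem' c f hf := by
    refine squeeze_zero (fun n => norm_nonneg _) (fun n => ?_)
      (by simpa using hf.const_mul ‖c‖)
    exact (norm_mul_le _ _).trans
      (mul_le_mul_of_nonneg_right (lp.norm_apply_le_norm ENNReal.top_ne_zero c n) (norm_nonneg _))

variable {X}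

theorem mem_c0 {f : lp X ∞} : f ∈ c0 X ↔ Tendsto (fun n => ‖f n‖) atTop (𝓝 0) := Iff.rfl

theorem mem_c0_of_eventually {f : lp X ∞} (h : ∀ᶠ n in atTop, f n = 0) : f ∈ c0 X :=
  tendsto_const_nhds.congr' (h.mono fun n hn => by simp [hn])

instance : GoodIdeal (c0 X) where
  twoSided := by
    refine ⟨fun {f} g hf => ?_⟩
    refine squeeze_zero (fun n => norm_nonneg _) (fun n => ?_)
      (by simpa using Tendsto.mul_const ‖g‖ (mem_c0.1 hf))
    exact (norm_mul_le _ _).trans
      (mul_le_mul_of_nonneg_left (lp.norm_apply_le_norm ENNReal.top_ne_zero g n) (norm_nonneg _))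
  closed := by
    refine isClosed_of_closure_subset fun g hg => ?_
    rw [SetLike.mem_coe, mem_c0, Metric.tendsto_nhds]
    intro ε hε
    obtain ⟨f, hf, hfg⟩ := Metric.mem_closure_iff.1 hg (ε / 2) (half_pos hε)
    filter_upwards [Metric.tendsto_nhds.1 (mem_c0.1 hf) (ε / 2) (half_pos hε)] with n hn
    have h1 : ‖g n - f n‖ ≤ ‖g - f‖ := lp.norm_apply_le_norm ENNReal.top_ne_zero (g - f) n
    have h2 := norm_le_norm_add_norm_sub' (g n) (f n)
    rw [dist_eq_norm] at hfg
    simp only [dist_zero_right, norm_norm] at hn ⊢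
    linarith
  star_mem f hf := by
    rw [mem_c0] at hf ⊢
    simpa [lp.star_apply] using hf
  cstar f g hg ε hε := by
    classical
    set c := Real.sqrt (‖g‖ + ε) with hc
    have hev : ∀ᶠ n in atTop, ‖f n‖ ≤ c := by
      filter_upwards [Metric.tendsto_nhds.1 (mem_c0.1 hg) ε hε] with n hn
      simp only [dist_zero_right, norm_norm] at hn
      apply Real.le_sqrt_of_sq_le
      have h2 : ‖g n‖ ≤ ‖g‖ := lp.norm_apply_le_norm ENNReal.top_ne_zero g n
      have h3 : ‖star (f n) * f n‖ ≤ ‖g n‖ + ‖g n - star (f n) * f n‖ :=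
        norm_le_norm_add_norm_sub _ _
      have h4 : ‖g n - star (f n) * f n‖ < ε := hn
      rw [CStarRing.norm_star_mul_self] at h3
      rw [sq]
      linarith
    have hb : ∀ n, ‖if ‖f n‖ ≤ c then f n else 0‖ ≤ c := fun n => by
      split_ifs with hn
      · exact hn
      · simp [hc]
    refine ⟨⟨fun n => if ‖f n‖ ≤ c then f n else 0, memℓp_infty ⟨c, ?_⟩⟩, ?_, ?_⟩
    · rintro _ ⟨n, rfl⟩
      exact hb n
    · refine mem_c0_of_eventually (hev.mono fun n hn => ?_)
      show (if ‖f n‖ ≤ c then f n else 0) - f n = 0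
      rw [if_pos hn, sub_self]
    · refine (mul_le_mul ?_ ?_ (norm_nonneg _) (Real.sqrt_nonneg _)).trans
        (Real.mul_self_sqrt (by positivity)).le
      · exact lp.norm_le_of_forall_le (Real.sqrt_nonneg _) hb
      · exact lp.norm_le_of_forall_le (Real.sqrt_nonneg _) hb

variable (X) in
/-- Bounded sequences modulo null ones. -/
abbrev SeqQuot : Type := lp X ∞ ⧸ c0 X

/-- The class of a bounded sequence. -/
noncomputable def cls : lp X ∞ →⋆ₐ[ℂ] SeqQuot X := quotHom (c0 X)

theorem cls_surjective : Function.Surjective (cls (X := X)) := Ideal.Quotient.mk_surjective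

theorem cls_eq_zero {f : lp X ∞} : cls f = 0 ↔ Tendsto (fun n => ‖f n‖) atTop (𝓝 0) :=
  Ideal.Quotient.eq_zero_iff_mem

theorem cls_congr {f g : lp X ∞} (h : ∀ᶠ n in atTop, f n = g n) : cls f = cls g :=
  (Ideal.Quotient.mk_eq_mk_iff_sub_mem (I := c0 X) f g).2
    (mem_c0_of_eventually (h.mono fun n hn => by simp [hn]))

theorem cls_sum_smul {k : ℕ} (c : Fin k → ℂ) (g : Fin k → lp X ∞) :
    cls (∑ i, c i • g i) = ∑ i, c i • cls (g i) := by
  rw [map_sum]
  exact Finset.sum_congr rfl fun i _ => (cls (X := X)).toAlgHom.toLinearMap.map_smul _ _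

theorem cls_sum_mul {k : ℕ} (u g : Fin k → lp X ∞) :
    cls (∑ i, u i * g i) = ∑ i, cls (u i) * cls (g i) := by
  rw [map_sum]
  exact Finset.sum_congr rfl fun i _ => map_mul _ _ _

/-! ### Homomorphisms given on a tail -/

section Tail

variable {E : Type} [CStarAlgebra E] {k : ℕ} (θ : ∀ n, k ≤ n → (E →⋆ₐ[ℂ] X n))

/-- The sequence of images, zero before the tail. -/
noncomputable def tailSeq (x : E) : lp X ∞ :=
  ⟨fun n => if h : k ≤ n then θ n h x else 0, memℓp_infty ⟨‖x‖, by
    rintro _ ⟨n, rfl⟩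
    dsimp only
    split_ifs with h
    · exact NonUnitalStarAlgHom.norm_apply_le (θ n h) x
    · simp⟩⟩

theorem tailSeq_apply (x : E) {n : ℕ} (h : k ≤ n) : tailSeq θ x n = θ n h x := dif_pos h

theorem cls_tail {x : E} {f : lp X ∞} (h : ∀ n (hn : k ≤ n), θ n hn x = f n) :
    cls (tailSeq θ x) = cls f :=
  cls_congr ((eventually_ge_atTop k).mono fun n hn => by rw [tailSeq_apply θ x hn, h n hn])

/-- The homomorphism given by a family on a tail. -/
noncomputable def tailHom : E →⋆ₐ[ℂ] SeqQuot X where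
  toFun x := cls (tailSeq θ x)
  map_one' := (cls_tail θ fun n hn => (map_one (θ n hn)).trans rfl).trans (map_one cls)
  map_mul' x y := by
    refine (cls_tail θ fun n hn => ?_).trans (map_mul cls (tailSeq θ x) (tailSeq θ y))
    rw [map_mul, ← tailSeq_apply θ x hn, ← tailSeq_apply θ y hn]
    rfl
  map_zero' := (cls_tail θ fun n hn => (map_zero (θ n hn)).trans rfl).trans (map_zero cls)
  map_add' x y := by
    refine (cls_tail θ fun n hn => ?_).trans (map_add cls (tailSeq θ x) (tailSeq θ y))
    rw [map_add, ← tailSeq_apply θ x hn, ← tailSeq_apply θ y hn]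
    rfl
  commutes' r :=
    (cls_tail θ fun n hn => (AlgHomClass.commutes (θ n hn) r).trans rfl).trans
      (AlgHomClass.commutes (cls (X := X)) r)
  map_star' x := by
    refine (cls_tail θ fun n hn => ?_).trans (map_star cls (tailSeq θ x))
    rw [map_star, ← tailSeq_apply θ x hn]
    rfl

theorem tailHom_apply (x : E) : tailHom θ x = cls (tailSeq θ x) := rfl

theorem tailHom_injective (h : ∀ n hn, Function.Injective (θ n hn)) :
    Function.Injective (tailHom θ) := by
  rw [injective_iff_map_eq_zero]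
  intro x hx
  rw [tailHom_apply, cls_eq_zero] at hx
  have hev : ∀ᶠ n in atTop, ‖tailSeq θ x n‖ = ‖x‖ :=
    (eventually_ge_atTop k).mono fun n hn => by
      rw [tailSeq_apply θ x hn]
      exact NonUnitalStarAlgHom.norm_map (θ n hn) (h n hn) x
  exact norm_eq_zero.1 (tendsto_nhds_unique tendsto_const_nhds (hx.congr' hev))

end Tail

/-! ### Functoriality -/

section Map

variable {Y : ℕ → Type} [∀ n, CStarAlgebra (Y n)] [∀ n, Nontrivial (Y n)]
variable (θ : ∀ n, X n →⋆ₐ[ℂ] Y n)

/-- A family of homomorphisms acts on bounded sequences. -/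
noncomputable def seqMap : lp X ∞ →⋆ₐ[ℂ] lp Y ∞ where
  toFun f := ⟨fun n => θ n (f n), memℓp_infty ⟨‖f‖, by
    rintro _ ⟨n, rfl⟩
    exact (NonUnitalStarAlgHom.norm_apply_le (θ n) _).trans
      (lp.norm_apply_le_norm ENNReal.top_ne_zero f n)⟩⟩
  map_one' := lp.ext (funext fun n => map_one (θ n))
  map_mul' f g := lp.ext (funext fun n => map_mul (θ n) (f n) (g n))
  map_zero' := lp.ext (funext fun n => map_zero (θ n))
  map_add' f g := lp.ext (funext fun n => map_add (θ n) (f n) (g n))
  commutes' r := lp.ext (funext fun n => AlgHomClass.commutes (θ n) r)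
  map_star' f := lp.ext (funext fun n => map_star (θ n) (f n))

theorem seqMap_apply (f : lp X ∞) (n : ℕ) : seqMap θ f n = θ n (f n) := rfl

theorem seqMap_null (f : lp X ∞) (hf : f ∈ c0 X) : cls (seqMap θ f) = 0 :=
  cls_eq_zero.2 (squeeze_zero (fun _ => norm_nonneg _)
    (fun n => NonUnitalStarAlgHom.norm_apply_le (θ n) (f n)) hf)

/-- A family of homomorphisms acts on the quotients. -/
noncomputable def quotMap : SeqQuot X →⋆ₐ[ℂ] SeqQuot Y where
  toAlgHom := Ideal.Quotient.liftₐ (c0 X) ((cls (X := Y)).comp (seqMap θ)).toAlgHom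
    (seqMap_null θ)
  map_star' x := by
    obtain ⟨f, rfl⟩ := cls_surjective x
    show cls (seqMap θ (star f)) = star (cls (seqMap θ f))
    rw [map_star, map_star]

theorem quotMap_cls (f : lp X ∞) : quotMap θ (cls f) = cls (seqMap θ f) := rfl

end Map

end Vale.Agent.P101.Bridge
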