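import Vale.Agent.P101.Bridge.Pins
import Vale.Agent.P101.Bridge.SeqQuot

/-!
P101 bridge, block L: the limit of a chain inside bounded sequences modulo null ones.
-/

namespace Vale.Agent.P101.Bridge

open Filter Vale.Agent.P101.DropN
open scoped Topology ENNReal Matrix Matrix.Norms.L2Operator Kronecker unitInterval

theorem isClosed_ZPair (p q : ℕ) :
    IsClosed (ZPair p q : Set C(I, Fib p q)) := by
  let Lh : Matrix (Fin p) (Fin p) ℂ →ₗ[ℂ] Fib p q :=
    { toFun := fun a => a ⊗ₖ (1 : Matrix (Fin q) (Fin q) ℂ)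
      map_add' := fun a b => Matrix.add_kronecker a b _
      map_smul' := fun c a => Matrix.smul_kronecker c a _ }
  let Rh : Matrix (Fin q) (Fin q) ℂ →ₗ[ℂ] Fib p q :=
    { toFun := fun b => (1 : Matrix (Fin p) (Fin p) ℂ) ⊗ₖ b
      map_add' := fun a b => Matrix.kronecker_add _ a b
      map_smul' := fun c b => Matrix.kronecker_smul c _ b }
  have e : (ZPair p q : Set C(I, Fib p q)) =
      (fun f : C(I, Fib p q) => f 0) ⁻¹' (LinearMap.range Lh : Set (Fib p q)) ∩
        (fun f : C(I, Fib p q) => f 1) ⁻¹' (LinearMap.range Rh : Set (Fib p q)) := by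
    ext f
    constructor
    · rintro ⟨⟨a, ha⟩, ⟨b, hb⟩⟩
      exact ⟨⟨a, ha.symm⟩, ⟨b, hb.symm⟩⟩
    · rintro ⟨⟨a, ha⟩, ⟨b, hb⟩⟩
      exact ⟨⟨a, ha.symm⟩, ⟨b, hb.symm⟩⟩
  rw [e]
  exact ((LinearMap.range Lh).closed_of_finiteDimensional.preimage (continuous_eval_const 0)).inter
    ((LinearMap.range Rh).closed_of_finiteDimensional.preimage (continuous_eval_const 1))

noncomputable instance zPairCStar (p q : ℕ) : CStarAlgebra (ZPair p q) :=
  StarSubalgebra.cstarAlgebra _ (h_closed := isClosed_ZPair p q)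

namespace Chain

variable (S : Chain)

/-- The functions on the interval at a stage. -/
abbrev X (n : ℕ) : Type := C(I, Fib (S.p n) (S.q n))

instance nonemptyIndex (n : ℕ) : Nonempty (Fin (S.p n) × Fin (S.q n)) :=
  ⟨(⟨0, lt_of_lt_of_le two_pos (S.two_p n)⟩, ⟨0, lt_of_lt_of_le two_pos (S.two_q n)⟩)⟩

instance nontrivialX (n : ℕ) : Nontrivial (S.X n) :=
  ⟨⟨0, 1, fun h => zero_ne_one (congrArg (fun f : S.X n => f 0) h)⟩⟩

/-- The composite from stage `k` to a later stage. -/
noncomputable def stage (k : ℕ) :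
    ∀ n, k ≤ n → (ZPair (S.p k) (S.q k) →⋆ₐ[ℂ] ZPair (S.p n) (S.q n)) :=
  fun _ h => Nat.leRec (motive := fun n _ => ZPair (S.p k) (S.q k) →⋆ₐ[ℂ] ZPair (S.p n) (S.q n))
    (StarAlgHom.id ℂ _) (fun j _ f => (S.φ j).comp f) h

theorem stage_succ (k n : ℕ) (h : k ≤ n) (h' : k ≤ n + 1) :
    S.stage k (n + 1) h' = (S.φ n).comp (S.stage k n h) := by
  simp only [stage, Nat.leRec_succ _ _ h]

theorem stage_self (k : ℕ) (h : k ≤ k) : S.stage k k h = StarAlgHom.id ℂ _ := by
  simp only [stage, Nat.leRec_self]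

theorem stage_injective (k n : ℕ) (h : k ≤ n) : Function.Injective (S.stage k n h) := by
  induction n, h using Nat.le_induction with
  | base => rw [stage_self]; exact Function.injective_id
  | succ n h ih => rw [stage_succ S k n h]; exact (S.injective n).comp ih

theorem stage_phi (k n : ℕ) (h : k + 1 ≤ n) (h' : k ≤ n) (x : ZPair (S.p k) (S.q k)) :
    S.stage (k + 1) n h (S.φ k x) = S.stage k n h' x := by
  induction n, h using Nat.le_induction with
  | base => rw [stage_self, stage_succ S k k le_rfl, stage_self]; rfl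
  | succ n h ih =>
    rw [stage_succ S (k + 1) n h, stage_succ S k n (by omega)]
    simp only [StarAlgHom.comp_apply]
    rw [ih (by omega)]

/-- A stage inside bounded sequences modulo null ones. -/
noncomputable def lift (k : ℕ) : ZPair (S.p k) (S.q k) →⋆ₐ[ℂ] SeqQuot S.X :=
  tailHom fun n h => ((ZPair (S.p n) (S.q n)).subtype).comp (S.stage k n h)

theorem lift_injective (k : ℕ) : Function.Injective (S.lift k) :=
  tailHom_injective _ fun n h => Subtype.val_injective.comp (S.stage_injective k n h)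

theorem lift_compat (k : ℕ) (x : ZPair (S.p k) (S.q k)) :
    S.lift (k + 1) (S.φ k x) = S.lift k x := by
  simp only [lift, tailHom_apply]
  refine cls_congr ((eventually_ge_atTop (k + 1)).mono fun n hn => ?_)
  rw [tailSeq_apply _ _ hn, tailSeq_apply _ _ (by omega : k ≤ n)]
  simp only [StarAlgHom.comp_apply]
  rw [S.stage_phi k n hn (by omega)]

theorem lift_range_mono {k m : ℕ} (h : k ≤ m) (x : ZPair (S.p k) (S.q k)) :
    ∃ y, S.lift m y = S.lift k x := by
  induction m, h using Nat.le_induction with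
  | base => exact ⟨x, rfl⟩
  | succ m _ ih =>
    obtain ⟨y, hy⟩ := ih
    exact ⟨S.φ m y, by rw [S.lift_compat m y, hy]⟩

/-- The union of the stages. -/
noncomputable def union : StarSubalgebra ℂ (SeqQuot S.X) where
  carrier := {d | ∃ k x, S.lift k x = d}
  mul_mem' := by
    rintro _ _ ⟨k, x, rfl⟩ ⟨m, y, rfl⟩
    obtain ⟨x', hx⟩ := S.lift_range_mono (le_max_left k m) x
    obtain ⟨y', hy⟩ := S.lift_range_mono (le_max_right k m) y
    exact ⟨_, x' * y', by rw [map_mul, hx, hy]⟩
  one_mem' := ⟨0, 1, map_one (S.lift 0)⟩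
  add_mem' := by
    rintro _ _ ⟨k, x, rfl⟩ ⟨m, y, rfl⟩
    obtain ⟨x', hx⟩ := S.lift_range_mono (le_max_left k m) x
    obtain ⟨y', hy⟩ := S.lift_range_mono (le_max_right k m) y
    exact ⟨_, x' + y', by rw [map_add, hx, hy]⟩
  zero_mem' := ⟨0, 0, map_zero (S.lift 0)⟩
  algebraMap_mem' r := ⟨0, algebraMap ℂ _ r, AlgHomClass.commutes _ r⟩
  star_mem' := by
    rintro _ ⟨k, x, rfl⟩
    exact ⟨k, star x, map_star _ x⟩

/-- The limit algebra. -/
noncomputable abbrev limitSub : StarSubalgebra ℂ (SeqQuot S.X) := S.union.topologicalClosure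

noncomputable instance limitCStar : CStarAlgebra S.limitSub :=
  StarSubalgebra.cstarAlgebra _ (h_closed := S.union.isClosed_topologicalClosure)

/-- The canonical maps into the limit. -/
noncomputable def toLimit (k : ℕ) : ZPair (S.p k) (S.q k) →⋆ₐ[ℂ] S.limitSub :=
  StarAlgHom.codRestrict (S.lift k) _ fun x =>
    S.union.le_topologicalClosure ⟨k, x, rfl⟩

theorem isLimit : IsLimit S S.toLimit where
  compat k x := Subtype.ext (S.lift_compat k x)
  injective k x y h := S.lift_injective k (congrArg Subtype.val h)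
  dense x := by
    rw [closure_subtype]
    refine closure_mono ?_ x.2
    rintro _ ⟨k, y, rfl⟩
    exact ⟨S.toLimit k y, Set.mem_iUnion.2 ⟨k, y, rfl⟩, rfl⟩

end Chain

end Vale.Agent.P101.Bridge
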