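import Vale.Agent.P101.Bridge.Pins
import Vale.Agent.P101.Quotient

/-!
P101 bridge, assembly: bounded sequences modulo those null along an ultrafilter, and the unitary
near an almost unitary element.
-/

namespace Vale.Agent.P101.Bridge

open Filter
open scoped Topology BoundedContinuousFunction

section SeqMod

variable {B : Type} [CStarAlgebra B] (w : Ultrafilter ℕ)

/-- The bounded sequences tending to zero along `w`. -/
def seqNull : Ideal (ℕ →ᵇ B) where
  carrier := {f | IsNull (w : Filter ℕ) f}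
  add_mem' {f g} hf hg := by
    simpa [IsNull] using hf.add hg
  zero_mem' := tendsto_const_nhds
  smul_mem' c f hf := by
    refine squeeze_zero_norm (fun n => norm_mul_le _ _) ?_
    refine squeeze_zero (fun n => by positivity)
      (fun n => mul_le_mul_of_nonneg_right (c.norm_coe_le_norm n) (norm_nonneg _)) ?_
    simpa using (tendsto_zero_iff_norm_tendsto_zero.1 hf).const_mul ‖c‖

theorem mem_seqNull {f : ℕ →ᵇ B} : f ∈ seqNull w ↔ IsNull (w : Filter ℕ) f := Iff.rfl

instance : (seqNull (B := B) w).IsTwoSided where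
  mul_mem_of_left {f} g hf := by
    refine squeeze_zero_norm (fun n => norm_mul_le _ _) ?_
    refine squeeze_zero (fun n => by positivity)
      (fun n => mul_le_mul_of_nonneg_left (g.norm_coe_le_norm n) (norm_nonneg _)) ?_
    simpa using (tendsto_zero_iff_norm_tendsto_zero.1 hf).mul_const ‖g‖

instance : IsClosed (seqNull (B := B) w : Set (ℕ →ᵇ B)) := by
  refine isClosed_of_closure_subset fun g hg => ?_
  rw [SetLike.mem_coe, mem_seqNull, IsNull, Metric.tendsto_nhds]
  intro ε hε
  obtain ⟨f, hf, hfg⟩ := Metric.mem_closure_iff.1 hg (ε / 2) (by positivity)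
  filter_upwards [Metric.tendsto_nhds.1 hf (ε / 2) (by positivity)] with n hn
  have h1 := BoundedContinuousFunction.dist_coe_le_dist (f := g) (g := f) n
  linarith [dist_triangle (g n) (f n) 0]

instance : GoodIdeal (seqNull (B := B) w) where
  twoSided := inferInstance
  closed := inferInstance
  star_mem f hf := by
    rw [mem_seqNull, IsNull, tendsto_zero_iff_norm_tendsto_zero] at hf ⊢
    simpa using hf
  cstar f g hg ε hε := by
    rw [mem_seqNull, IsNull] at hg
    set c := Real.sqrt (‖g‖ + ε)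
    have hev : ∀ᶠ n in (w : Filter ℕ), ‖f n‖ ≤ c := by
      filter_upwards [Metric.tendsto_nhds.1 hg ε hε] with n hn
      rw [dist_zero_right] at hn
      simp only [BoundedContinuousFunction.coe_sub, BoundedContinuousFunction.coe_mul,
        BoundedContinuousFunction.coe_star, Pi.sub_apply, Pi.mul_apply, Pi.star_apply] at hn
      apply Real.le_sqrt_of_sq_le
      have h3 := norm_le_norm_add_norm_sub (g n) (star (f n) * f n)
      rw [CStarRing.norm_star_mul_self] at h3
      rw [sq]
      linarith [g.norm_coe_le_norm n]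
    have hb : ∀ n, ‖if ‖f n‖ ≤ c then f n else 0‖ ≤ c := by
      intro n
      split_ifs with hn
      · exact hn
      · simp [c, Real.sqrt_nonneg]
    let f' : ℕ →ᵇ B := BoundedContinuousFunction.ofNormedAddCommGroupDiscrete
      (fun n => if ‖f n‖ ≤ c then f n else 0) c hb
    refine ⟨f', ?_, ?_⟩
    · rw [mem_seqNull, IsNull]
      exact tendsto_const_nhds.congr' (hev.mono fun n hn => by simp [f', hn])
    · have h1 : ‖f'‖ ≤ c := (BoundedContinuousFunction.norm_le (Real.sqrt_nonneg _)).2 hb
      exact (mul_le_mul h1 h1 (norm_nonneg _) (Real.sqrt_nonneg _)).trans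
        (Real.mul_self_sqrt (by positivity)).le

/-- The bounded sequences modulo the null ones. -/
abbrev SeqMod : Type := (ℕ →ᵇ B) ⧸ seqNull (B := B) w

/-- The quotient map. -/
noncomputable def seqMk : (ℕ →ᵇ B) →⋆ₐ[ℂ] SeqMod (B := B) w := quotHom (seqNull (B := B) w)

theorem exists_lift_norm_lt (x : SeqMod (B := B) w) {r : ℝ} (h : ‖x‖ < r) :
    ∃ g, seqMk w g = x ∧ ‖g‖ < r := by
  obtain ⟨g, hg, hgn⟩ := Submodule.Quotient.norm_mk_lt x (sub_pos.2 h)
  exact ⟨g, hg, by linarith⟩

theorem seqMk_eq_iff {f g : ℕ →ᵇ B} :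
    seqMk w f = seqMk w g ↔ IsNull (w : Filter ℕ) (f - g) :=
  Ideal.Quotient.mk_eq_mk_iff_sub_mem (I := seqNull (B := B) w) f g

theorem seqMk_surjective : Function.Surjective (seqMk (B := B) w) :=
  Ideal.Quotient.mk_surjective

/-- A small class has eventually small entries. -/
theorem eventually_norm_lt {f : ℕ →ᵇ B} {r : ℝ} (h : ‖seqMk w f‖ < r) :
    ∀ᶠ m in (w : Filter ℕ), ‖f m‖ < r := by
  obtain ⟨g, hg, hlt⟩ := exists_lift_norm_lt w _ h
  have hmem := (seqMk_eq_iff w).1 hg
  rw [IsNull] at hmem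
  filter_upwards [Metric.tendsto_nhds.1 hmem (r - ‖g‖) (sub_pos.2 hlt)] with m hm
  rw [dist_zero_right, BoundedContinuousFunction.coe_sub, Pi.sub_apply] at hm
  linarith [g.norm_coe_le_norm m, norm_le_norm_add_norm_sub (g m) (f m)]

/-- The constant sequences. -/
noncomputable def constHom : B →⋆ₐ[ℂ] SeqMod (B := B) w :=
  (seqMk w).comp
    { toFun := BoundedContinuousFunction.const ℕ
      map_one' := rfl
      map_mul' := fun _ _ => rfl
      map_zero' := rfl
      map_add' := fun _ _ => rfl
      commutes' := fun _ => rfl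
      map_star' := fun _ => rfl }

theorem constHom_apply (b : B) :
    constHom w b = seqMk w (BoundedContinuousFunction.const ℕ b) := rfl

end SeqMod

/-- An almost unitary element is close to a unitary. -/
theorem exists_unitary_near {B : Type} [CStarAlgebra B] {t : B} {e : ℝ} (he : e ≤ 1 / 2)
    (h1 : ‖star t * t - 1‖ ≤ e) (h2 : ‖t * star t - 1‖ ≤ e) :
    ∃ u ∈ unitary B, ‖u - t‖ ≤ 2 * e := by
  have he0 : 0 ≤ e := (norm_nonneg _).trans h1
  rcases subsingleton_or_nontrivial B with hB | hB
  · exact ⟨1, one_mem _, by rw [Subsingleton.elim (1 - t) (0 : B), norm_zero]; linarith⟩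
  have hN : ∀ x : B, ‖x - 1‖ ≤ e → IsUnit x := fun x hx => by
    simpa using isUnit_one_sub_of_norm_lt_one (x := 1 - x)
      (by rw [norm_sub_rev]; linarith)
  set h := star t * t with hh
  have hsa : IsSelfAdjoint h := IsSelfAdjoint.star_mul_self t
  have hspec : ∀ r ∈ spectrum ℝ h, |r - 1| ≤ e := fun r hr => by
    have hr' : r - 1 ∈ spectrum ℝ (h - algebraMap ℝ B 1) := by
      rw [← spectrum.sub_singleton_eq]; exact ⟨r, hr, 1, rfl, rfl⟩
    have h3 := spectrum.norm_le_norm_of_mem hr'
    rw [Real.norm_eq_abs, map_one] at h3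
    exact h3.trans h1
  have hpos : ∀ r ∈ spectrum ℝ h, 0 < r := fun r hr => by
    linarith [(abs_le.1 (hspec r hr)).1]
  let f : ℝ → ℝ := fun r => (Real.sqrt r)⁻¹
  have hcont : ContinuousOn f (spectrum ℝ h) :=
    (Real.continuous_sqrt.continuousOn).inv₀ fun r hr => (Real.sqrt_pos.2 (hpos r hr)).ne'
  set g := cfc f h with hg
  have hgs : star g = g := (cfc_predicate f h : IsSelfAdjoint (cfc f h))
  have hghg : g * h * g = 1 := by
    calc g * h * g = cfc (fun r => f r * r * f r) h := by
          rw [cfc_mul (fun r => f r * r) f h (hcont.mul continuousOn_id) hcont,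
            cfc_mul f (fun r => r) h hcont continuousOn_id, cfc_id' ℝ h hsa]
      _ = cfc (fun _ => (1 : ℝ)) h := cfc_congr fun r hr => by
          have := Real.mul_self_sqrt (hpos r hr).le
          have := (Real.sqrt_pos.2 (hpos r hr)).ne'
          simp only [f]
          field_simp
          nlinarith
      _ = 1 := cfc_const_one ℝ h
  have hgu : IsUnit g := (isUnit_cfc_iff f h hcont hsa).2 fun r hr =>
    inv_ne_zero (Real.sqrt_pos.2 (hpos r hr)).ne'
  have hleft : star (t * g) * (t * g) = 1 := by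
    rw [star_mul, hgs, mul_assoc, ← mul_assoc (star t), ← hh, ← mul_assoc, hghg]
  have htu : IsUnit t := by
    obtain ⟨a, ha⟩ := (hN _ h1).exists_left_inv
    obtain ⟨b, hb⟩ := (hN _ h2).exists_right_inv
    exact isUnit_iff_exists_and_exists.2
      ⟨⟨star t * b, by rw [← mul_assoc]; exact hb⟩, ⟨a * star t, by rw [mul_assoc]; exact ha⟩⟩
  have hright : t * g * star (t * g) = 1 := by
    obtain ⟨U, hU⟩ := htu.mul hgu
    rw [← hU] at hleft ⊢
    rw [show star (U : B) = ((U⁻¹ : Bˣ) : B) from Units.eq_inv_of_mul_eq_one_right hleft,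
      Units.mul_inv]
  refine ⟨t * g, Unitary.mem_iff.2 ⟨hleft, hright⟩, ?_⟩
  have hg1 : ‖g - 1‖ ≤ e := by
    rw [← cfc_const_one ℝ h (ha := hsa), hg, ← cfc_sub f (fun _ => (1 : ℝ)) h hcont continuousOn_const]
    refine norm_cfc_le he0 fun r hr => ?_
    have hr0 := hpos r hr
    have hs := Real.mul_self_sqrt hr0.le
    have hr1 := abs_le.1 (hspec r hr)
    have hs7 : 7 / 10 ≤ Real.sqrt r := Real.le_sqrt_of_sq_le (by linarith)
    have hd : 1 ≤ Real.sqrt r * (1 + Real.sqrt r) := by nlinarith
    have key : (Real.sqrt r)⁻¹ - 1 = (1 - r) / (Real.sqrt r * (1 + Real.sqrt r)) := by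
      field_simp
      nlinarith
    simp only [f, Real.norm_eq_abs]
    rw [key, abs_div, abs_of_pos (by linarith : 0 < Real.sqrt r * (1 + Real.sqrt r))]
    exact (div_le_self (abs_nonneg _) hd).trans (by rw [abs_sub_comm]; exact hspec r hr)
  have ht : ‖t‖ ≤ 2 := by
    have h3 := norm_le_norm_add_norm_sub (1 : B) (star t * t)
    rw [CStarRing.norm_star_mul_self, CStarRing.norm_one, norm_sub_rev] at h3
    nlinarith [norm_nonneg t, hh ▸ h1]
  calc ‖t * g - t‖ = ‖t * (g - 1)‖ := by rw [mul_sub, mul_one]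
    _ ≤ ‖t‖ * ‖g - 1‖ := norm_mul_le _ _
    _ ≤ 2 * e := by gcongr

end Vale.Agent.P101.Bridge
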