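import Vale.Agent.P101.Bridge.SquareNorm
import Vale.Agent.P101.Bridge.HalfFlip

/-!
P101 bridge, block S: a unitary of the square algebra acts through two commuting unital maps of
Z(p,q). The sums `Σ ψ₁ f ψ₂ g` have at most the norm of `Σ f ⊗ g` on the square.
-/

namespace Vale.Agent.P101.Bridge.Square

open Filter Vale.Agent.P101.DropN
open scoped Topology Matrix Matrix.Norms.L2Operator Kronecker unitInterval

variable {p q : ℕ}

/-- An elementary tensor on the square. -/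
noncomputable def tens (f g : ZPair p q) : C(I × I, Fib2 p q) :=
  ⟨fun z => (f : C(I, Fib p q)) z.1 ⊗ₖ (g : C(I, Fib p q)) z.2,
    continuous_matrix fun i j => by simp only [Matrix.kroneckerMap_apply]; fun_prop⟩

lemma tens_apply (f g : ZPair p q) (z : I × I) :
    tens f g z = (f : C(I, Fib p q)) z.1 ⊗ₖ (g : C(I, Fib p q)) z.2 := rfl

lemma exists_mesh_close {E : Type} [NormedAddCommGroup E] [NormedSpace ℂ E] {T : Type}
    [PseudoMetricSpace T] [CompactSpace T] (F : C(T, E)) {η : ℝ} (hη : 0 < η) :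
    ∃ δ > 0, ∀ x y : T, dist x y < δ → ‖F x - F y‖ ≤ η := by
  obtain ⟨δ, hδ, h⟩ := Metric.uniformContinuous_iff.1
    (CompactSpace.uniformContinuous_of_continuous F.continuous) η hη
  exact ⟨δ, hδ, fun x y hxy => by rw [← dist_eq_norm]; exact (h hxy).le⟩

lemma interp_tendsto (hp : 0 < p) (hq : 0 < q) (f : ZPair p q) :
    Tendsto (fun n : ℕ => interp hp hq n.succ_ne_zero f) atTop (𝓝 f) := by
  rw [Metric.tendsto_atTop]
  intro ε hε
  obtain ⟨δ, hδ, h⟩ := exists_mesh_close (f : C(I, Fib p q)) (half_pos hε)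
  obtain ⟨N, hN⟩ := exists_nat_gt (1 / δ)
  refine ⟨N, fun n hn => ?_⟩
  have hn1 : 1 / δ < ((n + 1 : ℕ) : ℝ) := by
    push_cast; linarith [show (N : ℝ) ≤ n from Nat.cast_le.2 hn]
  refine lt_of_le_of_lt ?_ (half_lt_self hε)
  rw [Subtype.dist_eq, dist_eq_norm, ContinuousMap.norm_le _ (half_pos hε).le]
  intro s
  rw [ContinuousMap.sub_apply, interp_apply]
  refine norm_sum_smul_sub_le _ (fun a => hat_nonneg _ _ _) (hat_sum (n + 1) s) _ _
    (half_pos hε).le fun a ha => ?_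
  rw [norm_sub_rev]
  refine h s _ ?_
  by_contra hlt
  refine ha (hat_eq_zero n.succ_ne_zero (le_trans ?_ (not_lt.1 hlt)))
  rw [div_le_iff₀ (Nat.cast_pos.2 n.succ_pos)]
  rw [div_lt_iff₀ hδ] at hn1
  linarith

lemma slice_left {M : Fib2 p q} {c : Fib p q} (h : Commute M (c ⊗ₖ (1 : Fib p q)))
    (L L' : Fin p × Fin q) : Commute (Matrix.of fun J J' => M (J, L) (J', L')) c := by
  ext J J'
  simpa [Matrix.mul_apply, Fintype.sum_prod_type (α₁ := Fin p × Fin q), Matrix.one_apply]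
    using congrFun (congrFun h.eq (J, L)) (J', L')

lemma slice_right {M : Fib2 p q} {c : Fib p q} (h : Commute M ((1 : Fib p q) ⊗ₖ c))
    (L L' : Fin p × Fin q) : Commute (Matrix.of fun J J' => M (L, J) (L', J')) c := by
  ext J J'
  simpa [Matrix.mul_apply, Fintype.sum_prod_type (α₁ := Fin p × Fin q), Matrix.one_apply]
    using congrFun (congrFun h.eq (L, J)) (L', J')

/-- The frames reproduce the values of the square algebra at the nodes. -/
lemma frame_fixed₂ (hp : 0 < p) (hq : 0 < q) {n : ℕ} (hn : n ≠ 0) {v : C(I × I, Fib2 p q)}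
    (hv : v ∈ squareSet p q) (a b : Fin (n + 1)) :
    ∑ J, ∑ J', v (node n a, node n b) J J' •
      ((frame hp hq n a J.1 * star (frame hp hq n a J'.1)) ⊗ₖ
        (frame hp hq n b J.2 * star (frame hp hq n b J'.2))) = v (node n a, node n b) := by
  set M := v (node n a, node n b) with hM
  have h1 : ∀ L L', AtNode n a (Matrix.of fun J J' => M (J, L) (J', L')) := by
    refine fun L L' => ⟨fun ha c => slice_left ?_ L L', fun ha c => slice_left ?_ L L'⟩
    · rw [hM, show node n a = 0 from Subtype.ext (by simp [node, ha])]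
      exact ((hv (node n b)).1 c).1
    · rw [hM, show node n a = 1 from Subtype.ext (by simp [node, ha, hn])]
      exact ((hv (node n b)).2 c).1
  have h2 : ∀ L L', AtNode n b (Matrix.of fun J J' => M (L, J) (L', J')) := by
    refine fun L L' => ⟨fun ha c => slice_right ?_ L L', fun ha c => slice_right ?_ L L'⟩
    · rw [hM, show node n b = 0 from Subtype.ext (by simp [node, ha])]
      exact ((hv (node n a)).1 c).2
    · rw [hM, show node n b = 1 from Subtype.ext (by simp [node, ha, hn])]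
      exact ((hv (node n a)).2 c).2
  ext ⟨K, L⟩ ⟨K', L'⟩
  have e2 : ∀ I₁ I₂, ∑ J, ∑ J', M (I₁, J) (I₂, J') *
      (frame hp hq n b J * star (frame hp hq n b J')) L L' = M (I₁, L) (I₂, L') := by
    intro I₁ I₂
    have h := congrFun (congrFun (frame_fixed hp hq (h2 I₁ I₂)) L) L'
    simpa [Matrix.sum_apply] using h
  have e1 := congrFun (congrFun (frame_fixed hp hq (h1 L L')) K) K'
  simp only [Matrix.sum_apply, Matrix.smul_apply, Matrix.of_apply, smul_eq_mul] at e1
  simp only [Matrix.sum_apply, Matrix.smul_apply, Matrix.kroneckerMap_apply, smul_eq_mul]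
  rw [← e1, Fintype.sum_prod_type]
  refine Finset.sum_congr rfl fun I₁ _ => ?_
  simp only [Fintype.sum_prod_type (α₁ := Fin p × Fin q)]
  rw [Finset.sum_comm]
  refine Finset.sum_congr rfl fun I₂ _ => ?_
  rw [← e2, Finset.sum_mul]
  refine Finset.sum_congr rfl fun J _ => ?_
  rw [Finset.sum_mul]
  exact Finset.sum_congr rfl fun J' _ => by ring

variable {G : Type} [CStarAlgebra G] (ψ₁ ψ₂ : ZPair p q →⋆ₐ[ℂ] G)

/-- The finite sums `Σ ψ₁ f ψ₂ g` with their functions on the square. -/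
noncomputable def graph : Submodule ℂ (G × C(I × I, Fib2 p q)) :=
  Submodule.span ℂ (Set.range fun z : ZPair p q × ZPair p q => (ψ₁ z.1 * ψ₂ z.2, tens z.1 z.2))

lemma mem_graph (f g : ZPair p q) : (ψ₁ f * ψ₂ g, tens f g) ∈ graph ψ₁ ψ₂ :=
  Submodule.subset_span ⟨(f, g), rfl⟩

variable {ψ₁ ψ₂}

lemma graph_mul (hc : ∀ x y, Commute (ψ₁ x) (ψ₂ y)) {x y : G × C(I × I, Fib2 p q)}
    (hx : x ∈ graph ψ₁ ψ₂) (hy : y ∈ graph ψ₁ ψ₂) : x * y ∈ graph ψ₁ ψ₂ := by
  induction hx using Submodule.span_induction with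
  | mem x hx =>
    induction hy using Submodule.span_induction with
    | mem y hy =>
      obtain ⟨⟨f, g⟩, rfl⟩ := hx
      obtain ⟨⟨f', g'⟩, rfl⟩ := hy
      refine Submodule.subset_span ⟨(f * f', g * g'), Prod.ext ?_ (ContinuousMap.ext fun z => ?_)⟩
      · show ψ₁ (f * f') * ψ₂ (g * g') = ψ₁ f * ψ₂ g * (ψ₁ f' * ψ₂ g')
        rw [map_mul, map_mul]
        exact (hc f' g).symm.mul_mul_mul_comm _ _ |>.symm
      · show ((f : C(I, Fib p q)) z.1 * (f' : C(I, Fib p q)) z.1) ⊗ₖ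
          ((g : C(I, Fib p q)) z.2 * (g' : C(I, Fib p q)) z.2) = _
        exact Matrix.mul_kronecker_mul _ _ _ _
    | zero => simp
    | add u u' _ _ h h' => rw [mul_add]; exact add_mem h h'
    | smul c u _ h => rw [mul_smul_comm]; exact Submodule.smul_mem _ c h
  | zero => simp
  | add u u' _ _ h h' => rw [add_mul]; exact add_mem h h'
  | smul c u _ h => rw [smul_mul_assoc]; exact Submodule.smul_mem _ c h

lemma graph_star (hc : ∀ x y, Commute (ψ₁ x) (ψ₂ y)) {x : G × C(I × I, Fib2 p q)}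
    (hx : x ∈ graph ψ₁ ψ₂) : star x ∈ graph ψ₁ ψ₂ := by
  induction hx using Submodule.span_induction with
  | mem x hx =>
    obtain ⟨⟨f, g⟩, rfl⟩ := hx
    refine Submodule.subset_span ⟨(star f, star g), Prod.ext ?_ (ContinuousMap.ext fun z => ?_)⟩
    · show ψ₁ (star f) * ψ₂ (star g) = star (ψ₁ f * ψ₂ g)
      rw [star_mul, ← map_star, ← map_star, (hc _ _).eq]
    · show star ((f : C(I, Fib p q)) z.1) ⊗ₖ star ((g : C(I, Fib p q)) z.2) = star (_ ⊗ₖ _)
      simp only [Matrix.star_eq_conjTranspose, Matrix.conjTranspose_kronecker]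
  | zero => simp
  | add u u' _ _ h h' => rw [star_add]; exact add_mem h h'
  | smul c u _ h => rw [star_smul]; exact Submodule.smul_mem _ _ h

lemma one_mem_graph : (1 : G × C(I × I, Fib2 p q)) ∈ graph ψ₁ ψ₂ := by
  refine Submodule.subset_span ⟨(1, 1), Prod.ext ?_ (ContinuousMap.ext fun z => ?_)⟩
  · simp
  · exact Matrix.one_kronecker_one

lemma mesh_tens (hc : ∀ x y, Commute (ψ₁ x) (ψ₂ y)) (hp : 0 < p) (hq : 0 < q) {n : ℕ}
    (hn : n ≠ 0) (f g : ZPair p q) :
    mesh ψ₁ ψ₂ hp hq hn (tens f g) = ψ₁ (interp hp hq hn f) * ψ₂ (interp hp hq hn g) := by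
  rw [mesh_eq ψ₁ ψ₂ hc]
  simp only [interp, map_sum, map_smul]
  rw [Fintype.sum_mul_sum]
  refine Finset.sum_congr rfl fun a _ => Finset.sum_congr rfl fun b _ => ?_
  rw [Fintype.sum_mul_sum, Fintype.sum_prod_type]
  refine Finset.sum_congr rfl fun I₁ _ => Finset.sum_congr rfl fun J₁ _ => ?_
  rw [Fintype.sum_mul_sum, Fintype.sum_prod_type]
  refine Finset.sum_congr rfl fun I₂ _ => Finset.sum_congr rfl fun J₂ _ => ?_
  rw [smul_mul_smul_comm, tens_apply, Matrix.kroneckerMap_apply]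

lemma graph_norm_le (hc : ∀ x y, Commute (ψ₁ x) (ψ₂ y)) (hp : 0 < p) (hq : 0 < q)
    {x : G × C(I × I, Fib2 p q)} (hx : x ∈ graph ψ₁ ψ₂) {C : ℝ} (hC : 0 ≤ C)
    (h : ∀ z, ‖x.2 z‖ ≤ C) : ‖x.1‖ ≤ C := by
  have hlim : Tendsto (fun n : ℕ => mesh ψ₁ ψ₂ hp hq n.succ_ne_zero x.2) atTop (𝓝 x.1) := by
    clear h
    induction hx using Submodule.span_induction with
    | mem x hx =>
      obtain ⟨⟨f, g⟩, rfl⟩ := hx
      simp only [mesh_tens hc]
      have hcont : ∀ ψ : ZPair p q →⋆ₐ[ℂ] G, Continuous ψ := fun ψ =>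
        AddMonoidHomClass.continuous_of_bound ψ 1 fun y => by
          rw [one_mul]; exact NonUnitalStarAlgHom.norm_apply_le ψ y
      exact (((hcont ψ₁).tendsto f).comp (interp_tendsto hp hq f)).mul
        (((hcont ψ₂).tendsto g).comp (interp_tendsto hp hq g))
    | zero => simp
    | add u u' _ _ h h' => simpa [map_add] using h.add h'
    | smul c u _ h => simpa [map_smul] using h.const_smul c
  exact le_of_tendsto hlim.norm
    (Eventually.of_forall fun n => norm_mesh_le ψ₁ ψ₂ hc hp hq _ _ hC h)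

lemma exists_graph_mesh (hc : ∀ x y, Commute (ψ₁ x) (ψ₂ y)) (hp : 0 < p) (hq : 0 < q) {n : ℕ}
    (hn : n ≠ 0) {v : C(I × I, Fib2 p q)} (hv : v ∈ squareSet p q) :
    ∃ w : C(I × I, Fib2 p q), (mesh ψ₁ ψ₂ hp hq hn v, w) ∈ graph ψ₁ ψ₂ ∧
      ∀ z : I × I, w z = ∑ ab : Fin (n + 1) × Fin (n + 1),
        ((hat n ab.1 z.1 * hat n ab.2 z.2 : ℝ) : ℂ) • v (node n ab.1, node n ab.2) := by
  refine ⟨∑ a, ∑ b, ∑ J, ∑ J', v (node n a, node n b) J J' •
    tens (row hp hq hn a J.1 * star (row hp hq hn a J'.1))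
      (row hp hq hn b J.2 * star (row hp hq hn b J'.2)), ?_, fun z => ?_⟩
  · have he : (mesh ψ₁ ψ₂ hp hq hn v, (∑ a, ∑ b, ∑ J, ∑ J', v (node n a, node n b) J J' •
        tens (row hp hq hn a J.1 * star (row hp hq hn a J'.1))
          (row hp hq hn b J.2 * star (row hp hq hn b J'.2)) : C(I × I, Fib2 p q))) =
        ∑ a, ∑ b, ∑ J, ∑ J', v (node n a, node n b) J J' •
          (ψ₁ (row hp hq hn a J.1 * star (row hp hq hn a J'.1)) *
              ψ₂ (row hp hq hn b J.2 * star (row hp hq hn b J'.2)),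
            tens (row hp hq hn a J.1 * star (row hp hq hn a J'.1))
              (row hp hq hn b J.2 * star (row hp hq hn b J'.2))) := by
      ext1 <;> simp [mesh_eq ψ₁ ψ₂ hc, Prod.fst_sum, Prod.snd_sum]
    rw [he]
    exact sum_mem fun a _ => sum_mem fun b _ => sum_mem fun J _ => sum_mem fun J' _ =>
      Submodule.smul_mem _ _ (mem_graph ψ₁ ψ₂ _ _)
  · simp only [ContinuousMap.coe_sum, Finset.sum_apply, ContinuousMap.smul_apply, tens_apply,
      row_mul_star, Matrix.smul_kronecker, Matrix.kronecker_smul, smul_smul, Fintype.sum_prod_type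
        (α₁ := Fin (n + 1))]
    refine Finset.sum_congr rfl fun a _ => Finset.sum_congr rfl fun b _ => ?_
    conv_rhs => rw [← frame_fixed₂ hp hq hn hv a b]
    simp only [Finset.smul_sum, smul_smul]
    refine Finset.sum_congr rfl fun J _ => Finset.sum_congr rfl fun J' _ => ?_
    congr 1
    push_cast
    ring

theorem squarePin : SquarePin := by
  intro p q hp hq G _ ψ₁ ψ₂ hc v hv hvu ε hε
  set η := min (1 / 4) (ε / 4)
  have hη : 0 < η := lt_min (by norm_num) (by positivity)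
  have hη4 : η ≤ 1 / 4 := min_le_left _ _
  have hηε : η ≤ ε / 4 := min_le_right _ _
  obtain ⟨δ, hδ, hvδ⟩ := exists_mesh_close v hη
  obtain ⟨N, hN⟩ := exists_nat_gt (1 / δ)
  have hn : N + 1 ≠ 0 := N.succ_ne_zero
  have hNδ : 1 / ((N + 1 : ℕ) : ℝ) < δ := by
    rw [div_lt_iff₀ (by positivity)]
    rw [div_lt_iff₀ hδ] at hN
    push_cast
    nlinarith
  obtain ⟨w, hw, hwz⟩ := exists_graph_mesh hc hp hq hn hv
  have hclose : ∀ z, ‖w z - v z‖ ≤ η := by
    intro z
    rw [hwz]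
    refine norm_sum_smul_sub_le _ (fun ab => mul_nonneg (hat_nonneg _ _ _) (hat_nonneg _ _ _))
      ?_ _ _ hη.le fun ab hab => ?_
    · simp only [Fintype.sum_prod_type, ← Finset.mul_sum, hat_sum, mul_one]
    · rw [norm_sub_rev]
      refine hvδ z _ ?_
      rw [Prod.dist_eq]
      obtain ⟨ha, hb⟩ := mul_ne_zero_iff.1 hab
      refine max_lt ?_ ?_
      · by_contra hlt
        exact ha (hat_eq_zero hn (le_trans hNδ.le (not_lt.1 hlt)))
      · by_contra hlt
        exact hb (hat_eq_zero hn (le_trans hNδ.le (not_lt.1 hlt)))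
  have hv1 : ∀ z, ‖v z‖ ≤ 1 := fun z => by
    rcases subsingleton_or_nontrivial (Fib2 p q) with h | h
    · simp [Subsingleton.elim (v z) 0]
    · exact (CStarRing.norm_of_mem_unitary (hvu z)).le
  have hw1 : ∀ z, ‖w z‖ ≤ 1 + η := fun z => by
    have := norm_le_norm_add_norm_sub (v z) (w z)
    rw [norm_sub_rev] at this
    linarith [hv1 z, hclose z]
  set T := mesh ψ₁ ψ₂ hp hq hn v
  have hT1 : ‖star T * T - 1‖ ≤ ε := by
    refine graph_norm_le hc hp hq
      (sub_mem (graph_mul hc (graph_star hc hw) hw) one_mem_graph) hε.le fun z => ?_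
    show ‖star (w z) * w z - 1‖ ≤ ε
    have he : star (w z) * w z - 1 = star (w z - v z) * w z + star (v z) * (w z - v z) := by
      rw [star_sub, sub_mul, mul_sub, Unitary.star_mul_self_of_mem (hvu z)]; abel
    rw [he]
    refine (norm_add_le _ _).trans ?_
    have h1 := (norm_mul_le (star (w z - v z)) (w z)).trans
      (mul_le_mul ((norm_star _).trans_le (hclose z)) (hw1 z) (norm_nonneg _) hη.le)
    have h2 := (norm_mul_le (star (v z)) (w z - v z)).trans
      (mul_le_mul ((norm_star _).trans_le (hv1 z)) (hclose z) (norm_nonneg _) zero_le_one)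
    nlinarith
  have hT2 : ‖T * star T - 1‖ ≤ ε := by
    refine graph_norm_le hc hp hq
      (sub_mem (graph_mul hc hw (graph_star hc hw)) one_mem_graph) hε.le fun z => ?_
    show ‖w z * star (w z) - 1‖ ≤ ε
    have he : w z * star (w z) - 1 = w z * star (w z - v z) + (w z - v z) * star (v z) := by
      rw [star_sub, sub_mul, mul_sub, Unitary.mul_star_self_of_mem (hvu z)]; abel
    rw [he]
    refine (norm_add_le _ _).trans ?_
    have h1 := (norm_mul_le (w z) (star (w z - v z))).trans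
      (mul_le_mul (hw1 z) ((norm_star _).trans_le (hclose z)) (norm_nonneg _) (by linarith))
    have h2 := (norm_mul_le (w z - v z) (star (v z))).trans
      (mul_le_mul (hclose z) ((norm_star _).trans_le (hv1 z)) (norm_nonneg _) hη.le)
    nlinarith
  refine ⟨T, hT1, hT2, fun g hg => ?_, fun x c hx => ?_⟩
  · show Commute g (mesh ψ₁ ψ₂ hp hq hn v)
    rw [mesh_eq ψ₁ ψ₂ hc]
    exact Commute.sum_right _ _ _ fun a _ => Commute.sum_right _ _ _ fun b _ =>
      Commute.sum_right _ _ _ fun J _ => Commute.sum_right _ _ _ fun J' _ =>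
        ((hg _).1.mul_right (hg _).2).smul_right _
  · have hc0 : 0 ≤ c := (norm_nonneg _).trans (hx 0 0)
    set x' : C(I, Fib p q) := (x : C(I, Fib p q))
    have hX : (ψ₁ x, tens x 1) ∈ graph ψ₁ ψ₂ := by simpa using mem_graph ψ₁ ψ₂ x 1
    have hY : (ψ₂ x, tens 1 x) ∈ graph ψ₁ ψ₂ := by simpa using mem_graph ψ₁ ψ₂ 1 x
    refine graph_norm_le hc hp hq (sub_mem (graph_mul hc hw hX) (graph_mul hc hY hw))
      (by positivity) fun z => ?_
    obtain ⟨s, t⟩ := z
    show ‖w (s, t) * (x' s ⊗ₖ (1 : Fib p q)) - (1 : Fib p q) ⊗ₖ x' t * w (s, t)‖ ≤ _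
    have hL : ‖x' s ⊗ₖ (1 : Fib p q)‖ ≤ ‖x'‖ :=
      (NonUnitalStarAlgHom.norm_apply_le (HalfFlip.lefts p q) (x' s)).trans (x'.norm_coe_le_norm s)
    have hR : ‖(1 : Fib p q) ⊗ₖ x' t‖ ≤ ‖x'‖ :=
      (NonUnitalStarAlgHom.norm_apply_le (HalfFlip.rights p q) (x' t)).trans (x'.norm_coe_le_norm t)
    have h := hx s t
    have he : w (s, t) * (x' s ⊗ₖ (1 : Fib p q)) - (1 : Fib p q) ⊗ₖ x' t * w (s, t) =
        (v (s, t) * (x' s ⊗ₖ (1 : Fib p q)) - (1 : Fib p q) ⊗ₖ x' t * v (s, t)) +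
          ((w (s, t) - v (s, t)) * (x' s ⊗ₖ (1 : Fib p q)) -
            (1 : Fib p q) ⊗ₖ x' t * (w (s, t) - v (s, t))) := by
      rw [sub_mul, mul_sub]; abel
    rw [he]
    refine (norm_add_le _ _).trans (add_le_add h ((norm_sub_le _ _).trans ?_))
    have h1 := (norm_mul_le (w (s, t) - v (s, t)) (x' s ⊗ₖ (1 : Fib p q))).trans
      (mul_le_mul (hclose (s, t)) hL (norm_nonneg _) hη.le)
    have h2 := (norm_mul_le ((1 : Fib p q) ⊗ₖ x' t) (w (s, t) - v (s, t))).trans
      (mul_le_mul hR (hclose (s, t)) (norm_nonneg _) (norm_nonneg _))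
    nlinarith [norm_nonneg x']

end Vale.Agent.P101.Bridge.Square
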