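import Vale.Agent.P101.Bridge.Pins

/-!
P101 bridge, S: hat functions of a mesh of the interval.
-/

namespace Vale.Agent.P101.Bridge.Square

open scoped unitInterval

/-- The hat at the node `a` of the mesh `n`. -/
noncomputable def hat (n : ℕ) (a : ℕ) : C(I, ℝ) :=
  ⟨fun s => max 0 (1 - |(n : ℝ) * s - a|), by fun_prop⟩

lemma hat_nonneg (n a : ℕ) (s : I) : 0 ≤ hat n a s := le_max_left _ _

lemma hat_sum_aux (n : ℕ) : ∀ x : ℝ, 0 ≤ x →
    (x ≤ n → ∑ a ∈ Finset.range (n + 1), max 0 (1 - |x - a|) = 1) ∧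
    ((n : ℝ) ≤ x → ∑ a ∈ Finset.range (n + 1), max 0 (1 - |x - a|) = max 0 ((n : ℝ) + 1 - x)) := by
  induction n with
  | zero =>
    intro x hx
    refine ⟨fun h => ?_, fun _ => ?_⟩
    · obtain rfl : x = 0 := le_antisymm (by simpa using h) hx
      simp
    · simp [abs_of_nonneg hx]
  | succ n ih =>
    intro x hx
    obtain ⟨h1, h2⟩ := ih x hx
    rw [Finset.sum_range_succ (n := n + 1)]
    push_cast
    constructor
    · intro h
      rcases le_total x n with h' | h'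
      · rw [h1 h', abs_of_nonpos (by linarith), max_eq_left (by linarith)]
        ring
      · rw [h2 h', abs_of_nonpos (by linarith), max_eq_right (by linarith),
          max_eq_right (by linarith)]
        ring
    · intro h
      rw [h2 (by linarith), max_eq_left (by linarith : (n : ℝ) + 1 - x ≤ 0),
        abs_of_nonneg (by linarith), zero_add]
      ring_nf

lemma hat_sum (n : ℕ) (s : I) : ∑ a : Fin (n + 1), hat n a s = 1 := by
  rw [Fin.sum_univ_eq_sum_range (fun a => hat n a s) (n + 1)]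
  exact (hat_sum_aux n ((n : ℝ) * s) (mul_nonneg (Nat.cast_nonneg n) s.2.1)).1
    (mul_le_of_le_one_right (Nat.cast_nonneg n) s.2.2)

/-- The node `a` of the mesh `n`. -/
noncomputable def node (n : ℕ) (a : Fin (n + 1)) : I :=
  ⟨(a : ℕ) / (n : ℝ), div_nonneg (Nat.cast_nonneg _) (Nat.cast_nonneg _),
    div_le_one_of_le₀ (Nat.cast_le.2 (Nat.lt_succ_iff.1 a.2)) (Nat.cast_nonneg _)⟩

lemma hat_eq_zero {n : ℕ} (hn : n ≠ 0) {a : Fin (n + 1)} {s : I}
    (h : 1 / (n : ℝ) ≤ dist s (node n a)) : hat n a s = 0 := by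
  have hn' : (0 : ℝ) < n := by positivity
  rw [Subtype.dist_eq, Real.dist_eq, node] at h
  simp only [hat, ContinuousMap.coe_mk]
  rw [max_eq_left]
  have e : (n : ℝ) * s - (a : ℕ) = n * ((s : ℝ) - (a : ℕ) / n) := by field_simp
  rw [e, abs_mul, abs_of_pos hn']
  rw [div_le_iff₀ hn'] at h
  linarith

lemma hat_zero_left {n : ℕ} {a : Fin (n + 1)} (h : a ≠ 0) : hat n a 0 = 0 := by
  have h1 : (1 : ℝ) ≤ (a : ℕ) :=
    Nat.one_le_cast.2 (Nat.one_le_iff_ne_zero.2 fun e => h (Fin.ext e))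
  simp only [hat, ContinuousMap.coe_mk, Set.Icc.coe_zero, mul_zero, zero_sub, abs_neg,
    Nat.abs_cast]
  exact max_eq_left (by linarith)

lemma hat_zero_right {n : ℕ} {a : Fin (n + 1)} (h : a ≠ Fin.last n) : hat n a 1 = 0 := by
  have h1 : ((a : ℕ) : ℝ) + 1 ≤ n := by
    exact_mod_cast Nat.lt_iff_le_and_ne.2 ⟨Nat.lt_succ_iff.1 a.2, fun e => h (Fin.ext e)⟩
  simp only [hat, ContinuousMap.coe_mk, Set.Icc.coe_one, mul_one]
  rw [abs_of_nonneg (by linarith)]
  exact max_eq_left (by linarith)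

/-- A convex combination of values near `y` is near `y`. -/
lemma norm_sum_smul_sub_le {κ E : Type*} [Fintype κ] [NormedAddCommGroup E] [NormedSpace ℂ E]
    (w : κ → ℝ) (hw : ∀ i, 0 ≤ w i) (h1 : ∑ i, w i = 1) (z : κ → E) (y : E) {η : ℝ}
    (hη : 0 ≤ η) (h : ∀ i, w i ≠ 0 → ‖z i - y‖ ≤ η) :
    ‖∑ i, (w i : ℂ) • z i - y‖ ≤ η := by
  have e : ∑ i, (w i : ℂ) • z i - y = ∑ i, (w i : ℂ) • (z i - y) := by
    simp only [smul_sub, Finset.sum_sub_distrib, ← Finset.sum_smul]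
    rw [← Complex.ofReal_sum, h1, Complex.ofReal_one, one_smul]
  rw [e]
  calc ‖∑ i, (w i : ℂ) • (z i - y)‖ ≤ ∑ i, ‖(w i : ℂ) • (z i - y)‖ := norm_sum_le _ _
    _ ≤ ∑ i, w i * η := Finset.sum_le_sum fun i _ => by
        rw [norm_smul, Complex.norm_real, Real.norm_of_nonneg (hw i)]
        rcases eq_or_ne (w i) 0 with h0 | h0
        · simp [h0]
        · exact mul_le_mul_of_nonneg_left (h i h0) (hw i)
    _ = η := by rw [← Finset.sum_mul, h1, one_mul]

end Vale.Agent.P101.Bridge.Square
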