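import Vale.Agent.P101.Bridge.SquareRows
import Vale.Agent.P101.Bridge.ChainStep
import Vale.Agent.P101.Bridge.Limit

/-!
P101 bridge, S: a scalar matrix between rows with `Σ R R* = 1` has at most its own norm, and the
resulting contraction from functions on the square, evaluated at the nodes of a mesh.
-/

namespace Vale.Agent.P101.Bridge.Square

open Vale.Agent.P101.DropN
open scoped Matrix Matrix.Norms.L2Operator Kronecker unitInterval

attribute [local instance] CStarAlgebra.spectralOrder CStarAlgebra.spectralOrderedRing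

lemma norm_le_one_of_proj {C : Type*} [CStarAlgebra C] {P : C} (h : star P * P = P) :
    ‖P‖ ≤ 1 := by
  have h1 := CStarRing.norm_star_mul_self (x := P)
  rw [h] at h1
  nlinarith [norm_nonneg P]

lemma row_norm_le {G : Type} [CStarAlgebra G] {K : Type} [Fintype K] [DecidableEq K] (R : K → G)
    (hR : ∑ k, R k * star (R k) = 1) (M : Matrix K K ℂ) :
    ‖∑ k, ∑ l, M k l • (R k * star (R l))‖ ≤ ‖M‖ := by
  rcases isEmpty_or_nonempty K with hK | hK
  · simp
  obtain ⟨k₀⟩ := hK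
  set Rt : CStarMatrix K K G := CStarMatrix.ofMatrix fun k l => if k = k₀ then R l else 0
  have hRt : ∀ k l, Rt k l = if k = k₀ then R l else 0 := fun _ _ => rfl
  have hsq : ∀ k l, (Rt * star Rt) k l = if k = k₀ ∧ l = k₀ then 1 else 0 := by
    intro k l
    rw [CStarMatrix.mul_apply]
    simp only [CStarMatrix.star_apply, hRt]
    by_cases hk : k = k₀ <;> by_cases hl : l = k₀ <;> simp [hk, hl, hR]
  have hproj : star (Rt * star Rt) * (Rt * star Rt) = Rt * star Rt := by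
    ext k l
    rw [CStarMatrix.mul_apply]
    simp only [CStarMatrix.star_apply, hsq]
    by_cases hk : k = k₀ <;> by_cases hl : l = k₀ <;> simp [hk, hl, apply_ite star]
  have hnorm : ‖Rt‖ * ‖Rt‖ ≤ 1 := by
    rw [← CStarRing.norm_self_mul_star]
    exact norm_le_one_of_proj hproj
  have he : (Rt * scalarMat G K M * star Rt) k₀ k₀ = ∑ k, ∑ l, M k l • (R k * star (R l)) := by
    rw [CStarMatrix.mul_apply]
    simp only [CStarMatrix.star_apply, CStarMatrix.mul_apply, hRt, if_true, scalarMat_apply,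
      Finset.sum_mul, ← Algebra.commutes, ← Algebra.smul_def, smul_mul_assoc]
    rw [Finset.sum_comm]
  rw [← he]
  refine CStarMatrix.norm_entry_le_norm.trans ?_
  calc ‖Rt * scalarMat G K M * star Rt‖ ≤ ‖Rt‖ * ‖scalarMat G K M‖ * ‖Rt‖ := by
        refine (norm_mul_le _ _).trans ?_
        rw [norm_star]
        exact mul_le_mul_of_nonneg_right (norm_mul_le _ _) (norm_nonneg _)
    _ = ‖scalarMat G K M‖ * (‖Rt‖ * ‖Rt‖) := by ring
    _ ≤ ‖M‖ * 1 := mul_le_mul (NonUnitalStarAlgHom.norm_apply_le _ _) hnorm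
        (by positivity) (norm_nonneg _)
    _ = ‖M‖ := mul_one _

section Mesh

variable {p q : ℕ} {G : Type} [CStarAlgebra G] (ψ₁ ψ₂ : ZPair p q →⋆ₐ[ℂ] G)

/-- The indices of the mesh. -/
abbrev MeshIdx (p q n : ℕ) :=
  ((Fin p × Fin q) × (Fin p × Fin q)) × (Fin (n + 1) × Fin (n + 1))

/-- The rows in `G`. -/
noncomputable def meshRow (hp : 0 < p) (hq : 0 < q) {n : ℕ} (hn : n ≠ 0) (k : MeshIdx p q n) : G :=
  ψ₁ (row hp hq hn k.2.1 k.1.1) * ψ₂ (row hp hq hn k.2.2 k.1.2)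

lemma meshRow_mul_star (hc : ∀ x y, Commute (ψ₁ x) (ψ₂ y)) (hp : 0 < p) (hq : 0 < q) {n : ℕ}
    (hn : n ≠ 0) (k l : MeshIdx p q n) :
    meshRow ψ₁ ψ₂ hp hq hn k * star (meshRow ψ₁ ψ₂ hp hq hn l) =
      ψ₁ (row hp hq hn k.2.1 k.1.1 * star (row hp hq hn l.2.1 l.1.1)) *
        ψ₂ (row hp hq hn k.2.2 k.1.2 * star (row hp hq hn l.2.2 l.1.2)) := by
  simp only [meshRow, star_mul, map_mul, ← map_star, mul_assoc]
  rw [← mul_assoc (ψ₂ (row hp hq hn k.2.2 k.1.2)) (ψ₂ _) (ψ₁ _), ← map_mul,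
    ← (hc (star (row hp hq hn l.2.1 l.1.1)) _).eq, map_mul]

lemma meshRow_sum (hc : ∀ x y, Commute (ψ₁ x) (ψ₂ y)) (hp : 0 < p) (hq : 0 < q) {n : ℕ}
    (hn : n ≠ 0) :
    ∑ k, meshRow ψ₁ ψ₂ hp hq hn k * star (meshRow ψ₁ ψ₂ hp hq hn k) = 1 := by
  simp only [meshRow_mul_star ψ₁ ψ₂ hc]
  have h1 := congrArg ψ₁ (row_sum hp hq hn)
  have h2 := congrArg ψ₂ (row_sum hp hq hn)
  simp only [map_one, map_sum] at h1 h2
  have h : ∑ k : MeshIdx p q n, ψ₁ (row hp hq hn k.2.1 k.1.1 * star (row hp hq hn k.2.1 k.1.1)) *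
      ψ₂ (row hp hq hn k.2.2 k.1.2 * star (row hp hq hn k.2.2 k.1.2)) =
      (∑ a, ∑ J, ψ₁ (row hp hq hn a J * star (row hp hq hn a J))) *
        ∑ a, ∑ J, ψ₂ (row hp hq hn a J * star (row hp hq hn a J)) := by
    simp only [← Fintype.sum_prod_type']
    rw [Fintype.sum_mul_sum, ← Fintype.sum_prod_type']
    exact Fintype.sum_equiv
      { toFun := fun k => ((k.2.1, k.1.1), (k.2.2, k.1.2))
        invFun := fun y => ((y.1.2, y.2.2), (y.1.1, y.2.1))
        left_inv := fun _ => rfl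
        right_inv := fun _ => rfl } _ _ fun _ => rfl
  rw [h, h1, h2, mul_one]

/-- The evaluation of a function on the square at the nodes. -/
noncomputable def mesh (hp : 0 < p) (hq : 0 < q) {n : ℕ} (hn : n ≠ 0) :
    C(I × I, Fib2 p q) →ₗ[ℂ] G where
  toFun F := ∑ k, ∑ l, blockHom (Equiv.refl (MeshIdx p q n))
    (fun ab => F (node n ab.1, node n ab.2)) k l •
      (meshRow ψ₁ ψ₂ hp hq hn k * star (meshRow ψ₁ ψ₂ hp hq hn l))
  map_add' F F' := by
    rw [show (fun ab : Fin (n + 1) × Fin (n + 1) => (F + F') (node n ab.1, node n ab.2)) =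
      (fun ab => F (node n ab.1, node n ab.2)) + fun ab => F' (node n ab.1, node n ab.2) from rfl,
      map_add]
    simp only [Matrix.add_apply, add_smul, Finset.sum_add_distrib]
  map_smul' c F := by
    rw [show (fun ab : Fin (n + 1) × Fin (n + 1) => (c • F) (node n ab.1, node n ab.2)) =
      c • fun ab => F (node n ab.1, node n ab.2) from rfl, map_smul]
    simp only [Matrix.smul_apply, smul_eq_mul, ← smul_smul, Finset.smul_sum, RingHom.id_apply]

lemma norm_mesh_le (hc : ∀ x y, Commute (ψ₁ x) (ψ₂ y)) (hp : 0 < p) (hq : 0 < q) {n : ℕ}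
    (hn : n ≠ 0) (F : C(I × I, Fib2 p q)) {C : ℝ} (hC : 0 ≤ C) (hF : ∀ z, ‖F z‖ ≤ C) :
    ‖mesh ψ₁ ψ₂ hp hq hn F‖ ≤ C :=
  (row_norm_le _ (meshRow_sum ψ₁ ψ₂ hc hp hq hn) _).trans
    ((NonUnitalStarAlgHom.norm_apply_le _ _).trans
      ((pi_norm_le_iff_of_nonneg hC).2 fun _ => hF _))

lemma mesh_eq (hc : ∀ x y, Commute (ψ₁ x) (ψ₂ y)) (hp : 0 < p) (hq : 0 < q) {n : ℕ}
    (hn : n ≠ 0) (F : C(I × I, Fib2 p q)) :
    mesh ψ₁ ψ₂ hp hq hn F = ∑ a, ∑ b, ∑ J, ∑ J',
      F (node n a, node n b) J J' •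
        (ψ₁ (row hp hq hn a J.1 * star (row hp hq hn a J'.1)) *
          ψ₂ (row hp hq hn b J.2 * star (row hp hq hn b J'.2))) := by
  show ∑ k, ∑ l, _ • _ = _
  simp only [blockHom_apply, Equiv.refl_symm, Matrix.reindex_apply, Matrix.submatrix_apply,
    Equiv.refl_apply, Matrix.blockDiagonal_apply, meshRow_mul_star ψ₁ ψ₂ hc]
  rw [Fintype.sum_prod_type, Finset.sum_comm]
  rw [Fintype.sum_prod_type]
  refine Finset.sum_congr rfl fun a _ => Finset.sum_congr rfl fun b _ =>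
    Finset.sum_congr rfl fun J _ => ?_
  rw [Fintype.sum_prod_type]
  refine Finset.sum_congr rfl fun J' _ => ?_
  rw [Fintype.sum_eq_single (a, b) (fun ab hab => by rw [if_neg (Ne.symm hab), zero_smul]),
    if_pos rfl]

end Mesh

end Vale.Agent.P101.Bridge.Square
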