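import Vale.Agent.P101.Bridge.SquareHat

/-!
P101 bridge, S: rows in Z(p,q) at the nodes of a mesh. `Σ_I r r* = hat`, and for a matrix in the
algebra of the node, `Σ M_{II'} r_I r_{I'}* = hat • M`.
-/

namespace Vale.Agent.P101.Bridge.Square

open Vale.Agent.P101.DropN
open scoped Matrix Matrix.Norms.L2Operator Kronecker unitInterval

variable {p q : ℕ}

/-- The matrices of the rows at a node. -/
noncomputable def frame (hp : 0 < p) (hq : 0 < q) (n : ℕ) (a : Fin (n + 1))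
    (J : Fin p × Fin q) : Fib p q :=
  if a = 0 then ((Real.sqrt q)⁻¹ : ℂ) •
    (Matrix.single J.1 ⟨0, hp⟩ (1 : ℂ) ⊗ₖ (1 : Matrix (Fin q) (Fin q) ℂ))
  else if a = Fin.last n then ((Real.sqrt p)⁻¹ : ℂ) •
    ((1 : Matrix (Fin p) (Fin p) ℂ) ⊗ₖ Matrix.single J.2 ⟨0, hq⟩ (1 : ℂ))
  else Matrix.single J (⟨0, hp⟩, ⟨0, hq⟩) 1

/-- The matrices fixed at a node. -/
def AtNode (n : ℕ) (a : Fin (n + 1)) (S : Fib p q) : Prop :=
  (a = 0 → ∀ b : Matrix (Fin q) (Fin q) ℂ,
    Commute S ((1 : Matrix (Fin p) (Fin p) ℂ) ⊗ₖ b)) ∧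
  (a = Fin.last n → ∀ b : Matrix (Fin p) (Fin p) ℂ,
    Commute S (b ⊗ₖ (1 : Matrix (Fin q) (Fin q) ℂ)))

lemma inv_sqrt_sq {m : ℕ} (hm : 0 < m) :
    ((Real.sqrt m)⁻¹ : ℂ) * star ((Real.sqrt m)⁻¹ : ℂ) = (m : ℂ)⁻¹ := by
  rw [star_inv₀, Complex.star_def, Complex.conj_ofReal, ← mul_inv, ← Complex.ofReal_mul,
    Real.mul_self_sqrt (Nat.cast_nonneg m), Complex.ofReal_natCast]

lemma kron_left_eq (hq : 0 < q) {S : Fib p q}
    (h : ∀ b : Matrix (Fin q) (Fin q) ℂ, Commute S ((1 : Matrix (Fin p) (Fin p) ℂ) ⊗ₖ b)) :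
    S = (Matrix.of fun i i' => S (i, ⟨0, hq⟩) (i', ⟨0, hq⟩)) ⊗ₖ
      (1 : Matrix (Fin q) (Fin q) ℂ) := by
  ext ⟨i, j⟩ ⟨i', j'⟩
  have h1 := congrFun (congrFun (h (Matrix.single ⟨0, hq⟩ j 1)).eq (i, ⟨0, hq⟩)) (i', j')
  simp [Matrix.mul_apply, Fintype.sum_prod_type, Matrix.one_apply, Matrix.single_apply] at h1
  simp [Matrix.one_apply]
  rcases eq_or_ne j j' with rfl | hne
  · simp at h1 ⊢; exact h1.symm
  · simp [hne] at h1 ⊢; exact h1.symm

lemma kron_right_eq (hp : 0 < p) {S : Fib p q}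
    (h : ∀ b : Matrix (Fin p) (Fin p) ℂ, Commute S (b ⊗ₖ (1 : Matrix (Fin q) (Fin q) ℂ))) :
    S = (1 : Matrix (Fin p) (Fin p) ℂ) ⊗ₖ
      (Matrix.of fun j j' => S (⟨0, hp⟩, j) (⟨0, hp⟩, j')) := by
  ext ⟨i, j⟩ ⟨i', j'⟩
  have h1 := congrFun (congrFun (h (Matrix.single ⟨0, hp⟩ i 1)).eq (⟨0, hp⟩, j)) (i', j')
  simp [Matrix.mul_apply, Fintype.sum_prod_type, Matrix.one_apply, Matrix.single_apply] at h1
  simp [Matrix.one_apply]
  rcases eq_or_ne i i' with rfl | hne
  · simp at h1 ⊢; exact h1.symm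
  · simp [hne] at h1 ⊢; exact h1.symm

/-- The frame reproduces the matrices fixed at its node. -/
lemma frame_fixed (hp : 0 < p) (hq : 0 < q) {n : ℕ} {a : Fin (n + 1)} {S : Fib p q}
    (hS : AtNode n a S) :
    ∑ J, ∑ J', S J J' • (frame hp hq n a J * star (frame hp hq n a J')) = S := by
  obtain ⟨h0, h1⟩ := hS
  rcases eq_or_ne a 0 with ha | ha
  · have hA := kron_left_eq hq (h0 ha)
    set A : Matrix (Fin p) (Fin p) ℂ := Matrix.of fun i i' => S (i, ⟨0, hq⟩) (i', ⟨0, hq⟩)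
    rw [hA]
    have e : ∀ J J' : Fin p × Fin q, frame hp hq n a J * star (frame hp hq n a J') =
        (q : ℂ)⁻¹ • (Matrix.single J.1 J'.1 (1 : ℂ) ⊗ₖ (1 : Matrix (Fin q) (Fin q) ℂ)) := by
      intro J J'
      simp only [frame, if_pos ha, star_smul, Matrix.star_eq_conjTranspose,
        Matrix.conjTranspose_kronecker, Matrix.conjTranspose_one, Matrix.conjTranspose_single,
        star_one, smul_mul_assoc, mul_smul_comm, smul_smul, ← Matrix.mul_kronecker_mul,
        Matrix.single_mul_single_same, mul_one]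
      rw [mul_comm (star _), inv_sqrt_sq hq]
    simp only [e]
    ext ⟨i, j⟩ ⟨i', j'⟩
    have hq' : (q : ℂ) ≠ 0 := Nat.cast_ne_zero.2 hq.ne'
    simp [Matrix.sum_apply, Fintype.sum_prod_type, Matrix.one_apply, Matrix.single_apply, ite_and]
    split_ifs <;> field_simp
  rcases eq_or_ne a (Fin.last n) with hl | hl
  · have hA := kron_right_eq hp (h1 hl)
    set A : Matrix (Fin q) (Fin q) ℂ := Matrix.of fun j j' => S (⟨0, hp⟩, j) (⟨0, hp⟩, j')
    rw [hA]
    have e : ∀ J J' : Fin p × Fin q, frame hp hq n a J * star (frame hp hq n a J') =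
        (p : ℂ)⁻¹ • ((1 : Matrix (Fin p) (Fin p) ℂ) ⊗ₖ Matrix.single J.2 J'.2 (1 : ℂ)) := by
      intro J J'
      simp only [frame, if_neg ha, if_pos hl, star_smul, Matrix.star_eq_conjTranspose,
        Matrix.conjTranspose_kronecker, Matrix.conjTranspose_one, Matrix.conjTranspose_single,
        star_one, smul_mul_assoc, mul_smul_comm, smul_smul, ← Matrix.mul_kronecker_mul,
        Matrix.single_mul_single_same, mul_one]
      rw [mul_comm (star _), inv_sqrt_sq hp]
    simp only [e]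
    ext ⟨i, j⟩ ⟨i', j'⟩
    have hp' : (p : ℂ) ≠ 0 := Nat.cast_ne_zero.2 hp.ne'
    simp [Matrix.sum_apply, Fintype.sum_prod_type, Matrix.one_apply, Matrix.single_apply, ite_and]
    split_ifs <;> field_simp
  · have e : ∀ J J' : Fin p × Fin q, frame hp hq n a J * star (frame hp hq n a J') =
        Matrix.single J J' 1 := by
      intro J J'
      simp [frame, if_neg ha, if_neg hl, Matrix.star_eq_conjTranspose, Matrix.conjTranspose_single]
    simp only [e, Matrix.smul_single, smul_eq_mul, mul_one]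
    exact (Matrix.matrix_eq_sum_single S).symm

lemma atNode_one (n : ℕ) (a : Fin (n + 1)) : AtNode n a (1 : Fib p q) :=
  ⟨fun _ _ => Commute.one_left _, fun _ _ => Commute.one_left _⟩

lemma frame_sum (hp : 0 < p) (hq : 0 < q) (n : ℕ) (a : Fin (n + 1)) :
    ∑ J, frame hp hq n a J * star (frame hp hq n a J) = 1 := by
  have h := frame_fixed hp hq (atNode_one (p := p) (q := q) n a)
  simpa [Matrix.one_apply, ite_smul] using h

/-- The rows. -/
noncomputable def row (hp : 0 < p) (hq : 0 < q) {n : ℕ} (hn : n ≠ 0) (a : Fin (n + 1))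
    (J : Fin p × Fin q) : ZPair p q :=
  ⟨⟨fun s => (Real.sqrt (hat n a s) : ℂ) • frame hp hq n a J, by fun_prop⟩, by
    have h0n : (0 : Fin (n + 1)) ≠ Fin.last n := fun e => hn (by simpa using congrArg Fin.val e.symm)
    refine ⟨?_, ?_⟩
    · rcases eq_or_ne a 0 with ha | ha
      · refine ⟨((Real.sqrt (hat n a 0) : ℂ) * (Real.sqrt q)⁻¹) •
          Matrix.single J.1 ⟨0, hp⟩ (1 : ℂ), ?_⟩
        simp [frame, ha, smul_smul]
        rw [← Matrix.smul_kronecker, Matrix.smul_single, smul_eq_mul, mul_one]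
      · exact ⟨0, by simp [hat_zero_left ha]⟩
    · rcases eq_or_ne a (Fin.last n) with hl | hl
      · refine ⟨((Real.sqrt (hat n a 1) : ℂ) * (Real.sqrt p)⁻¹) •
          Matrix.single J.2 ⟨0, hq⟩ (1 : ℂ), ?_⟩
        simp [frame, hl, h0n.symm, smul_smul]
        rw [← Matrix.kronecker_smul, Matrix.smul_single, smul_eq_mul, mul_one]
      · exact ⟨0, by simp [hat_zero_right hl]⟩⟩

lemma row_mul_star (hp : 0 < p) (hq : 0 < q) {n : ℕ} (hn : n ≠ 0) (a : Fin (n + 1))
    (J J' : Fin p × Fin q) (s : I) :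
    ((row hp hq hn a J * star (row hp hq hn a J') : ZPair p q) : C(I, Fib p q)) s =
      (hat n a s : ℂ) • (frame hp hq n a J * star (frame hp hq n a J')) := by
  show (Real.sqrt (hat n a s) : ℂ) • frame hp hq n a J *
    star ((Real.sqrt (hat n a s) : ℂ) • frame hp hq n a J') = _
  rw [star_smul, Complex.star_def, Complex.conj_ofReal, smul_mul_assoc, mul_smul_comm, smul_smul,
    ← Complex.ofReal_mul, Real.mul_self_sqrt (hat_nonneg n a s)]

lemma row_sum (hp : 0 < p) (hq : 0 < q) {n : ℕ} (hn : n ≠ 0) :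
    ∑ a, ∑ J, row hp hq hn a J * star (row hp hq hn a J) = (1 : ZPair p q) := by
  refine Subtype.ext (ContinuousMap.ext fun s => ?_)
  simp only [AddSubmonoidClass.coe_finsetSum, ContinuousMap.coe_sum, Finset.sum_apply,
    row_mul_star, ← Finset.smul_sum, frame_sum]
  rw [← Finset.sum_smul, ← Complex.ofReal_sum, hat_sum, Complex.ofReal_one, one_smul]
  rfl

lemma atNode_of_mem (n : ℕ) (a : Fin (n + 1)) (hn : n ≠ 0) (f : ZPair p q) :
    AtNode n a ((f : C(I, Fib p q)) (node n a)) := by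
  obtain ⟨f, ⟨A, hA⟩, ⟨B, hB⟩⟩ := f
  constructor
  · intro ha b
    rw [show node n a = 0 from Subtype.ext (by simp [node, ha])]
    show Commute (f 0) _
    rw [hA]
    show _ * _ = _ * _
    rw [← Matrix.mul_kronecker_mul, ← Matrix.mul_kronecker_mul, one_mul, mul_one, one_mul, mul_one]
  · intro ha b
    rw [show node n a = 1 from Subtype.ext (by simp [node, ha, hn])]
    show Commute (f 1) _
    rw [hB]
    show _ * _ = _ * _
    rw [← Matrix.mul_kronecker_mul, ← Matrix.mul_kronecker_mul, one_mul, mul_one, one_mul, mul_one]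

/-- The interpolation of `f` through the rows. -/
noncomputable def interp (hp : 0 < p) (hq : 0 < q) {n : ℕ} (hn : n ≠ 0) (f : ZPair p q) :
    ZPair p q :=
  ∑ a, ∑ J, ∑ J', (f : C(I, Fib p q)) (node n a) J J' •
    (row hp hq hn a J * star (row hp hq hn a J'))

lemma interp_apply (hp : 0 < p) (hq : 0 < q) {n : ℕ} (hn : n ≠ 0) (f : ZPair p q) (s : I) :
    (interp hp hq hn f : C(I, Fib p q)) s =
      ∑ a : Fin (n + 1), (hat n a s : ℂ) • (f : C(I, Fib p q)) (node n a) := by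
  simp only [interp, AddSubmonoidClass.coe_finsetSum, ContinuousMap.coe_sum, Finset.sum_apply,
    SetLike.val_smul, ContinuousMap.smul_apply, row_mul_star, smul_comm _ ((hat n _ s : ℂ)),
    ← Finset.smul_sum, frame_fixed hp hq (atNode_of_mem n _ hn f)]

end Vale.Agent.P101.Bridge.Square
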